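import Vale.Agent.P050.R3.H257.Base

/-!
# P050, books, rough books and covers: the class of graphs built vertex by vertex
-/

namespace Vale.Agent.P050.Books

open Finset

/-- the three kinds of records -/
inductive Kind
  | book
  | rough
  | cover

/-- The records (kind, spine, pages, number) derived from the records in `F`: pages of books and
rough books may be dropped; a book is a rough book; among the books with number one, a book whose
spine is one vertex and a book with one page are exchanged; a rough book whose spine is one vertex
is a book with number one; the set `P` of pages of a rough book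
with spine `Q` and number `l ≤ |P|` is the spine of a rough book without pages with number `|Q|`,
even of a book if `|Q| ≥ 2`; a book with number `l ≤ |P|` is a cover with number `|Q|`; the spine
of a cover may be replaced by a nonempty subset; the set of pages of a cover is the spine of a
rough book without pages, with the same number. -/
inductive Der {V : Type} [DecidableEq V] (F : Set (Kind × Finset V × Finset V × ℕ)) :
    Kind → Finset V → Finset V → ℕ → Prop
  | base {κ : Kind} {Q P : Finset V} {l : ℕ} : (κ, Q, P, l) ∈ F → Der F κ Q P l
  | sub {Q P P' : Finset V} {l : ℕ} : Der F Kind.book Q P l → P' ⊆ P → Der F Kind.book Q P' l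
  | subr {Q P P' : Finset V} {l : ℕ} :
      Der F Kind.rough Q P l → P' ⊆ P → Der F Kind.rough Q P' l
  | forget {Q P : Finset V} {l : ℕ} : Der F Kind.book Q P l → Der F Kind.rough Q P l
  | flip {a : V} {P : Finset V} : Der F Kind.book {a} P 1 → P.Nonempty → Der F Kind.book P {a} 1
  | flip' {a : V} {P : Finset V} : Der F Kind.book P {a} 1 → Der F Kind.book {a} P 1
  | exact {a : V} {P : Finset V} {l : ℕ} : Der F Kind.rough {a} P l → Der F Kind.book {a} P 1
  | turn {Q P : Finset V} {l : ℕ} : Der F Kind.rough Q P l → P.Nonempty → l ≤ P.card →
      2 ≤ Q.card → Der F Kind.book P ∅ Q.card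
  | rturn {Q P : Finset V} {l : ℕ} : Der F Kind.rough Q P l → P.Nonempty → l ≤ P.card →
      Der F Kind.rough P ∅ Q.card
  | cover {Q P : Finset V} {l : ℕ} : Der F Kind.book Q P l → P.Nonempty → l ≤ P.card →
      Der F Kind.cover Q P Q.card
  | shrink {Q Q' P : Finset V} {l : ℕ} : Der F Kind.cover Q P l → Q' ⊆ Q → Q'.Nonempty →
      Der F Kind.cover Q' P l
  | rough {Q P : Finset V} {l : ℕ} : Der F Kind.cover Q P l → Der F Kind.rough P ∅ l

/-- `BuiltC H U F`: the subgraph of `H` induced on the set `U` of vertices can be built vertex by
vertex, and `F` is the set of records. One starts with one vertex `v` and the book with spine `v`,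
no page, and number one. A new vertex whose neighbours among the old vertices form the spine `R`
of a derived rough book may be added; it becomes a new page of all derived records with spine `R`.
A new vertex with one neighbour may be added. -/
inductive BuiltC {V : Type} [DecidableEq V] (H : SimpleGraph V) :
    Finset V → Set (Kind × Finset V × Finset V × ℕ) → Prop
  | point (v : V) : BuiltC H {v} {(Kind.book, {v}, ∅, 1)}
  | page {U : Finset V} {F : Set (Kind × Finset V × Finset V × ℕ)} {v : V} {R : Finset V}
      {l : ℕ} : BuiltC H U F → v ∉ U → R.Nonempty → R ⊆ U → (∀ x ∈ U, H.Adj v x ↔ x ∈ R) →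
      Der F Kind.rough R ∅ l →
      BuiltC H (insert v U) (F ∪ {p | ∃ κ P m, Der F κ R P m ∧ p = (κ, R, insert v P, m)})
  | pendant {U : Finset V} {F : Set (Kind × Finset V × Finset V × ℕ)} {u v : V} :
      BuiltC H U F → v ∉ U → u ∈ U → (∀ x ∈ U, H.Adj v x ↔ x = u) → BuiltC H (insert v U) F

end Vale.Agent.P050.Books
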