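import Vale.Agent.P050.R4.H22.Ent

/-!
# P050: laws which are invariant under permutations of a set of vertices
-/

set_option linter.unusedSectionVars false

namespace Vale.Agent.P050.Books

open Finset Vale.Agent.P050.Lev Vale.Agent.P050.Ears

section Sym

variable {V S : Type} [Fintype V] [DecidableEq V] [Fintype S]
  {side : V → Bool} {A : Matrix S S ℝ} {μ : S → ℝ} {c : S → Bool}

/-- the law of the states of `W` is invariant under the permutations of `Q` -/
def Symm (side : V → Bool) (μ : S → ℝ) (c : S → Bool) (ρ : (V → S) → ℝ) (Q W : Finset V) :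
    Prop :=
  ∀ σ : Equiv.Perm V, (∀ v, v ∉ Q → σ v = v) → (∀ v, side (σ v) = side v) →
    ∀ f : (V → S) → ℝ, DepOn W f →
      EM side μ c (fun z => ρ z * f (z ∘ σ)) = EM side μ c (fun z => ρ z * f z)

omit [Fintype V] [DecidableEq V] in
theorem perm_mem {σ : Equiv.Perm V} {Q : Finset V} (hσ : ∀ v, v ∉ Q → σ v = v) {u : V}
    (hu : u ∈ Q) : σ u ∈ Q := by
  by_contra hcon
  have h1 := hσ _ hcon
  have h2 := σ.injective h1
  rw [h2] at hcon
  exact hcon hu

omit [Fintype V] in
theorem perm_mem' {σ : Equiv.Perm V} {Q W : Finset V} (hσ : ∀ v, v ∉ Q → σ v = v) (hQ : Q ⊆ W)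
    {u : V} (hu : u ∈ W) : σ u ∈ W := by
  by_cases h : u ∈ Q
  · exact hQ (perm_mem hσ h)
  · rw [hσ u h]
    exact hu

omit [Fintype V] in
theorem perm_map {σ : Equiv.Perm V} {Q : Finset V} (hσ : ∀ v, v ∉ Q → σ v = v) :
    Q.map σ.toEmbedding = Q := by
  refine Finset.eq_of_subset_of_card_le (fun u hu => ?_) (Finset.card_map _).ge
  rw [Finset.mem_map] at hu
  obtain ⟨w, hw, rfl⟩ := hu
  exact perm_mem hσ hw

omit [Fintype V] in
theorem prod_perm {σ : Equiv.Perm V} {Q : Finset V} (hσ : ∀ v, v ∉ Q → σ v = v) (f : V → ℝ) :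
    ∏ i ∈ Q, f (σ i) = ∏ i ∈ Q, f i := by
  conv_rhs => rw [← perm_map hσ]
  rw [Finset.prod_map]
  rfl

omit [Fintype V] [Fintype S] in
theorem DepOn.comp {σ : Equiv.Perm V} {Q W : Finset V} (hσ : ∀ v, v ∉ Q → σ v = v)
    (hQ : Q ⊆ W) {f : (V → S) → ℝ} (hf : DepOn W f) : DepOn W (fun z => f (z ∘ σ)) :=
  fun _ _ hz => hf _ _ fun _ hu => hz _ (perm_mem' hσ hQ hu)

omit [Fintype V] in
theorem hQ_perm {σ : Equiv.Perm V} {Q : Finset V} (hσ : ∀ v, v ∉ Q → σ v = v) (z : V → S) :
    hQ A μ Q (z ∘ σ) = hQ A μ Q z := by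
  unfold hQ
  refine Finset.sum_congr rfl fun x _ => ?_
  congr 1
  exact prod_perm hσ fun i => kk A μ (z i) x

omit [Fintype V] in
/-- permutations of the spine -/
theorem dens_perm {σ : Equiv.Perm V} {Q P : Finset V} (hσ : ∀ v, v ∉ Q → σ v = v)
    (hP : ∀ j ∈ P, j ∉ Q) (z : V → S) : dens A μ Q P (z ∘ σ) = dens A μ Q P z := by
  unfold dens
  rw [hQ_perm hσ]
  congr 1
  have : ∀ i ∈ Q, ∏ j ∈ P, kk A μ ((z ∘ σ) i) ((z ∘ σ) j) =
      (fun i => ∏ j ∈ P, kk A μ (z i) (z j)) (σ i) := by
    intro i _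
    refine Finset.prod_congr rfl fun j hj => ?_
    show kk A μ (z (σ i)) (z (σ j)) = _
    rw [hσ j (hP j hj)]
  rw [Finset.prod_congr rfl this]
  exact prod_perm hσ fun i => ∏ j ∈ P, kk A μ (z i) (z j)

omit [Fintype V] in
/-- permutations of the pages -/
theorem wdens_perm {σ : Equiv.Perm V} {Q P : Finset V} {ψ : (V → S) → ℝ} (hψ : DepOn Q ψ)
    (hσ : ∀ v, v ∉ P → σ v = v) (hQ' : ∀ i ∈ Q, i ∉ P) (z : V → S) :
    wdens A μ ψ Q P (z ∘ σ) = wdens A μ ψ Q P z := by
  unfold wdens
  have hz : ∀ i ∈ Q, (z ∘ σ) i = z i := by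
    intro i hi
    show z (σ i) = z i
    rw [hσ i (hQ' i hi)]
  rw [depOn_hQ Q (z ∘ σ) z hz, hψ (z ∘ σ) z hz]
  congr 1
  refine Finset.prod_congr rfl fun i hi => ?_
  rw [hz i hi]
  exact prod_perm hσ fun j => kk A μ (z i) (z j)

/-- a density which is invariant gives an invariant law -/
theorem symm_of_dens {ρ D : (V → S) → ℝ} {Q W : Finset V} (hQ : Q ⊆ W)
    (hlaw : ∀ f : (V → S) → ℝ, DepOn W f →
      EM side μ c (fun z => ρ z * f z) = EM side μ c (fun z => D z * f z))
    (hD : ∀ σ : Equiv.Perm V, (∀ v, v ∉ Q → σ v = v) → ∀ z, D (z ∘ σ) = D z) :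
    Symm side μ c ρ Q W := by
  intro σ hσ hs f hf
  rw [hlaw _ (hf.comp hσ hQ), hlaw f hf, ← EM_perm σ hs (fun z => D z * f z)]
  exact EM_congr fun z _ => by rw [hD σ hσ z]

theorem IsBook.symm {U : Finset V} {ρ : (V → S) → ℝ} {Q P : Finset V}
    (hb : IsBook side A μ c U ρ Q P) : Symm side μ c ρ Q (Q ∪ P) :=
  symm_of_dens Finset.subset_union_left hb.law fun _ hσ z =>
    dens_perm hσ (fun _ hj => hb.notMem hj) z

theorem IsW.symm_pages {U : Finset V} {ρ : (V → S) → ℝ} {Q P : Finset V} {l : ℕ}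
    (hb : IsW side A μ c U ρ Q P l) : Symm side μ c ρ P (Q ∪ P) := by
  obtain ⟨ψ, hψ, hψ0, hψz, hlaw, hlog⟩ := hb.ex
  exact symm_of_dens Finset.subset_union_right hlaw fun _ hσ z =>
    wdens_perm hψ hσ (fun i hi hip => hb.notMem hip hi) z

theorem Symm.mono {ρ : (V → S) → ℝ} {Q Q' W W' : Finset V} (hs : Symm side μ c ρ Q W)
    (hQ : Q' ⊆ Q) (hW : W' ⊆ W) : Symm side μ c ρ Q' W' :=
  fun σ hσ hsd f hf => hs σ (fun v hv => hσ v fun h => hv (hQ h)) hsd f (hf.mono hW)

/-- the invariance persists -/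
theorem Symm.keep (h : Rev A μ c) {U R : Finset V} {v i : V} {ρ : (V → S) → ℝ}
    (hdep : DepOn U ρ) (hv : v ∉ U) (hR : R ⊆ U) (hi : i ∈ R) (hsd : side i ≠ side v)
    (hp : ∀ z : V → S, (∏ v, mm side μ c v (z v)) ≠ 0 → ρ z ≠ 0 → 0 < hQ A μ R z)
    {Q W : Finset V} (hQ : Q ⊆ W) (hW : W ⊆ U) (hs : Symm side μ c ρ Q W) :
    Symm side μ c (fun z => ρ z * rr A μ R v z) Q W := by
  intro σ hσ hsg f hf
  rw [persist h hdep hv hR hi hsd hp ((hf.comp hσ hQ).mono hW),
    persist h hdep hv hR hi hsd hp (hf.mono hW)]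
  exact hs σ hσ hsg f hf

/-- a new page does not break the symmetry of the spine -/
theorem Symm.page (h : Rev A μ c) {U R : Finset V} {v : V} {ρ : (V → S) → ℝ}
    (hdep : DepOn U ρ) (hv : v ∉ U) {P : Finset V} (hRP : R ∪ P ⊆ U)
    (hs : Symm side μ c ρ R (R ∪ P)) :
    Symm side μ c (fun z => ρ z * rr A μ R v z) R (R ∪ insert v P) := by
  intro σ hσ hsg f hf
  rw [Finset.union_insert] at hf
  have hvRP : v ∉ R ∪ P := fun hm => hv (hRP hm)
  have hvR : v ∉ R := fun hm => hvRP (mem_union_left _ hm)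
  have hRs : R ⊆ R ∪ P := Finset.subset_union_left
  let r : (V → S) → ℝ := fun z => rr A μ R v z * f z
  have hr : DepOn (insert v (R ∪ P)) r := (depOn_rr hRs).mul hf
  let g : (V → S) → ℝ := fun z => ∑ x, mm side μ c v x * r (Function.update z v x)
  have hg : DepOn (R ∪ P) g := by
    intro z z' hz
    refine Finset.sum_congr rfl fun x _ => ?_
    congr 1
    refine hr _ _ fun u hu => ?_
    by_cases huv : u = v
    · rw [huv, Function.update_self, Function.update_self]
    · rw [Function.update_of_ne huv, Function.update_of_ne huv]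
      exact hz u ((mem_insert.1 hu).resolve_left huv)
  have hrr : ∀ z : V → S, rr A μ R v (z ∘ σ) = rr A μ R v z := by
    intro z
    unfold rr
    rw [hQ_perm hσ]
    congr 1
    have e : (z ∘ σ) v = z v := by
      show z (σ v) = z v
      rw [hσ v hvR]
    rw [e]
    exact prod_perm hσ fun i => kk A μ (z i) (z v)
  have hup : ∀ (z : V → S) (x : S), (Function.update z v x) ∘ σ =
      Function.update (z ∘ σ) v x := by
    intro z x
    funext u
    by_cases huv : u = v
    · subst huv
      rw [Function.update_self]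
      show Function.update z u x (σ u) = x
      rw [hσ u hvR, Function.update_self]
    · rw [Function.update_of_ne huv]
      show Function.update z v x (σ u) = z (σ u)
      rw [Function.update_of_ne]
      intro hcon
      have : σ u = σ v := by rw [hcon, hσ v hvR]
      exact huv (σ.injective this)
  have e1 : EM side μ c (fun z => ρ z * rr A μ R v z * f (z ∘ σ)) =
      EM side μ c (fun z => ρ z * r (z ∘ σ)) := by
    refine EM_congr fun z _ => ?_
    show _ = ρ z * (rr A μ R v (z ∘ σ) * f (z ∘ σ))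
    rw [hrr, mul_assoc]
  have e2 : EM side μ c (fun z => ρ z * r (z ∘ σ)) =
      EM side μ c (fun z => ρ z * g (z ∘ σ)) := by
    rw [EM_push h hv hdep (fun z => r (z ∘ σ))]
    refine EM_congr fun z _ => ?_
    congr 1
    refine Finset.sum_congr rfl fun x _ => ?_
    show _ * r ((Function.update z v x) ∘ σ) = _
    rw [hup]
  have e3 : EM side μ c (fun z => ρ z * rr A μ R v z * f z) =
      EM side μ c (fun z => ρ z * g z) := by
    have : EM side μ c (fun z => ρ z * rr A μ R v z * f z) =
      EM side μ c (fun z => ρ z * r z) := EM_congr fun z _ => mul_assoc _ _ _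
    rw [this]
    exact EM_push h hv hdep r
  rw [e1, e2, e3]
  exact hs σ hσ hsg g hg

/-- relative entropies of an invariant law -/
theorem Symm.DD_swap (h : Rev A μ c) {ρ : (V → S) → ℝ} {Q W : Finset V}
    (hs : Symm side μ c ρ Q W) {i q : V} (hi : i ∈ Q) (hq : q ∈ Q) (hiq : side i = side q)
    {T : Finset V} (hiT : i ∉ T) (hqT : q ∉ T) (hTi : insert i T ⊆ W) (hTq : insert q T ⊆ W) :
    DD side μ c ρ (insert q T) = DD side μ c ρ (insert i T) := by
  let σ : Equiv.Perm V := Equiv.swap i q
  have hσ : ∀ v, v ∉ Q → σ v = v := by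
    intro v hv
    exact Equiv.swap_apply_of_ne_of_ne (fun e => hv (e ▸ hi)) (fun e => hv (e ▸ hq))
  have hsg : ∀ v, side (σ v) = side v := by
    intro v
    by_cases h1 : v = i
    · rw [h1, show σ i = q from Equiv.swap_apply_left i q, hiq]
    · by_cases h2 : v = q
      · rw [h2, show σ q = i from Equiv.swap_apply_right i q, hiq]
      · rw [show σ v = v from Equiv.swap_apply_of_ne_of_ne h1 h2]
  have hT : ∀ t ∈ T, σ t = t := fun t ht => Equiv.swap_apply_of_ne_of_ne
    (fun e => hiT (e ▸ ht)) (fun e => hqT (e ▸ ht))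
  have hin1 : ∀ u ∈ insert i T, σ u ∈ insert q T := by
    intro u hu
    rcases mem_insert.1 hu with rfl | hu
    · rw [show σ u = q from Equiv.swap_apply_left u q]
      exact mem_insert_self _ _
    · rw [hT u hu]
      exact mem_insert_of_mem hu
  have hin2 : ∀ u ∈ insert q T, σ u ∈ insert i T := by
    intro u hu
    rcases mem_insert.1 hu with rfl | hu
    · rw [show σ u = i from Equiv.swap_apply_right i u]
      exact mem_insert_self _ _
    · rw [hT u hu]
      exact mem_insert_of_mem hu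
  have hinv : ∀ z : V → S, (z ∘ σ) ∘ σ = z := by
    intro z
    funext v
    show z (σ (σ v)) = z v
    rw [show σ (σ v) = v from Equiv.swap_apply_self i q v]
  rw [DD_eq (side := side) (c := c) h (W := insert q T)
    (E := fun z => marg side μ c ρ (insert i T) (z ∘ σ))]
  · exact hs σ hσ hsg (fun z => Real.log (marg side μ c ρ (insert i T) z)) (by
      intro z z' hz
      show Real.log (marg side μ c ρ (insert i T) z) =
        Real.log (marg side μ c ρ (insert i T) z')
      rw [depOn_marg ρ (insert i T) z z' fun u hu => hz u (hTi hu)])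
  · intro z z' hz
    exact depOn_marg ρ (insert i T) _ _ fun u hu => hz _ (hin1 u hu)
  · intro f hf
    let g : (V → S) → ℝ := fun z => f (z ∘ σ)
    have hg : DepOn (insert i T) g := fun z z' hz => hf _ _ fun u hu => hz _ (hin2 u hu)
    have e1 : EM side μ c (fun z => ρ z * f z) = EM side μ c (fun z => ρ z * g (z ∘ σ)) := by
      refine EM_congr fun z _ => ?_
      show _ = ρ z * f ((z ∘ σ) ∘ σ)
      rw [hinv]
    rw [e1, hs σ hσ hsg g (hg.mono hTi), marg_law h ρ hg,
      ← EM_perm σ hsg (fun z => marg side μ c ρ (insert i T) z * g z)]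
    refine EM_congr fun z _ => ?_
    show _ * f ((z ∘ σ) ∘ σ) = _
    rw [hinv]

/-- mean logarithms of the kernel in an invariant law -/
theorem Symm.ee_swap {ρ : (V → S) → ℝ} {Q W : Finset V}
    (hs : Symm side μ c ρ Q W) {i q j : V} (hi : i ∈ Q) (hq : q ∈ Q) (hiq : side i = side q)
    (hjQ : j ∉ Q) (hjW : j ∈ W) (hiW : i ∈ W) :
    ee side A μ c ρ q j = ee side A μ c ρ i j := by
  let σ : Equiv.Perm V := Equiv.swap i q
  have hσ : ∀ v, v ∉ Q → σ v = v := by
    intro v hv
    exact Equiv.swap_apply_of_ne_of_ne (fun e => hv (e ▸ hi)) (fun e => hv (e ▸ hq))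
  have hsg : ∀ v, side (σ v) = side v := by
    intro v
    by_cases h1 : v = i
    · rw [h1, show σ i = q from Equiv.swap_apply_left i q, hiq]
    · by_cases h2 : v = q
      · rw [h2, show σ q = i from Equiv.swap_apply_right i q, hiq]
      · rw [show σ v = v from Equiv.swap_apply_of_ne_of_ne h1 h2]
  have := hs σ hσ hsg (fun z => Real.log (kk A μ (z i) (z j))) (by
    intro z z' hz
    show Real.log (kk A μ (z i) (z j)) = Real.log (kk A μ (z' i) (z' j))
    rw [hz i hiW, hz j hjW])
  unfold ee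
  rw [← this]
  refine EM_congr fun z _ => ?_
  show _ = ρ z * Real.log (kk A μ (z (σ i)) (z (σ j)))
  rw [show σ i = q from Equiv.swap_apply_left i q, hσ j hjQ]

/-- relative entropies of an invariant law are convex (Han) -/
theorem Symm.han (h : Rev A μ c) {ρ : (V → S) → ℝ} (hρ : ∀ z, 0 ≤ ρ z)
    (hone : EM side μ c ρ = 1) {Q P : Finset V} {q : V} (hq : q ∉ Q) (hqP : q ∉ P)
    (hQP : ∀ i ∈ Q, i ∉ P) (hsd : ∀ i ∈ Q, side i = side q)
    (hs : Symm side μ c ρ (insert q Q) (insert q Q ∪ P)) :
    DD side μ c ρ (Q ∪ P) - DD side μ c ρ P ≤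
      Q.card * (DD side μ c ρ (insert q Q ∪ P) - DD side μ c ρ (Q ∪ P)) := by
  have key : ∀ T : Finset V, T ⊆ Q → DD side μ c ρ (T ∪ P) - DD side μ c ρ P ≤
      T.card * (DD side μ c ρ (insert q Q ∪ P) - DD side μ c ρ (Q ∪ P)) := by
    intro T
    induction T using Finset.induction_on with
    | empty =>
      intro _
      rw [Finset.empty_union, Finset.card_empty]
      simp
    | insert i T hiT ih =>
      intro hT
      have hiQ : i ∈ Q := hT (mem_insert_self _ _)
      have hTQ : T ⊆ Q := (Finset.subset_insert _ _).trans hT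
      have h1 := ih hTQ
      have h2 : DD side μ c ρ (insert i (T ∪ P)) = DD side μ c ρ (insert q (T ∪ P)) := by
        refine (hs.DD_swap h (mem_insert_of_mem hiQ) (mem_insert_self _ _) (hsd i hiQ)
          (T := T ∪ P) ?_ ?_ ?_ ?_).symm
        · rw [mem_union, not_or]
          exact ⟨hiT, hQP i hiQ⟩
        · rw [mem_union, not_or]
          exact ⟨fun hm => hq (hTQ hm), hqP⟩
        · refine Finset.insert_subset (mem_union_left _ (mem_insert_of_mem hiQ)) ?_
          exact Finset.union_subset_union_left (hTQ.trans (Finset.subset_insert _ _))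
        · refine Finset.insert_subset (mem_union_left _ (mem_insert_self _ _)) ?_
          exact Finset.union_subset_union_left (hTQ.trans (Finset.subset_insert _ _))
      have h3 := DD_super (side := side) h hρ hone (insert q (T ∪ P)) (Q ∪ P)
      have h4 : insert q (T ∪ P) ∪ (Q ∪ P) = insert q Q ∪ P := by
        ext x
        simp only [mem_union, mem_insert]
        constructor
        · rintro ((h5 | h5 | h5) | h5 | h5)
          · exact Or.inl (Or.inl h5)
          · exact Or.inl (Or.inr (hTQ h5))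
          · exact Or.inr h5
          · exact Or.inl (Or.inr h5)
          · exact Or.inr h5
        · rintro ((h5 | h5) | h5)
          · exact Or.inl (Or.inl h5)
          · exact Or.inr (Or.inl h5)
          · exact Or.inr (Or.inr h5)
      have h5 : insert q (T ∪ P) ∩ (Q ∪ P) = T ∪ P := by
        ext x
        simp only [mem_inter, mem_union, mem_insert]
        constructor
        · rintro ⟨h6 | h6, h7⟩
          · subst h6
            rcases h7 with h7 | h7
            · exact absurd h7 hq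
            · exact absurd h7 hqP
          · exact h6
        · rintro h6
          refine ⟨Or.inr h6, ?_⟩
          rcases h6 with h6 | h6
          · exact Or.inl (hTQ h6)
          · exact Or.inr h6
      rw [h4, h5] at h3
      rw [Finset.insert_union, h2, Finset.card_insert_of_notMem hiT]
      push_cast
      linarith
  exact key Q (Finset.Subset.refl _)

end Sym

end Vale.Agent.P050.Books
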