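import Vale.Agent.P050.R4.H22.Def3
import Vale.Agent.P050.R4.H22.Sym

/-!
# P050, covers: a set of pages over a set of vertices with an invariant law
-/

set_option linter.unusedSectionVars false

namespace Vale.Agent.P050.Books

open Finset Vale.Agent.P050.Lev Vale.Agent.P050.Ears

section Cov

variable {V S : Type} [Fintype V] [DecidableEq V] [Fintype S]
  {side : V → Bool} {A : Matrix S S ℝ} {μ : S → ℝ} {c : S → Bool}

/-- the sum of the mean logarithms of the kernel between `Q` and `P` -/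
noncomputable def EE (side : V → Bool) (A : Matrix S S ℝ) (μ : S → ℝ) (c : S → Bool)
    (ρ : (V → S) → ℝ) (Q P : Finset V) : ℝ :=
  ∑ i ∈ Q, ∑ j ∈ P, ee side A μ c ρ i j

/-- the mean logarithm of the codegree -/
noncomputable def MM (side : V → Bool) (A : Matrix S S ℝ) (μ : S → ℝ) (c : S → Bool)
    (ρ : (V → S) → ℝ) (R : Finset V) : ℝ :=
  EM side μ c (fun z => ρ z * Real.log (hQ A μ R z))

theorem EM_sum {ι : Type} (I : Finset ι) (f : ι → (V → S) → ℝ) :
    EM side μ c (fun z => ∑ i ∈ I, f i z) = ∑ i ∈ I, EM side μ c (f i) := by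
  unfold EM
  rw [Finset.sum_comm]
  exact Finset.sum_congr rfl fun z _ => Finset.mul_sum _ _ _

/-- the mean logarithm of a product of kernels -/
theorem EM_log_prod {ρ : (V → S) → ℝ} {Q P : Finset V}
    (kp : ∀ z, (∏ v, mm side μ c v (z v)) ≠ 0 → ρ z ≠ 0 → ∀ i ∈ Q, ∀ j ∈ P,
      0 < kk A μ (z i) (z j)) :
    EM side μ c (fun z => ρ z * Real.log (∏ i ∈ Q, ∏ j ∈ P, kk A μ (z i) (z j))) =
      EE side A μ c ρ Q P := by
  unfold EE ee
  have : ∀ i ∈ Q, ∑ j ∈ P, EM side μ c (fun z => ρ z * Real.log (kk A μ (z i) (z j))) =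
      EM side μ c (fun z => ∑ j ∈ P, ρ z * Real.log (kk A μ (z i) (z j))) := fun i _ =>
    (EM_sum P fun j z => ρ z * Real.log (kk A μ (z i) (z j))).symm
  rw [Finset.sum_congr rfl this,
    ← EM_sum Q fun i z => ∑ j ∈ P, ρ z * Real.log (kk A μ (z i) (z j))]
  refine EM_congr fun z hz => ?_
  by_cases h0 : ρ z = 0
  · rw [h0]
    simp
  · rw [Real.log_prod (fun i hi => (Finset.prod_pos fun j hj => kp z hz h0 i hi j hj).ne'),
      Finset.mul_sum]
    refine Finset.sum_congr rfl fun i hi => ?_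
    rw [Real.log_prod (fun j hj => (kp z hz h0 i hi j hj).ne'), Finset.mul_sum]

/-- a spine from an inequality between the relative entropy and the mean logarithm of the
codegree -/
theorem isW_of_DD (h : Rev A μ c) {U : Finset V} {ρ : (V → S) → ℝ} (hρ : ∀ z, 0 ≤ ρ z)
    (hone : EM side μ c ρ = 1) {P : Finset V} {l : ℕ} (hP : P.Nonempty) (hPU : P ⊆ U)
    (hl : 0 < l)
    (hpos : ∀ z, (∏ v, mm side μ c v (z v)) ≠ 0 → ρ z ≠ 0 → 0 < hQ A μ P z)
    (hD : DD side μ c ρ P ≤ l * MM side A μ c ρ P) : IsW side A μ c U ρ P ∅ l := by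
  classical
  have hlr : (0 : ℝ) < l := by exact_mod_cast hl
  refine ⟨hP, by simp, by rw [union_empty]; exact hPU, hpos, ?_,
    fun z => if hQ A μ P z = 0 then 0 else marg side μ c ρ P z, ?_, ?_, ?_, ?_, ?_⟩
  · by_contra hcon
    push Not at hcon
    have h1 := DD_nonneg (side := side) h hρ hone P
    have h2 : (l : ℝ) * MM side A μ c ρ P < 0 := mul_neg_of_pos_of_neg hlr hcon
    linarith
  · intro z z' hz
    show (if hQ A μ P z = 0 then (0 : ℝ) else marg side μ c ρ P z) =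
      if hQ A μ P z' = 0 then 0 else marg side μ c ρ P z'
    rw [depOn_hQ P z z' hz, depOn_marg ρ P z z' hz]
  · intro z
    show (0 : ℝ) ≤ if hQ A μ P z = 0 then 0 else marg side μ c ρ P z
    split_ifs
    · exact le_rfl
    · exact marg_nonneg h hρ P z
  · intro z hz
    exact if_pos hz
  · intro f hf
    rw [union_empty] at hf
    rw [marg_law h ρ hf]
    refine EM_congr fun z hz => ?_
    have e : wdens A μ (fun z => if hQ A μ P z = 0 then 0 else marg side μ c ρ P z) P ∅ z =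
        if hQ A μ P z = 0 then 0 else marg side μ c ρ P z := by
      unfold wdens
      simp
    rw [e]
    by_cases h0 : hQ A μ P z = 0
    · rw [if_pos h0]
      congr 1
      -- the marginal vanishes where there are no common neighbours
      let g : (V → S) → ℝ := fun z => if hQ A μ P z = 0 then 1 else 0
      have hg : DepOn P g := by
        intro z z' hz
        show (if hQ A μ P z = 0 then (1 : ℝ) else 0) = if hQ A μ P z' = 0 then 1 else 0
        rw [depOn_hQ P z z' hz]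
      have h1 := marg_law (side := side) h ρ hg
      have h2 : EM side μ c (fun z => ρ z * g z) = 0 := by
        have : EM side μ c (fun z => ρ z * g z) = EM side μ c (fun _ => (0 : ℝ) * 0) := by
          refine EM_congr fun z hz => ?_
          show ρ z * (if hQ A μ P z = 0 then (1 : ℝ) else 0) = 0 * 0
          by_cases h3 : ρ z = 0
          · rw [h3]
            ring
          · rw [if_neg (hpos z hz h3).ne']
            ring
        rw [this, EM_smul, zero_mul]
      rw [h2] at h1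
      have h4 := eq_zero_of_EM (side := side) h
        (f := fun z => marg side μ c ρ P z * g z) (fun z =>
        mul_nonneg (marg_nonneg h hρ P z) (by
          show (0 : ℝ) ≤ if hQ A μ P z = 0 then 1 else 0
          split_ifs <;> norm_num)) h1.symm hz
      have h5 : marg side μ c ρ P z * g z = marg side μ c ρ P z := by
        show marg side μ c ρ P z * (if hQ A μ P z = 0 then (1 : ℝ) else 0) = _
        rw [if_pos h0, mul_one]
      rw [← h5]
      exact h4
    · rw [if_neg h0]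
  · refine le_trans (le_of_eq ?_) hD
    unfold DD
    refine EM_congr fun z hz => ?_
    show ρ z * Real.log (if hQ A μ P z = 0 then 0 else marg side μ c ρ P z) = _
    by_cases h0 : ρ z = 0
    · rw [h0]
      ring
    · rw [if_neg (hpos z hz h0).ne']

/-- The pages `P` over the set `Q` with an invariant law: the inequality which bounds the
relative entropy of the states of `P` by the gain of the vertices of `Q`. -/
structure IsCov (side : V → Bool) (A : Matrix S S ℝ) (μ : S → ℝ) (c : S → Bool) (U : Finset V)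
    (ρ : (V → S) → ℝ) (Q P : Finset V) (l : ℕ) : Prop where
  ne : Q.Nonempty
  nep : P.Nonempty
  sd : ∀ i ∈ Q, ∀ j ∈ P, side i ≠ side j
  sub : Q ∪ P ⊆ U
  kp : ∀ z, (∏ v, mm side μ c v (z v)) ≠ 0 → ρ z ≠ 0 → ∀ i ∈ Q, ∀ j ∈ P,
    0 < kk A μ (z i) (z j)
  sym : Symm side μ c ρ Q (Q ∪ P)
  le : Q.card ≤ l
  main : Q.card * DD side μ c ρ P ≤
    l * (EE side A μ c ρ Q P - DD side μ c ρ (Q ∪ P) + DD side μ c ρ P)

theorem IsCov.notMem {U : Finset V} {ρ : (V → S) → ℝ} {Q P : Finset V} {l : ℕ}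
    (hb : IsCov side A μ c U ρ Q P l) {j : V} (hj : j ∈ P) : j ∉ Q :=
  fun hq => hb.sd j hq j hj rfl

/-- in a weak book the relative entropy of the spine and the pages is explicit -/
theorem IsW.kp {U : Finset V} {ρ : (V → S) → ℝ} {Q P : Finset V} {l : ℕ} (h : Rev A μ c)
    (hρ : ∀ z, 0 ≤ ρ z) (hb : IsW side A μ c U ρ Q P l) :
    ∀ z, (∏ v, mm side μ c v (z v)) ≠ 0 → ρ z ≠ 0 → ∀ i ∈ Q, ∀ j ∈ P,
      0 < kk A μ (z i) (z j) := by
  obtain ⟨ψ, hψ, hψ0, hψz, hlaw, hlog⟩ := hb.ex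
  intro z hz h0 i hi j hj
  refine lt_of_le_of_ne (kk_nonneg h _ _) fun hk => ?_
  refine ne_of_law h hρ (depOn_wdens Q P hψ) hlaw hz h0 ?_
  unfold wdens
  rw [Finset.prod_eq_zero hi (Finset.prod_eq_zero hj hk.symm), zero_mul]

theorem IsW.DD_le {U : Finset V} {ρ : (V → S) → ℝ} {Q P : Finset V} {l : ℕ} (h : Rev A μ c)
    (hρ : ∀ z, 0 ≤ ρ z) (hb : IsW side A μ c U ρ Q P l) (hl : l ≤ P.card) :
    DD side μ c ρ (Q ∪ P) ≤ EE side A μ c ρ Q P := by
  have hkp := hb.kp h hρ
  obtain ⟨ψ, hψ, hψ0, hψz, hlaw, hlog⟩ := hb.ex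
  have hψpos : ∀ z, (∏ v, mm side μ c v (z v)) ≠ 0 → ρ z ≠ 0 → 0 < ψ z := by
    intro z hz h0
    refine lt_of_le_of_ne (hψ0 z) (Ne.symm fun h2 =>
      ne_of_law h hρ (depOn_wdens Q P hψ) hlaw hz h0 ?_)
    unfold wdens
    rw [h2, zero_mul, mul_zero]
  rw [DD_eq (side := side) (c := c) h (depOn_wdens Q P hψ) hlaw]
  have e1 : EM side μ c (fun z => ρ z * Real.log (wdens A μ ψ Q P z)) =
      EE side A μ c ρ Q P + (EM side μ c (fun z => ρ z * Real.log (ψ z)) -
        P.card * EM side μ c (fun z => ρ z * Real.log (hQ A μ Q z))) := by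
    rw [← EM_log_prod hkp, ← EM_smul, ← EM_sub, ← EM_add]
    refine EM_congr fun z hz => ?_
    by_cases h0 : ρ z = 0
    · rw [h0]
      ring
    · have p1 := hb.pos z hz h0
      have p3 := hψpos z hz h0
      have p5 : 0 < ∏ i ∈ Q, ∏ j ∈ P, kk A μ (z i) (z j) :=
        Finset.prod_pos fun i hi => Finset.prod_pos fun j hj => hkp z hz h0 i hi j hj
      unfold wdens
      rw [Real.log_mul p5.ne' (mul_pos p3 (pow_pos (inv_pos.2 p1) _)).ne',
        Real.log_mul p3.ne' (pow_pos (inv_pos.2 p1) _).ne', Real.log_pow, Real.log_inv]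
      ring
  rw [e1]
  have hPl : (l : ℝ) * EM side μ c (fun z => ρ z * Real.log (hQ A μ Q z)) ≤
      P.card * EM side μ c (fun z => ρ z * Real.log (hQ A μ Q z)) :=
    mul_le_mul_of_nonneg_right (by exact_mod_cast hl) hb.log
  linarith

/-- a book with sufficiently many pages is a cover -/
theorem IsW.cover {U : Finset V} {ρ : (V → S) → ℝ} {Q P : Finset V} {l : ℕ} (h : Rev A μ c)
    (hρ : ∀ z, 0 ≤ ρ z) (hb : IsW side A μ c U ρ Q P l) (hs : Symm side μ c ρ Q (Q ∪ P))
    (hP : P.Nonempty) (hl : l ≤ P.card) : IsCov side A μ c U ρ Q P Q.card where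
  ne := hb.ne
  nep := hP
  sd := hb.sd
  sub := hb.sub
  kp := hb.kp h hρ
  sym := hs
  le := le_rfl
  main := by
    refine mul_le_mul_of_nonneg_left ?_ (Nat.cast_nonneg _)
    have := hb.DD_le h hρ hl
    linarith

/-- CLONE AVERAGING, for covers -/
theorem IsCov.gain (h : Rev A μ c) {U : Finset V} {ρ : (V → S) → ℝ} {Q P : Finset V} {l : ℕ}
    (hρ : ∀ z, 0 ≤ ρ z) (hone : EM side μ c ρ = 1) (hb : IsCov side A μ c U ρ Q P l) :
    EE side A μ c ρ Q P - DD side μ c ρ (Q ∪ P) + DD side μ c ρ P ≤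
      Q.card * MM side A μ c ρ P := by
  obtain ⟨i₀, hi₀⟩ := hb.ne
  have hposP : ∀ z, (∏ v, mm side μ c v (z v)) ≠ 0 → ρ z ≠ 0 → 0 < hQ A μ P z := by
    intro z hz h0
    refine Books.hQ_pos h (x := z i₀) fun j hj h2 => ?_
    have := hb.kp z hz h0 i₀ hi₀ j hj
    rw [kk_symm h, h2] at this
    exact lt_irrefl _ this
  let m := marg side μ c ρ (Q ∪ P)
  let χ := marg side μ c ρ P
  let φ : (V → S) → ℝ := fun z => (∏ i ∈ Q, ∏ j ∈ P, kk A μ (z i) (z j)) *
    (χ z * ((m z)⁻¹ * (hQ A μ P z ^ Q.card)⁻¹))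
  have hm0 : ∀ z, 0 ≤ m z := marg_nonneg h hρ _
  have hχ0 : ∀ z, 0 ≤ χ z := marg_nonneg h hρ _
  have hφdep : DepOn (Q ∪ P) φ := by
    intro z z' hz
    have e0 : ∏ i ∈ Q, ∏ j ∈ P, kk A μ (z i) (z j) = ∏ i ∈ Q, ∏ j ∈ P, kk A μ (z' i) (z' j) :=
      depOn_prod2 Q P z z' hz
    have e1 : χ z = χ z' := depOn_marg ρ P z z' fun u hu => hz u (mem_union_right _ hu)
    have e2 : m z = m z' := depOn_marg ρ (Q ∪ P) z z' hz
    have e3 := depOn_hQ (A := A) (μ := μ) P z z' fun u hu => hz u (mem_union_right _ hu)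
    show (∏ i ∈ Q, ∏ j ∈ P, kk A μ (z i) (z j)) *
      (χ z * ((m z)⁻¹ * (hQ A μ P z ^ Q.card)⁻¹)) =
      (∏ i ∈ Q, ∏ j ∈ P, kk A μ (z' i) (z' j)) *
      (χ z' * ((m z')⁻¹ * (hQ A μ P z' ^ Q.card)⁻¹))
    rw [e0, e1, e2, e3]
  have hφpos : ∀ z, (∏ v, mm side μ c v (z v)) ≠ 0 → ρ z ≠ 0 → 0 < φ z := fun z hz h0 =>
    mul_pos (Finset.prod_pos fun i hi => Finset.prod_pos fun j hj => hb.kp z hz h0 i hi j hj)
      (mul_pos (marg_pos h hρ P hz h0) (mul_pos (inv_pos.2 (marg_pos h hρ _ hz h0))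
        (inv_pos.2 (pow_pos (hposP z hz h0) _))))
  have h1 : EM side μ c (fun z => ρ z * φ z) ≤ 1 := by
    rw [marg_law h ρ hφdep]
    have e1 : EM side μ c (fun z => marg side μ c ρ (Q ∪ P) z * φ z) ≤
        EM side μ c (fun z => (∏ i ∈ Q, ∏ j ∈ P, kk A μ (z i) (z j)) *
          (χ z * (hQ A μ P z ^ Q.card)⁻¹)) := by
      refine EM_mono h fun z _ => ?_
      have hn : 0 ≤ (∏ i ∈ Q, ∏ j ∈ P, kk A μ (z i) (z j)) *
          (χ z * (hQ A μ P z ^ Q.card)⁻¹) :=
        mul_nonneg (Finset.prod_nonneg fun _ _ => Finset.prod_nonneg fun _ _ => kk_nonneg h _ _)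
          (mul_nonneg (hχ0 z) (inv_nonneg.2 (pow_nonneg (hQ_nonneg h _ _) _)))
      have he : marg side μ c ρ (Q ∪ P) z * φ z = ((∏ i ∈ Q, ∏ j ∈ P, kk A μ (z i) (z j)) *
          (χ z * (hQ A μ P z ^ Q.card)⁻¹)) * (m z * (m z)⁻¹) := by
        show m z * ((∏ i ∈ Q, ∏ j ∈ P, kk A μ (z i) (z j)) *
          (χ z * ((m z)⁻¹ * (hQ A μ P z ^ Q.card)⁻¹))) = _
        ring
      rw [he]
      exact mul_le_of_le_one_right hn mul_inv_le_one
    refine e1.trans ?_
    have e2 := EM_spine h Q P hb.nep hb.sd (fun z => χ z * (hQ A μ P z ^ Q.card)⁻¹) (by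
      intro z z' hz
      show χ z * (hQ A μ P z ^ Q.card)⁻¹ = χ z' * (hQ A μ P z' ^ Q.card)⁻¹
      rw [depOn_hQ P z z' hz, show χ z = χ z' from depOn_marg ρ P z z' hz])
    rw [e2, ← EM_marg (side := side) h hone P]
    refine EM_mono h fun z _ => ?_
    have e3 : hQ A μ P z ^ Q.card * (χ z * (hQ A μ P z ^ Q.card)⁻¹) =
        χ z * (hQ A μ P z ^ Q.card * (hQ A μ P z ^ Q.card)⁻¹) := by ring
    rw [e3]
    exact mul_le_of_le_one_right (hχ0 z) mul_inv_le_one
  have h2 := log_nonneg_of (side := side) h hρ hone hφpos h1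
  have h3 : EM side μ c (fun z => ρ z * Real.log (φ z)) =
      EE side A μ c ρ Q P + (DD side μ c ρ P - (DD side μ c ρ (Q ∪ P) +
        Q.card * MM side A μ c ρ P)) := by
    unfold DD MM
    rw [← EM_log_prod hb.kp, ← EM_smul, ← EM_add, ← EM_sub, ← EM_add]
    refine EM_congr fun z hz => ?_
    by_cases h0 : ρ z = 0
    · rw [h0]
      ring
    · have p1 : 0 < χ z := marg_pos h hρ P hz h0
      have p2 := hposP z hz h0
      have p3 : 0 < m z := marg_pos h hρ _ hz h0
      have p5 : 0 < ∏ i ∈ Q, ∏ j ∈ P, kk A μ (z i) (z j) :=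
        Finset.prod_pos fun i hi => Finset.prod_pos fun j hj => hb.kp z hz h0 i hi j hj
      show ρ z * Real.log ((∏ i ∈ Q, ∏ j ∈ P, kk A μ (z i) (z j)) *
        (χ z * ((m z)⁻¹ * (hQ A μ P z ^ Q.card)⁻¹))) =
        ρ z * Real.log (∏ i ∈ Q, ∏ j ∈ P, kk A μ (z i) (z j)) +
          (ρ z * Real.log (χ z) - (ρ z * Real.log (m z) +
            Q.card * (ρ z * Real.log (hQ A μ P z))))
      rw [Real.log_mul p5.ne' (mul_pos p1 (mul_pos (inv_pos.2 p3)
        (inv_pos.2 (pow_pos p2 _)))).ne',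
        Real.log_mul p1.ne' (mul_pos (inv_pos.2 p3) (inv_pos.2 (pow_pos p2 _))).ne',
        Real.log_mul (inv_pos.2 p3).ne' (inv_pos.2 (pow_pos p2 _)).ne', Real.log_inv,
        Real.log_inv, Real.log_pow]
      ring
  rw [h3] at h2
  linarith

/-- the set of pages of a cover is a spine -/
theorem IsCov.rough (h : Rev A μ c) {U : Finset V} {ρ : (V → S) → ℝ} {Q P : Finset V} {l : ℕ}
    (hρ : ∀ z, 0 ≤ ρ z) (hone : EM side μ c ρ = 1) (hb : IsCov side A μ c U ρ Q P l) :
    IsW side A μ c U ρ P ∅ l := by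
  have hg := hb.gain h hρ hone
  have hm := hb.main
  obtain ⟨i₀, hi₀⟩ := hb.ne
  have hq : 0 < Q.card := Finset.card_pos.2 ⟨i₀, hi₀⟩
  have hqr : (0 : ℝ) < Q.card := by exact_mod_cast hq
  refine isW_of_DD h hρ hone hb.nep (Finset.subset_union_right.trans hb.sub)
    (lt_of_lt_of_le hq hb.le) ?_ ?_
  · intro z hz h0
    refine Books.hQ_pos h (x := z i₀) fun j hj h2 => ?_
    have := hb.kp z hz h0 i₀ hi₀ j hj
    rw [kk_symm h, h2] at this
    exact lt_irrefl _ this
  · have h1 := mul_le_mul_of_nonneg_left hg (Nat.cast_nonneg (α := ℝ) l)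
    have h2 : (Q.card : ℝ) * DD side μ c ρ P ≤ Q.card * (l * MM side A μ c ρ P) := by
      linarith
    exact le_of_mul_le_mul_left h2 hqr

theorem IsCov.side_eq {U : Finset V} {ρ : (V → S) → ℝ} {Q P : Finset V} {l : ℕ}
    (hb : IsCov side A μ c U ρ Q P l) {i j : V} (hi : i ∈ Q) (hj : j ∈ Q) :
    side i = side j := by
  obtain ⟨p, hp⟩ := hb.nep
  have h1 := hb.sd i hi p hp
  have h2 := hb.sd j hj p hp
  cases h3 : side i <;> cases h4 : side j <;> cases h5 : side p <;> simp_all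

/-- one vertex of the upper set of a cover may be removed (Han's inequality) -/
theorem IsCov.remove (h : Rev A μ c) {U : Finset V} {ρ : (V → S) → ℝ} {Q P : Finset V} {l : ℕ}
    {q : V} (hρ : ∀ z, 0 ≤ ρ z) (hone : EM side μ c ρ = 1) (hqQ : q ∉ Q) (hQ : Q.Nonempty)
    (hb : IsCov side A μ c U ρ (insert q Q) P l) : IsCov side A μ c U ρ Q P l where
  ne := hQ
  nep := hb.nep
  sd := fun i hi => hb.sd i (mem_insert_of_mem hi)
  sub := (Finset.union_subset_union_left (Finset.subset_insert _ _)).trans hb.sub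
  kp := fun z hz h0 i hi => hb.kp z hz h0 i (mem_insert_of_mem hi)
  sym := hb.sym.mono (Finset.subset_insert _ _)
    (Finset.union_subset_union_left (Finset.subset_insert _ _))
  le := (Finset.card_le_card (Finset.subset_insert _ _)).trans hb.le
  main := by
    have hqP : q ∉ P := fun hm => hb.notMem hm (mem_insert_self _ _)
    have hQP : ∀ i ∈ Q, i ∉ P := fun i hi hm => hb.notMem hm (mem_insert_of_mem hi)
    have hsd : ∀ i ∈ Q, side i = side q := fun i hi =>
      hb.side_eq (mem_insert_of_mem hi) (mem_insert_self _ _)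
    have h1 := hb.sym.han h hρ hone hqQ hqP hQP hsd
    have h2 := hb.main
    -- the sums of the mean logarithms
    let s := ∑ j ∈ P, ee side A μ c ρ q j
    have hs : ∀ i ∈ Q, ∑ j ∈ P, ee side A μ c ρ i j = s := by
      intro i hi
      refine Finset.sum_congr rfl fun j hj => ?_
      exact hb.sym.ee_swap (mem_insert_self _ _) (mem_insert_of_mem hi) (hsd i hi).symm
        (hb.notMem hj) (mem_union_right _ hj) (mem_union_left _ (mem_insert_self _ _))
    have e1 : EE side A μ c ρ Q P = Q.card * s := by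
      unfold EE
      rw [Finset.sum_congr rfl hs, Finset.sum_const, nsmul_eq_mul]
    have e2 : EE side A μ c ρ (insert q Q) P = (Q.card + 1) * s := by
      unfold EE
      rw [Finset.sum_insert hqQ, Finset.sum_congr rfl hs, Finset.sum_const, nsmul_eq_mul]
      show s + _ = _
      ring
    rw [e2, Finset.card_insert_of_notMem hqQ] at h2
    push_cast at h2
    rw [e1]
    have hn : (0 : ℝ) < Q.card := by exact_mod_cast Finset.card_pos.2 hQ
    have hl : (0 : ℝ) ≤ l := Nat.cast_nonneg l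
    set n : ℝ := (Q.card : ℝ)
    set x := DD side μ c ρ (Q ∪ P)
    set y := DD side μ c ρ (insert q Q ∪ P)
    set p := DD side μ c ρ P
    -- h1 : x - p ≤ n * (y - x); h2 : (n + 1) p ≤ l ((n + 1) s - y + p)
    have h3 : (n + 1) * (n * p) ≤ (n + 1) * (l * (n * s - x + p)) := by
      have h4 := mul_le_mul_of_nonneg_left h2 hn.le
      have h5 : l * (n * (y - p)) ≥ l * ((n + 1) * (x - p)) := by
        refine mul_le_mul_of_nonneg_left ?_ hl
        nlinarith
      nlinarith
    exact le_of_mul_le_mul_left h3 (by linarith)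

theorem IsCov.shrink (h : Rev A μ c) {U : Finset V} {ρ : (V → S) → ℝ} {Q Q' P : Finset V}
    {l : ℕ} (hρ : ∀ z, 0 ≤ ρ z) (hone : EM side μ c ρ = 1) (hQ : Q' ⊆ Q) (hQ' : Q'.Nonempty)
    (hb : IsCov side A μ c U ρ Q P l) : IsCov side A μ c U ρ Q' P l := by
  have key : ∀ D : Finset V, Disjoint Q' D → IsCov side A μ c U ρ (Q' ∪ D) P l →
      IsCov side A μ c U ρ Q' P l := by
    intro D
    induction D using Finset.induction_on with
    | empty => intro _ hD; rwa [union_empty] at hD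
    | insert d D hd ih =>
      intro hdis hD
      rw [Finset.disjoint_insert_right] at hdis
      rw [Finset.union_insert] at hD
      refine ih hdis.2 (IsCov.remove h hρ hone ?_ (hQ'.mono Finset.subset_union_left) hD)
      rw [mem_union, not_or]
      exact ⟨hdis.1, hd⟩
  refine key (Q \ Q') Finset.disjoint_sdiff ?_
  rwa [Finset.union_sdiff_of_subset hQ]

end Cov

end Vale.Agent.P050.Books
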