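import Vale.Agent.P050.R4.H22.Cov

/-!
# P050, covers under the attachment of a new vertex
-/

set_option linter.unusedSectionVars false

namespace Vale.Agent.P050.Books

open Finset Vale.Agent.P050.Lev Vale.Agent.P050.Ears

section Keep

variable {V S : Type} [Fintype V] [DecidableEq V] [Fintype S]
  {side : V → Bool} {A : Matrix S S ℝ} {μ : S → ℝ} {c : S → Bool}

/-- relative entropies of old vertices do not change -/
theorem DD_keep (h : Rev A μ c) {U R : Finset V} {v i : V} {ρ : (V → S) → ℝ}
    (hdep : DepOn U ρ) (hv : v ∉ U) (hR : R ⊆ U) (hi : i ∈ R) (hsd : side i ≠ side v)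
    (hp : ∀ z : V → S, (∏ v, mm side μ c v (z v)) ≠ 0 → ρ z ≠ 0 → 0 < hQ A μ R z)
    {W : Finset V} (hW : W ⊆ U) :
    DD side μ c (fun z => ρ z * rr A μ R v z) W = DD side μ c ρ W := by
  rw [DD_eq (side := side) (c := c) h (W := W) (E := marg side μ c ρ W) (depOn_marg ρ W)]
  · rw [persist h hdep hv hR hi hsd hp (f := fun z => Real.log (marg side μ c ρ W z)) (by
      intro z z' hz
      show Real.log (marg side μ c ρ W z) = Real.log (marg side μ c ρ W z')
      rw [depOn_marg ρ W z z' fun u hu => hz u (hW hu)])]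
    rfl
  · intro f hf
    rw [persist h hdep hv hR hi hsd hp (hf.mono hW)]
    exact marg_law h ρ hf

theorem ee_keep (h : Rev A μ c) {U R : Finset V} {v i : V} {ρ : (V → S) → ℝ}
    (hdep : DepOn U ρ) (hv : v ∉ U) (hR : R ⊆ U) (hi : i ∈ R) (hsd : side i ≠ side v)
    (hp : ∀ z : V → S, (∏ v, mm side μ c v (z v)) ≠ 0 → ρ z ≠ 0 → 0 < hQ A μ R z)
    {a b : V} (ha : a ∈ U) (hb : b ∈ U) :
    ee side A μ c (fun z => ρ z * rr A μ R v z) a b = ee side A μ c ρ a b :=
  persist h hdep hv hR hi hsd hp (f := fun z => Real.log (kk A μ (z a) (z b))) (by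
    intro z z' hz
    show Real.log (kk A μ (z a) (z b)) = Real.log (kk A μ (z' a) (z' b))
    rw [hz a ha, hz b hb])

theorem EE_keep (h : Rev A μ c) {U R : Finset V} {v i : V} {ρ : (V → S) → ℝ}
    (hdep : DepOn U ρ) (hv : v ∉ U) (hR : R ⊆ U) (hi : i ∈ R) (hsd : side i ≠ side v)
    (hp : ∀ z : V → S, (∏ v, mm side μ c v (z v)) ≠ 0 → ρ z ≠ 0 → 0 < hQ A μ R z)
    {Q P : Finset V} (hW : Q ∪ P ⊆ U) :
    EE side A μ c (fun z => ρ z * rr A μ R v z) Q P = EE side A μ c ρ Q P := by
  unfold EE
  exact Finset.sum_congr rfl fun a ha => Finset.sum_congr rfl fun b hb =>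
    ee_keep h hdep hv hR hi hsd hp (hW (mem_union_left _ ha)) (hW (mem_union_right _ hb))

/-- old covers are kept -/
theorem IsCov.keep (h : Rev A μ c) {U R : Finset V} {v i : V} {ρ : (V → S) → ℝ} {l : ℕ}
    (hdep : DepOn U ρ) (hv : v ∉ U) (hR : R ⊆ U) (hi : i ∈ R) (hsd : side i ≠ side v)
    (hp : ∀ z : V → S, (∏ v, mm side μ c v (z v)) ≠ 0 → ρ z ≠ 0 → 0 < hQ A μ R z)
    {Q P : Finset V} (hb : IsCov side A μ c U ρ Q P l) :
    IsCov side A μ c (insert v U) (fun z => ρ z * rr A μ R v z) Q P l where
  ne := hb.ne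
  nep := hb.nep
  sd := hb.sd
  sub := hb.sub.trans (Finset.subset_insert _ _)
  kp := fun z hz h0 => hb.kp z hz (left_ne_zero_of_mul h0)
  sym := hb.sym.keep h hdep hv hR hi hsd hp Finset.subset_union_left hb.sub
  le := hb.le
  main := by
    rw [DD_keep h hdep hv hR hi hsd hp (Finset.subset_union_right.trans hb.sub),
      DD_keep h hdep hv hR hi hsd hp hb.sub, EE_keep h hdep hv hR hi hsd hp hb.sub]
    exact hb.main

/-- the relative entropy of the new vertex with its spine and old pages -/
theorem DD_new (h : Rev A μ c) {U R : Finset V} {v i : V} {ρ : (V → S) → ℝ}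
    (hρ : ∀ z, 0 ≤ ρ z)
    (hdep : DepOn U ρ) (hv : v ∉ U) (hR : R ⊆ U) (hi : i ∈ R) (hsd : side i ≠ side v)
    (hp : ∀ z : V → S, (∏ v, mm side μ c v (z v)) ≠ 0 → ρ z ≠ 0 → 0 < hQ A μ R z)
    {P : Finset V} (hP : P ⊆ U) :
    DD side μ c (fun z => ρ z * rr A μ R v z) (R ∪ insert v P) =
      DD side μ c ρ (R ∪ P) + (∑ i ∈ R, ee side A μ c (fun z => ρ z * rr A μ R v z) i v -
        MM side A μ c ρ R) := by
  have hRP : R ∪ P ⊆ U := Finset.union_subset hR hP
  have hvRP : v ∉ R ∪ P := fun hm => hv (hRP hm)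
  have hRs : R ⊆ R ∪ P := Finset.subset_union_left
  have hrpos : ∀ z : V → S, (∏ v, mm side μ c v (z v)) ≠ 0 → ρ z * rr A μ R v z ≠ 0 →
      ∀ i ∈ R, 0 < kk A μ (z i) (z v) := by
    intro z _ h0 i hi
    refine lt_of_le_of_ne (kk_nonneg h _ _) fun hk => right_ne_zero_of_mul h0 ?_
    unfold rr
    rw [Finset.prod_eq_zero hi hk.symm, zero_mul]
  rw [DD_eq (side := side) (c := c) h (W := R ∪ insert v P)
    (E := fun z => marg side μ c ρ (R ∪ P) z * rr A μ R v z)]
  · have e1 : EM side μ c (fun z => ρ z * rr A μ R v z *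
        Real.log (marg side μ c ρ (R ∪ P) z * rr A μ R v z)) =
        EM side μ c (fun z => ρ z * rr A μ R v z * Real.log (marg side μ c ρ (R ∪ P) z)) +
          (∑ i ∈ R, ee side A μ c (fun z => ρ z * rr A μ R v z) i v -
            EM side μ c (fun z => ρ z * rr A μ R v z * Real.log (hQ A μ R z))) := by
      unfold ee
      rw [← EM_sum R fun i z => ρ z * rr A μ R v z * Real.log (kk A μ (z i) (z v)), ← EM_sub,
        ← EM_add]
      refine EM_congr fun z hz => ?_
      by_cases h0 : ρ z * rr A μ R v z = 0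
      · rw [h0]
        simp
      · have q1 := marg_pos (side := side) h hρ (R ∪ P) hz (left_ne_zero_of_mul h0)
        have q2 := hp z hz (left_ne_zero_of_mul h0)
        have q3 : 0 < ∏ i ∈ R, kk A μ (z i) (z v) :=
          Finset.prod_pos fun i hi => hrpos z hz h0 i hi
        have q4 : rr A μ R v z = (∏ i ∈ R, kk A μ (z i) (z v)) * (hQ A μ R z)⁻¹ := rfl
        have q5 : Real.log (rr A μ R v z) =
            ∑ i ∈ R, Real.log (kk A μ (z i) (z v)) - Real.log (hQ A μ R z) := by
          rw [q4, Real.log_mul q3.ne' (inv_pos.2 q2).ne', Real.log_inv,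
            Real.log_prod (fun i hi => (hrpos z hz h0 i hi).ne')]
          ring
        rw [Real.log_mul q1.ne' (right_ne_zero_of_mul h0), q5, ← Finset.mul_sum]
        ring
    rw [e1, persist h hdep hv hR hi hsd hp
      (f := fun z => Real.log (marg side μ c ρ (R ∪ P) z)) (by
      intro z z' hz
      show Real.log (marg side μ c ρ (R ∪ P) z) = Real.log (marg side μ c ρ (R ∪ P) z')
      rw [depOn_marg ρ (R ∪ P) z z' fun u hu => hz u (hRP hu)]),
      persist h hdep hv hR hi hsd hp (f := fun z => Real.log (hQ A μ R z)) (by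
      intro z z' hz
      show Real.log (hQ A μ R z) = Real.log (hQ A μ R z')
      rw [depOn_hQ R z z' fun u hu => hz u (hR hu)])]
    rfl
  · rw [Finset.union_insert]
    exact ((depOn_marg ρ (R ∪ P)).mono (Finset.subset_insert _ _)).mul (depOn_rr hRs)
  · intro f hf
    rw [Finset.union_insert] at hf
    let r : (V → S) → ℝ := fun z => rr A μ R v z * f z
    have hr : DepOn (insert v (R ∪ P)) r := (depOn_rr hRs).mul hf
    let g : (V → S) → ℝ := fun z => ∑ x, mm side μ c v x * r (Function.update z v x)
    have hg : DepOn (R ∪ P) g := by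
      intro z z' hz
      refine Finset.sum_congr rfl fun x _ => ?_
      congr 1
      refine hr _ _ fun u hu => ?_
      by_cases huv : u = v
      · rw [huv, Function.update_self, Function.update_self]
      · rw [Function.update_of_ne huv, Function.update_of_ne huv]
        exact hz u ((mem_insert.1 hu).resolve_left huv)
    have e1 : EM side μ c (fun z => ρ z * rr A μ R v z * f z) =
        EM side μ c (fun z => ρ z * r z) := EM_congr fun z _ => mul_assoc _ _ _
    have e2 : EM side μ c (fun z => ρ z * r z) = EM side μ c (fun z => ρ z * g z) :=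
      EM_push h hv hdep r
    have e3 : EM side μ c (fun z => marg side μ c ρ (R ∪ P) z * r z) =
        EM side μ c (fun z => marg side μ c ρ (R ∪ P) z * g z) :=
      EM_push h hvRP (depOn_marg ρ (R ∪ P)) r
    rw [e1, e2, marg_law h ρ hg, ← e3]
    exact EM_congr fun z _ => (mul_assoc _ _ _).symm

/-- a new page of a cover -/
theorem IsCov.page (h : Rev A μ c) {H : SimpleGraph V} {U R : Finset V} {v i : V}
    {ρ L : (V → S) → ℝ} {l : ℕ} (hs : ∀ u v, H.Adj u v → side u ≠ side v)
    (hl : Law H side A μ c U ρ L) (hv : v ∉ U) (hRn : R.Nonempty) (hR : R ⊆ U)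
    (hadj : ∀ x ∈ U, H.Adj v x ↔ x ∈ R) (hi : i ∈ R)
    (hsd : ∀ i ∈ R, side i ≠ side v)
    (hp : ∀ z : V → S, (∏ v, mm side μ c v (z v)) ≠ 0 → ρ z ≠ 0 → 0 < hQ A μ R z)
    (hlog : 0 ≤ EM side μ c (fun z => ρ z * Real.log (hQ A μ R z)))
    {P : Finset V} (hb : IsCov side A μ c U ρ R P l) :
    IsCov side A μ c (insert v U) (fun z => ρ z * rr A μ R v z) R (insert v P) l where
  ne := hb.ne
  nep := ⟨v, mem_insert_self _ _⟩
  sd := by
    intro i hi j hj
    rw [mem_insert] at hj
    rcases hj with rfl | hj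
    · exact hsd i hi
    · exact hb.sd i hi j hj
  sub := by
    rw [Finset.union_insert]
    exact Finset.insert_subset_insert _ hb.sub
  kp := by
    intro z hz h0 i hi j hj
    rw [mem_insert] at hj
    rcases hj with rfl | hj
    · refine lt_of_le_of_ne (kk_nonneg h _ _) fun hk => right_ne_zero_of_mul h0 ?_
      unfold rr
      rw [Finset.prod_eq_zero hi hk.symm, zero_mul]
    · exact hb.kp z hz (left_ne_zero_of_mul h0) i hi j hj
  sym := hb.sym.page h hl.dep hv hb.sub
  le := hb.le
  main := by
    have hP : P ⊆ U := Finset.subset_union_right.trans hb.sub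
    have hvP : v ∉ P := fun hm => hv (hP hm)
    have hatt := hl.attach h hs hv hRn hR hadj hp hlog
    have h1 := DD_new h hl.nonneg hl.dep hv hR hi (hsd i hi) hp hP
    have h2 := DD_keep h hl.dep hv hR hi (hsd i hi) hp hP
    have h3 := DD_mono (side := side) h hatt.nonneg hatt.one (Finset.subset_insert v P)
    have h4 : EE side A μ c (fun z => ρ z * rr A μ R v z) R (insert v P) =
        ∑ i ∈ R, ee side A μ c (fun z => ρ z * rr A μ R v z) i v + EE side A μ c ρ R P := by
      rw [← EE_keep h hl.dep hv hR hi (hsd i hi) hp hb.sub]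
      unfold EE
      rw [← Finset.sum_add_distrib]
      exact Finset.sum_congr rfl fun i _ => Finset.sum_insert hvP
    have h5 := hb.main
    have h6 : (0 : ℝ) ≤ MM side A μ c ρ R := hlog
    have h7 : (R.card : ℝ) ≤ l := by exact_mod_cast hb.le
    rw [h1, h4]
    rw [h2] at h3
    set n : ℝ := (R.card : ℝ)
    set D' := DD side μ c (fun z => ρ z * rr A μ R v z) (insert v P)
    set D := DD side μ c ρ P
    set Z := ∑ i ∈ R, ee side A μ c (fun z => ρ z * rr A μ R v z) i v
    set E := EE side A μ c ρ R P
    set DR := DD side μ c ρ (R ∪ P)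
    set M := MM side A μ c ρ R
    -- n D ≤ l (E - DR + D); want n D' ≤ l (Z + E - (DR + (Z - M)) + D')
    have h8 : n * (D' - D) ≤ l * (D' - D) := mul_le_mul_of_nonneg_right h7 (by linarith)
    have h9 : (0 : ℝ) ≤ l * M := mul_nonneg (Nat.cast_nonneg l) h6
    nlinarith

/-- a weak book whose spine is one vertex is a book -/
theorem IsW.exact (h : Rev A μ c) {U : Finset V} {ρ : (V → S) → ℝ} {a : V} {P : Finset V}
    {l : ℕ} (hρ : ∀ z, 0 ≤ ρ z) (hone : EM side μ c ρ = 1)
    (hb : IsW side A μ c U ρ {a} P l) : IsBook side A μ c U ρ {a} P := by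
  have hb0 := hb.subset h (P' := ∅) (Finset.empty_subset _)
  obtain ⟨ψ, hψ, hψ0, hψz, hlaw, hlog⟩ := hb.ex
  -- the law of the state of `a`
  have hlaw0 : ∀ f : (V → S) → ℝ, DepOn {a} f →
      EM side μ c (fun z => ρ z * f z) = EM side μ c (fun z => ψ z * f z) := by
    have key : ∀ D : Finset V, (∀ j ∈ D, j ∈ P) → ∀ f : (V → S) → ℝ, DepOn {a} f →
        EM side μ c (fun z => wdens A μ ψ {a} D z * f z) =
          EM side μ c (fun z => ψ z * f z) := by
      intro D
      induction D using Finset.induction_on with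
      | empty =>
        intro _ f _
        refine EM_congr fun z _ => ?_
        unfold wdens
        simp
      | insert j D hj ih =>
        intro hD f hf
        rw [← ih (fun k hk => hD k (mem_insert_of_mem hk)) f hf]
        have hja : j ≠ a := by
          rintro rfl
          exact hb.notMem (hD j (mem_insert_self _ _)) (mem_singleton_self _)
        have hjn : j ∉ ({a} : Finset V) ∪ D := by
          rw [mem_union, not_or, mem_singleton]
          exact ⟨hja, hj⟩
        have e1 : EM side μ c (fun z => wdens A μ ψ {a} (insert j D) z * f z) =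
            EM side μ c (fun z => (wdens A μ ψ {a} D z * f z) * kk A μ (z a) (z j)) := by
          refine EM_congr fun z _ => ?_
          rw [wdens_insert hj, hQ_singleton h]
          simp only [Finset.prod_singleton, inv_one, mul_one]
          ring
        have hdep : DepOn ({a} ∪ D) (fun z => wdens A μ ψ {a} D z * f z) :=
          (depOn_wdens {a} D hψ).mul (hf.mono Finset.subset_union_left)
        have e2 := EM_int (side := side) h hjn hdep (r := fun z => kk A μ (z a) (z j))
          (g := fun _ => 1) (by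
            intro z hz _
            have h1 := hQ_eq (side := side) (Q := {a}) h (mem_singleton_self a) (v := j)
              (z := z) (by
                rw [side_of_M hz a]
                exact hb.sd a (mem_singleton_self a) j (hD j (mem_insert_self _ _)))
            rw [hQ_singleton h] at h1
            rw [← h1]
            refine Finset.sum_congr rfl fun x _ => ?_
            congr 1
            rw [Finset.prod_singleton, Function.update_self,
              Function.update_of_ne (Ne.symm hja)])
        rw [e1, e2]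
        exact EM_congr fun z _ => mul_one _
    intro f hf
    rw [hlaw f (hf.mono Finset.subset_union_left)]
    exact key P (fun _ hj => hj) f hf
  -- its relative entropy vanishes
  have hM : EM side μ c (fun z => ρ z * Real.log (hQ A μ {a} z)) = 0 := by
    simp only [hQ_singleton h, Real.log_one, mul_zero]
    unfold EM
    simp
  rw [hM, mul_zero] at hlog
  have h1 : EM side μ c (fun z => ψ z * Real.log (ψ z)) ≤ 0 := by
    rw [← hlaw0 (fun z => Real.log (ψ z)) (by
      intro z z' hz
      show Real.log (ψ z) = Real.log (ψ z')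
      rw [hψ z z' hz])]
    exact hlog
  have h2 : EM side μ c ψ = 1 := by
    have := hlaw0 (fun _ => 1) (fun _ _ _ => rfl)
    simp only [mul_one] at this
    rw [← hone]
    exact this.symm
  have hterm : ∀ x : ℝ, 0 ≤ x → 0 ≤ x * Real.log x - x + 1 ∧
      (x * Real.log x - x + 1 = 0 → x = 1) := by
    intro x hx
    rcases hx.eq_or_lt with h3 | h3
    · rw [← h3]
      constructor
      · norm_num
      · intro h4
        norm_num at h4
    · constructor
      · have := Real.log_le_sub_one_of_pos (inv_pos.2 h3)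
        rw [Real.log_inv] at this
        have h5 := mul_le_mul_of_nonneg_left this h3.le
        have h6 : x * (x⁻¹ - 1) = 1 - x := by
          field_simp
        rw [h6] at h5
        linarith
      · intro h4
        by_contra hne
        have h7 : x⁻¹ ≠ 1 := fun h8 => hne (inv_eq_one.1 h8)
        have := Real.log_lt_sub_one_of_pos (inv_pos.2 h3) h7
        rw [Real.log_inv] at this
        have h5 := mul_lt_mul_of_pos_left this h3
        have h6 : x * (x⁻¹ - 1) = 1 - x := by
          field_simp
        rw [h6] at h5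
        linarith
  have h3 : EM side μ c (fun z => ψ z * Real.log (ψ z) - ψ z + 1) = 0 := by
    refine le_antisymm ?_ (EM_nonneg h fun z => (hterm _ (hψ0 z)).1)
    rw [EM_add, EM_sub, EM_one h]
    show EM side μ c (fun z => ψ z * Real.log (ψ z)) - EM side μ c ψ + 1 ≤ 0
    rw [h2]
    linarith
  have h4 : ∀ z, (∏ v, mm side μ c v (z v)) ≠ 0 → ψ z = 1 := by
    intro z hz
    have := eq_zero_of_EM (side := side) h
      (f := fun z => ψ z * Real.log (ψ z) - ψ z + 1) (fun z => (hterm _ (hψ0 z)).1) h3 hz
    exact (hterm _ (hψ0 z)).2 this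
  refine ⟨hb.ne, hb.sd, hb.sub, ?_⟩
  intro f hf
  rw [hlaw f hf]
  refine EM_congr fun z hz => ?_
  unfold wdens dens
  rw [h4 z hz, hQ_singleton h]

end Keep

end Vale.Agent.P050.Books
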