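import Vale.Agent.P050.R3.H257.Base

/-!
# P050, books and caps: the class of graphs built vertex by vertex
-/

namespace Vale.Agent.P050.Books

open Finset

/-- The books derived from the books in `F` (a book is a pair: spine, pages): pages may be
dropped; a book whose spine is one vertex and a book with one page are exchanged. -/
inductive Cl {V : Type} [DecidableEq V] (F : Set (Finset V × Finset V)) :
    Finset V → Finset V → Prop
  | base {Q S : Finset V} : (Q, S) ∈ F → Cl F Q S
  | sub {Q S S' : Finset V} : Cl F Q S → S' ⊆ S → Cl F Q S'
  | flip {a : V} {S : Finset V} : Cl F {a} S → S.Nonempty → Cl F S {a}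
  | flip' {a : V} {S : Finset V} : Cl F S {a} → Cl F {a} S

/-- `Built H U F`: the subgraph of `H` induced on the set `U` of vertices can be built vertex by
vertex, and `F` is the set of recorded books (spine, pages). One starts with one vertex `v` and
the book with spine `v` and no page. A new vertex `v` whose neighbours among the old vertices
form the set `R` may be added if (`clone`) `R` is the spine of a derived book; then `v` becomes a
new page of every recorded book with spine `R` that is derived so far; or (`cap`) `R` is the set
of pages of a derived book; or (`pendant`) `R` consists of one vertex. -/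
inductive Built {V : Type} [DecidableEq V] (H : SimpleGraph V) :
    Finset V → Set (Finset V × Finset V) → Prop
  | point (v : V) : Built H {v} {({v}, ∅)}
  | clone {U : Finset V} {F : Set (Finset V × Finset V)} {v : V} {R : Finset V} :
      Built H U F → v ∉ U → R.Nonempty → R ⊆ U → (∀ x ∈ U, H.Adj v x ↔ x ∈ R) → Cl F R ∅ →
      Built H (insert v U) (F ∪ {p | p.1 = R ∧ ∃ S, Cl F R S ∧ p.2 = insert v S})
  | cap {U : Finset V} {F : Set (Finset V × Finset V)} {v : V} {Q R : Finset V} :
      Built H U F → v ∉ U → R.Nonempty → R ⊆ U → (∀ x ∈ U, H.Adj v x ↔ x ∈ R) → Cl F Q R →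
      Built H (insert v U) F
  | pendant {U : Finset V} {F : Set (Finset V × Finset V)} {u v : V} :
      Built H U F → v ∉ U → u ∈ U → (∀ x ∈ U, H.Adj v x ↔ x = u) → Built H (insert v U) F

end Vale.Agent.P050.Books
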