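import Vale.Agent.P050.R4.H22.Def
import Vale.Agent.P050.R3.H149.Ops

/-!
# P050, books and caps: averages over independent states, densities of books
-/

set_option linter.unusedSectionVars false

namespace Vale.Agent.P050.Books

open Finset Vale.Agent.P050.Lev Vale.Agent.P050.Ears

section EM

variable {V S : Type} [Fintype V] [DecidableEq V] [Fintype S]

/-- the weight of the state `x` at the vertex `v` -/
def mm (side : V → Bool) (μ : S → ℝ) (c : S → Bool) (v : V) (x : S) : ℝ :=
  if c x = side v then μ x else 0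

/-- the average of `f` over independent states of the vertices -/
noncomputable def EM (side : V → Bool) (μ : S → ℝ) (c : S → Bool) (f : (V → S) → ℝ) : ℝ :=
  ∑ z : V → S, (∏ v, mm side μ c v (z v)) * f z

/-- `f` depends on the coordinates in `U` only -/
def DepOn (U : Finset V) (f : (V → S) → ℝ) : Prop :=
  ∀ z z' : V → S, (∀ u ∈ U, z u = z' u) → f z = f z'

/-- the symmetric kernel of one step -/
noncomputable def kk (A : Matrix S S ℝ) (μ : S → ℝ) (u v : S) : ℝ := A u v / μ v

/-- the density of common neighbours of the states at `Q` -/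
noncomputable def hQ (A : Matrix S S ℝ) (μ : S → ℝ) (Q : Finset V) (z : V → S) : ℝ :=
  ∑ x, μ x * ∏ i ∈ Q, kk A μ (z i) x

variable {side : V → Bool} {A : Matrix S S ℝ} {μ : S → ℝ} {c : S → Bool}

omit [Fintype V] [DecidableEq V] [Fintype S] in
theorem DepOn.mono {U U' : Finset V} {f : (V → S) → ℝ} (h : DepOn U f) (hU : U ⊆ U') :
    DepOn U' f := fun z z' hz => h z z' fun u hu => hz u (hU hu)

omit [Fintype V] [Fintype S] in
theorem DepOn.update {U : Finset V} {f : (V → S) → ℝ} (h : DepOn U f) {v : V} (hv : v ∉ U)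
    (z : V → S) (x : S) : f (Function.update z v x) = f z := by
  refine h _ _ fun u hu => ?_
  rw [Function.update_of_ne]
  rintro rfl
  exact hv hu

omit [Fintype V] [DecidableEq V] [Fintype S] in
theorem DepOn.mul {U : Finset V} {f g : (V → S) → ℝ} (hf : DepOn U f) (hg : DepOn U g) :
    DepOn U (fun z => f z * g z) := fun z z' hz => by
  show f z * g z = f z' * g z'
  rw [hf z z' hz, hg z z' hz]

omit [Fintype V] [DecidableEq V] in
theorem depOn_hQ (Q : Finset V) : DepOn Q (hQ A μ Q) := fun z z' hz => by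
  unfold hQ
  refine Finset.sum_congr rfl fun x _ => ?_
  congr 1
  exact Finset.prod_congr rfl fun i hi => by rw [hz i hi]

omit [Fintype V] [DecidableEq V] in
theorem kk_symm (h : Rev A μ c) (u v : S) : kk A μ u v = kk A μ v u := h.ker_symm u v

omit [Fintype V] [DecidableEq V] in
theorem kk_nonneg (h : Rev A μ c) (u v : S) : 0 ≤ kk A μ u v :=
  div_nonneg (h.nonneg u v) (h.pos v).le

omit [Fintype V] [DecidableEq V] in
theorem kk_alt (h : Rev A μ c) {u v : S} (huv : c u = c v) : kk A μ u v = 0 := by
  unfold kk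
  rw [h.alt u v huv, zero_div]

theorem mm_nonneg (h : Rev A μ c) (v : V) (x : S) : 0 ≤ mm side μ c v x := by
  unfold mm
  split_ifs
  · exact (h.pos x).le
  · exact le_rfl

theorem mm_sum (h : Rev A μ c) (v : V) : ∑ x, mm side μ c v x = 1 := h.mass (side v)

theorem side_of_M {z : V → S} (hz : (∏ v, mm side μ c v (z v)) ≠ 0) (v : V) :
    c (z v) = side v := by
  by_contra hcon
  refine hz (Finset.prod_eq_zero (mem_univ v) ?_)
  unfold mm
  exact if_neg hcon

theorem M_nonneg (h : Rev A μ c) (z : V → S) : 0 ≤ ∏ v, mm side μ c v (z v) :=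
  Finset.prod_nonneg fun _ _ => mm_nonneg h _ _

theorem M_update (z : V → S) (v : V) (x : S) :
    (∏ w, mm side μ c w (Function.update z v x w)) * mm side μ c v (z v) =
      (∏ w, mm side μ c w (z w)) * mm side μ c v x := by
  rw [← Finset.mul_prod_erase univ _ (mem_univ v), ← Finset.mul_prod_erase univ
    (fun w => mm side μ c w (z w)) (mem_univ v)]
  have : ∏ w ∈ univ.erase v, mm side μ c w (Function.update z v x w) =
      ∏ w ∈ univ.erase v, mm side μ c w (z w) := by
    refine Finset.prod_congr rfl fun w hw => ?_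
    rw [Function.update_of_ne (ne_of_mem_erase hw)]
  rw [this, Function.update_self]
  ring

/-- integration of one coordinate -/
theorem EM_update (h : Rev A μ c) (v : V) (f : (V → S) → ℝ) :
    EM side μ c f =
      EM side μ c (fun z => ∑ x, mm side μ c v x * f (Function.update z v x)) := by
  classical
  unfold EM
  let e : (V → S) × S → (V → S) × S := fun p => (Function.update p.1 v p.2, p.1 v)
  have he : Function.Involutive e := by
    rintro ⟨z, x⟩
    simp only [e, Function.update_idem, Function.update_self]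
    rw [Function.update_eq_self]
  have h1 : ∑ z : V → S, (∏ w, mm side μ c w (z w)) *
      ∑ x, mm side μ c v x * f (Function.update z v x) =
      ∑ p : (V → S) × S, (∏ w, mm side μ c w (p.1 w)) *
        (mm side μ c v p.2 * f (Function.update p.1 v p.2)) := by
    rw [Fintype.sum_prod_type]
    exact Finset.sum_congr rfl fun z _ => Finset.mul_sum _ _ _
  let E : Equiv.Perm ((V → S) × S) := he.toPerm
  rw [h1, ← Equiv.sum_comp E]
  have h2 : ∀ p : (V → S) × S, (∏ w, mm side μ c w ((E p).1 w)) *
      (mm side μ c v (E p).2 * f (Function.update (E p).1 v (E p).2)) =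
      (∏ w, mm side μ c w (p.1 w)) * f p.1 * mm side μ c v p.2 := by
    rintro ⟨z, x⟩
    have e1 : E (z, x) = (Function.update z v x, z v) := rfl
    rw [e1]
    simp only [Function.update_idem, Function.update_eq_self]
    rw [← mul_assoc, M_update]
    ring
  simp only [h2]
  rw [Fintype.sum_prod_type]
  refine Finset.sum_congr rfl fun z _ => ?_
  show (∏ v, mm side μ c v (z v)) * f z =
    ∑ y, (∏ w, mm side μ c w (z w)) * f z * mm side μ c v y
  rw [← Finset.mul_sum, mm_sum h, mul_one]

theorem EM_congr {f g : (V → S) → ℝ}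
    (hfg : ∀ z : V → S, (∏ v, mm side μ c v (z v)) ≠ 0 → f z = g z) :
    EM side μ c f = EM side μ c g := by
  unfold EM
  refine Finset.sum_congr rfl fun z _ => ?_
  by_cases hz : (∏ v, mm side μ c v (z v)) = 0
  · rw [hz, zero_mul, zero_mul]
  · rw [hfg z hz]

theorem EM_mono (h : Rev A μ c) {f g : (V → S) → ℝ}
    (hfg : ∀ z : V → S, (∏ v, mm side μ c v (z v)) ≠ 0 → f z ≤ g z) :
    EM side μ c f ≤ EM side μ c g := by
  unfold EM
  refine Finset.sum_le_sum fun z _ => ?_
  by_cases hz : (∏ v, mm side μ c v (z v)) = 0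
  · rw [hz, zero_mul, zero_mul]
  · exact mul_le_mul_of_nonneg_left (hfg z hz) (M_nonneg h z)

theorem EM_sub (f g : (V → S) → ℝ) :
    EM side μ c (fun z => f z - g z) = EM side μ c f - EM side μ c g := by
  unfold EM
  rw [← Finset.sum_sub_distrib]
  exact Finset.sum_congr rfl fun z _ => mul_sub _ _ _

theorem EM_add (f g : (V → S) → ℝ) :
    EM side μ c (fun z => f z + g z) = EM side μ c f + EM side μ c g := by
  unfold EM
  rw [← Finset.sum_add_distrib]
  exact Finset.sum_congr rfl fun z _ => mul_add _ _ _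

theorem EM_smul (a : ℝ) (f : (V → S) → ℝ) :
    EM side μ c (fun z => a * f z) = a * EM side μ c f := by
  unfold EM
  rw [Finset.mul_sum]
  exact Finset.sum_congr rfl fun z _ => by ring

theorem EM_one (h : Rev A μ c) : EM side μ c (fun _ => 1) = 1 := by
  unfold EM
  simp only [mul_one]
  have := Finset.prod_univ_sum (fun _ : V => (univ : Finset S)) fun v x => mm side μ c v x
  rw [← Fintype.piFinset_univ, ← this]
  exact Finset.prod_eq_one fun v _ => mm_sum h v

/-- integration of one coordinate in a product -/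
theorem EM_int (h : Rev A μ c) {v : V} {U : Finset V} (hv : v ∉ U) {f : (V → S) → ℝ}
    (hf : DepOn U f) {r : (V → S) → ℝ} {g : (V → S) → ℝ}
    (hr : ∀ z : V → S, (∏ v, mm side μ c v (z v)) ≠ 0 → f z ≠ 0 →
      ∑ x, mm side μ c v x * r (Function.update z v x) = g z) :
    EM side μ c (fun z => f z * r z) = EM side μ c (fun z => f z * g z) := by
  rw [EM_update h v]
  refine EM_congr fun z hz => ?_
  by_cases hfz : f z = 0
  · simp [hf.update hv, hfz]
  · simp only [hf.update hv]
    rw [← hr z hz hfz, Finset.mul_sum]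
    exact Finset.sum_congr rfl fun x _ => by ring

theorem hQ_nonneg (h : Rev A μ c) (Q : Finset V) (z : V → S) : 0 ≤ hQ A μ Q z :=
  Finset.sum_nonneg fun _ _ => mul_nonneg (h.pos _).le
    (Finset.prod_nonneg fun _ _ => kk_nonneg h _ _)

theorem hQ_pos (h : Rev A μ c) {Q : Finset V} {z : V → S} {x : S}
    (hx : ∀ i ∈ Q, kk A μ (z i) x ≠ 0) : 0 < hQ A μ Q z := by
  have h1 : μ x * ∏ i ∈ Q, kk A μ (z i) x ≤ hQ A μ Q z :=
    Finset.single_le_sum (f := fun x => μ x * ∏ i ∈ Q, kk A μ (z i) x)
      (fun y _ => mul_nonneg (h.pos y).le (Finset.prod_nonneg fun _ _ => kk_nonneg h _ _))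
      (mem_univ x)
  refine lt_of_lt_of_le (mul_pos (h.pos x) (Finset.prod_pos fun i hi => ?_)) h1
  exact lt_of_le_of_ne (kk_nonneg h _ _) (Ne.symm (hx i hi))

/-- the sum over the states of a vertex on the other side -/
theorem hQ_eq (h : Rev A μ c) {Q : Finset V} {z : V → S} {v i : V} (hi : i ∈ Q)
    (hc : c (z i) ≠ side v) :
    ∑ x, mm side μ c v x * ∏ i ∈ Q, kk A μ (z i) x = hQ A μ Q z := by
  unfold hQ
  refine Finset.sum_congr rfl fun x _ => ?_
  unfold mm
  split_ifs with hx
  · rfl
  · have : ∏ i ∈ Q, kk A μ (z i) x = 0 := by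
      refine Finset.prod_eq_zero hi (kk_alt h ?_)
      cases h1 : c (z i) <;> cases h2 : c x <;> cases h3 : side v <;> simp_all
    rw [this, mul_zero, mul_zero]

theorem hQ_singleton (h : Rev A μ c) (a : V) (z : V → S) : hQ A μ {a} z = 1 := by
  unfold hQ
  simp only [Finset.prod_singleton]
  have : ∀ x, μ x * kk A μ (z a) x = A (z a) x := by
    intro x
    unfold kk
    rw [mul_div_cancel₀ _ (h.pos x).ne']
  simp only [this]
  exact h.row _

end EM

end Vale.Agent.P050.Books
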