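import Vale.Agent.P050.R4.H22.Weak

/-!
# P050: relative entropies of the marginals of a law, and their calculus
-/

set_option linter.unusedSectionVars false

namespace Vale.Agent.P050.Books

open Finset Vale.Agent.P050.Lev Vale.Agent.P050.Ears

section Ent

variable {V S : Type} [Fintype V] [DecidableEq V] [Fintype S]
  {side : V → Bool} {A : Matrix S S ℝ} {μ : S → ℝ} {c : S → Bool}

/-- the density of the states of `W` -/
noncomputable def marg (side : V → Bool) (μ : S → ℝ) (c : S → Bool) (ρ : (V → S) → ℝ)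
    (W : Finset V) (z : V → S) : ℝ :=
  EM side μ c (fun a => ρ (mix (univ \ W) a z))

/-- the relative entropy of the states of `W` -/
noncomputable def DD (side : V → Bool) (μ : S → ℝ) (c : S → Bool) (ρ : (V → S) → ℝ)
    (W : Finset V) : ℝ :=
  EM side μ c (fun z => ρ z * Real.log (marg side μ c ρ W z))

/-- the mean logarithm of the kernel at two vertices -/
noncomputable def ee (side : V → Bool) (A : Matrix S S ℝ) (μ : S → ℝ) (c : S → Bool)
    (ρ : (V → S) → ℝ) (i j : V) : ℝ :=
  EM side μ c (fun z => ρ z * Real.log (kk A μ (z i) (z j)))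

theorem mix_compl (W : Finset V) (a z : V → S) {u : V} (hu : u ∈ W) :
    mix (univ \ W) a z u = z u := by
  unfold mix
  exact if_neg fun h => (mem_sdiff.1 h).2 hu

theorem depOn_marg (ρ : (V → S) → ℝ) (W : Finset V) : DepOn W (marg side μ c ρ W) := by
  intro z z' hz
  unfold marg
  refine EM_congr fun a _ => ?_
  congr 1
  funext v
  unfold mix
  by_cases hv : v ∈ W
  · rw [if_neg fun h => (mem_sdiff.1 h).2 hv, if_neg fun h => (mem_sdiff.1 h).2 hv]
    exact hz v hv
  · rw [if_pos (mem_sdiff.2 ⟨mem_univ v, hv⟩), if_pos (mem_sdiff.2 ⟨mem_univ v, hv⟩)]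

theorem marg_nonneg (h : Rev A μ c) {ρ : (V → S) → ℝ} (hρ : ∀ z, 0 ≤ ρ z) (W : Finset V)
    (z : V → S) : 0 ≤ marg side μ c ρ W z := EM_nonneg h fun _ => hρ _

theorem marg_law (h : Rev A μ c) (ρ : (V → S) → ℝ) {W : Finset V} {f : (V → S) → ℝ}
    (hf : DepOn W f) :
    EM side μ c (fun z => ρ z * f z) = EM side μ c (fun z => marg side μ c ρ W z * f z) := by
  rw [EM_mix (univ \ W) _ h]
  refine EM_congr fun z _ => ?_
  show _ = EM side μ c (fun a => ρ (mix (univ \ W) a z)) * f z
  rw [mul_comm, ← EM_smul]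
  refine EM_congr fun a _ => ?_
  have : f (mix (univ \ W) a z) = f z := hf _ _ fun u hu => mix_compl W a z hu
  rw [this, mul_comm]

/-- densities are unique -/
theorem density_unique (h : Rev A μ c) {W : Finset V} {F G : (V → S) → ℝ} (hF : DepOn W F)
    (hG : DepOn W G) (hlaw : ∀ f : (V → S) → ℝ, DepOn W f →
      EM side μ c (fun z => F z * f z) = EM side μ c (fun z => G z * f z)) {z : V → S}
    (hz : (∏ v, mm side μ c v (z v)) ≠ 0) : F z = G z := by
  have hd : DepOn W (fun z => F z - G z) := by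
    intro z z' hzz
    show F z - G z = F z' - G z'
    rw [hF z z' hzz, hG z z' hzz]
  have h1 := hlaw _ hd
  have h2 : EM side μ c (fun z => (F z - G z) * (F z - G z)) = 0 := by
    have : EM side μ c (fun z => (F z - G z) * (F z - G z)) =
        EM side μ c (fun z => F z * (F z - G z) - G z * (F z - G z)) :=
      EM_congr fun z _ => by ring
    rw [this, EM_sub, h1, sub_self]
  have h3 := eq_zero_of_EM (side := side) h (f := fun z => (F z - G z) * (F z - G z))
    (fun z => mul_self_nonneg _) h2 hz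
  have h4 : F z - G z = 0 := mul_self_eq_zero.1 h3
  linarith

theorem marg_eq (h : Rev A μ c) {ρ E : (V → S) → ℝ} {W : Finset V} (hE : DepOn W E)
    (hlaw : ∀ f : (V → S) → ℝ, DepOn W f →
      EM side μ c (fun z => ρ z * f z) = EM side μ c (fun z => E z * f z)) {z : V → S}
    (hz : (∏ v, mm side μ c v (z v)) ≠ 0) : marg side μ c ρ W z = E z :=
  density_unique h (depOn_marg ρ W) hE (fun f hf => by rw [← marg_law h ρ hf, hlaw f hf]) hz

theorem DD_eq (h : Rev A μ c) {ρ E : (V → S) → ℝ} {W : Finset V} (hE : DepOn W E)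
    (hlaw : ∀ f : (V → S) → ℝ, DepOn W f →
      EM side μ c (fun z => ρ z * f z) = EM side μ c (fun z => E z * f z)) :
    DD side μ c ρ W = EM side μ c (fun z => ρ z * Real.log (E z)) := by
  unfold DD
  exact EM_congr fun z hz => by rw [marg_eq h hE hlaw hz]

theorem marg_pos (h : Rev A μ c) {ρ : (V → S) → ℝ} (hρ : ∀ z, 0 ≤ ρ z) (W : Finset V)
    {z : V → S} (hz : (∏ v, mm side μ c v (z v)) ≠ 0) (h0 : ρ z ≠ 0) :
    0 < marg side μ c ρ W z :=
  lt_of_le_of_ne (marg_nonneg h hρ W z) (Ne.symm (ne_of_law h hρ (depOn_marg ρ W)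
    (fun _ hf => marg_law h ρ hf) hz h0))

theorem EM_marg (h : Rev A μ c) {ρ : (V → S) → ℝ} (hone : EM side μ c ρ = 1) (W : Finset V) :
    EM side μ c (marg side μ c ρ W) = 1 := by
  have := marg_law (side := side) h ρ (W := W) (f := fun _ => 1) (fun _ _ _ => rfl)
  simp only [mul_one] at this
  rw [← hone]
  exact this.symm

theorem DD_mono (h : Rev A μ c) {ρ : (V → S) → ℝ} (hρ : ∀ z, 0 ≤ ρ z)
    (hone : EM side μ c ρ = 1) {W W' : Finset V} (hW : W ⊆ W') :
    DD side μ c ρ W ≤ DD side μ c ρ W' := by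
  have hdep : DepOn W' (fun z => marg side μ c ρ W z * (marg side μ c ρ W' z)⁻¹) := by
    intro z z' hz
    show marg side μ c ρ W z * (marg side μ c ρ W' z)⁻¹ =
      marg side μ c ρ W z' * (marg side μ c ρ W' z')⁻¹
    rw [depOn_marg ρ W z z' fun u hu => hz u (hW hu), depOn_marg ρ W' z z' hz]
  have h1 : EM side μ c (fun z => ρ z *
      (marg side μ c ρ W z * (marg side μ c ρ W' z)⁻¹)) ≤ 1 := by
    rw [marg_law h ρ hdep, ← EM_marg (side := side) h hone W]
    refine EM_mono h fun z _ => ?_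
    have e : marg side μ c ρ W' z * (marg side μ c ρ W z * (marg side μ c ρ W' z)⁻¹) =
        marg side μ c ρ W z * (marg side μ c ρ W' z * (marg side μ c ρ W' z)⁻¹) := by ring
    rw [e]
    exact mul_le_of_le_one_right (marg_nonneg h hρ W z) mul_inv_le_one
  have h2 := log_nonneg_of (side := side) h hρ hone (fun z hz h0 =>
    mul_pos (marg_pos h hρ W hz h0) (inv_pos.2 (marg_pos h hρ W' hz h0))) h1
  have h3 : EM side μ c (fun z => ρ z *
      Real.log (marg side μ c ρ W z * (marg side μ c ρ W' z)⁻¹)) =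
      DD side μ c ρ W - DD side μ c ρ W' := by
    unfold DD
    rw [← EM_sub]
    refine EM_congr fun z hz => ?_
    by_cases h0 : ρ z = 0
    · rw [h0]
      ring
    · rw [Real.log_mul (marg_pos h hρ W hz h0).ne' (inv_pos.2 (marg_pos h hρ W' hz h0)).ne',
        Real.log_inv]
      ring
  rw [h3] at h2
  linarith

theorem DD_empty (h : Rev A μ c) {ρ : (V → S) → ℝ} (hone : EM side μ c ρ = 1) :
    DD side μ c ρ ∅ = 0 := by
  rw [DD_eq (side := side) h (E := fun _ => (1 : ℝ)) (fun _ _ _ => rfl)]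
  · simp only [Real.log_one, mul_zero]
    unfold EM
    simp
  · intro f hf
    by_cases hne : Nonempty (V → S)
    · obtain ⟨z₀⟩ := hne
      have hc : ∀ z : V → S, f z = f z₀ := fun z => hf z z₀ (by simp)
      have e1 : EM side μ c (fun z => ρ z * f z) = f z₀ * EM side μ c (fun z => ρ z) := by
        rw [← EM_smul]
        refine EM_congr fun z _ => ?_
        rw [hc z, mul_comm]
      have e2 : EM side μ c (fun z => (1 : ℝ) * f z) =
          f z₀ * EM side μ c (fun _ : V → S => (1 : ℝ)) := by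
        rw [← EM_smul]
        refine EM_congr fun z _ => ?_
        rw [hc z, mul_comm]
      rw [e1, e2, EM_one h]
      show f z₀ * EM side μ c ρ = f z₀ * 1
      rw [hone]
    · have hem : ∀ g : (V → S) → ℝ, EM side μ c g = 0 := by
        intro g
        unfold EM
        exact Finset.sum_eq_zero fun z _ => absurd ⟨z⟩ hne
      rw [hem, hem]

theorem DD_nonneg (h : Rev A μ c) {ρ : (V → S) → ℝ} (hρ : ∀ z, 0 ≤ ρ z)
    (hone : EM side μ c ρ = 1) (W : Finset V) : 0 ≤ DD side μ c ρ W := by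
  rw [← DD_empty (side := side) h hone]
  exact DD_mono h hρ hone (Finset.empty_subset W)

/-- marginals of marginals -/
theorem marg_marg (h : Rev A μ c) (ρ : (V → S) → ℝ) (W W' : Finset V) {z : V → S}
    (hz : (∏ v, mm side μ c v (z v)) ≠ 0) :
    marg side μ c (marg side μ c ρ W') W z = marg side μ c ρ (W ∩ W') z := by
  have hdep : DepOn (W ∩ W') (marg side μ c (marg side μ c ρ W') W) := by
    intro z z' hzz
    show EM side μ c (fun a => marg side μ c ρ W' (mix (univ \ W) a z)) =
      EM side μ c (fun a => marg side μ c ρ W' (mix (univ \ W) a z'))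
    refine EM_congr fun a _ => depOn_marg ρ W' _ _ fun u hu => ?_
    unfold mix
    by_cases hW : u ∈ W
    · rw [if_neg fun h => (mem_sdiff.1 h).2 hW, if_neg fun h => (mem_sdiff.1 h).2 hW]
      exact hzz u (mem_inter.2 ⟨hW, hu⟩)
    · rw [if_pos (mem_sdiff.2 ⟨mem_univ u, hW⟩), if_pos (mem_sdiff.2 ⟨mem_univ u, hW⟩)]
  refine density_unique h hdep (depOn_marg ρ _) (fun f hf => ?_) hz
  rw [← marg_law h ρ hf, ← marg_law h (marg side μ c ρ W') (hf.mono Finset.inter_subset_left),
    ← marg_law h ρ (hf.mono Finset.inter_subset_right)]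

/-- relative entropies are supermodular -/
theorem DD_super (h : Rev A μ c) {ρ : (V → S) → ℝ} (hρ : ∀ z, 0 ≤ ρ z)
    (hone : EM side μ c ρ = 1) (W W' : Finset V) :
    DD side μ c ρ W + DD side μ c ρ W' ≤
      DD side μ c ρ (W ∪ W') + DD side μ c ρ (W ∩ W') := by
  let m1 := marg side μ c ρ W
  let m2 := marg side μ c ρ W'
  let mu := marg side μ c ρ (W ∪ W')
  let mi := marg side μ c ρ (W ∩ W')
  let φ : (V → S) → ℝ := fun z => (m1 z * m2 z) * ((mu z)⁻¹ * (mi z)⁻¹)
  have hdep : DepOn (W ∪ W') φ := by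
    intro z z' hz
    have e1 : m1 z = m1 z' := depOn_marg ρ W z z' fun u hu => hz u (mem_union_left _ hu)
    have e2 : m2 z = m2 z' := depOn_marg ρ W' z z' fun u hu => hz u (mem_union_right _ hu)
    have e3 : mu z = mu z' := depOn_marg ρ (W ∪ W') z z' hz
    have e4 : mi z = mi z' := depOn_marg ρ (W ∩ W') z z' fun u hu =>
      hz u (mem_union_left _ (mem_inter.1 hu).1)
    show (m1 z * m2 z) * ((mu z)⁻¹ * (mi z)⁻¹) = (m1 z' * m2 z') * ((mu z')⁻¹ * (mi z')⁻¹)
    rw [e1, e2, e3, e4]
  have p1 : ∀ z, 0 ≤ m1 z := marg_nonneg h hρ W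
  have p2 : ∀ z, 0 ≤ m2 z := marg_nonneg h hρ W'
  have p4 : ∀ z, 0 ≤ mi z := marg_nonneg h hρ (W ∩ W')
  have h1 : EM side μ c (fun z => ρ z * φ z) ≤ 1 := by
    rw [marg_law h ρ hdep]
    have e1 : EM side μ c (fun z => mu z * φ z) ≤
        EM side μ c (fun z => m2 z * (m1 z * (mi z)⁻¹)) := by
      refine EM_mono h fun z _ => ?_
      have e : mu z * φ z = (m2 z * (m1 z * (mi z)⁻¹)) * (mu z * (mu z)⁻¹) := by
        show mu z * ((m1 z * m2 z) * ((mu z)⁻¹ * (mi z)⁻¹)) = _
        ring
      rw [e]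
      exact mul_le_of_le_one_right (mul_nonneg (p2 z) (mul_nonneg (p1 z) (inv_nonneg.2 (p4 z))))
        mul_inv_le_one
    refine e1.trans ?_
    have hd2 : DepOn W (fun z => m1 z * (mi z)⁻¹) := by
      intro z z' hz
      show m1 z * (mi z)⁻¹ = m1 z' * (mi z')⁻¹
      rw [show m1 z = m1 z' from depOn_marg ρ W z z' hz, show mi z = mi z' from
        depOn_marg ρ (W ∩ W') z z' fun u hu => hz u (mem_inter.1 hu).1]
    rw [marg_law h m2 hd2, ← EM_marg (side := side) h hone W]
    refine EM_mono h fun z hz => ?_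
    rw [marg_marg h ρ W W' hz]
    have e : marg side μ c ρ (W ∩ W') z * (m1 z * (mi z)⁻¹) = m1 z * (mi z * (mi z)⁻¹) := by
      show mi z * (m1 z * (mi z)⁻¹) = _
      ring
    rw [e]
    exact mul_le_of_le_one_right (p1 z) mul_inv_le_one
  have hpos : ∀ z, (∏ v, mm side μ c v (z v)) ≠ 0 → ρ z ≠ 0 → 0 < φ z := fun z hz h0 =>
    mul_pos (mul_pos (marg_pos h hρ W hz h0) (marg_pos h hρ W' hz h0))
      (mul_pos (inv_pos.2 (marg_pos h hρ _ hz h0)) (inv_pos.2 (marg_pos h hρ _ hz h0)))
  have h2 := log_nonneg_of (side := side) h hρ hone hpos h1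
  have h3 : EM side μ c (fun z => ρ z * Real.log (φ z)) =
      (DD side μ c ρ W + DD side μ c ρ W') -
        (DD side μ c ρ (W ∪ W') + DD side μ c ρ (W ∩ W')) := by
    unfold DD
    rw [← EM_add, ← EM_add, ← EM_sub]
    refine EM_congr fun z hz => ?_
    by_cases h0 : ρ z = 0
    · rw [h0]
      ring
    · have q1 : 0 < m1 z := marg_pos h hρ W hz h0
      have q2 : 0 < m2 z := marg_pos h hρ W' hz h0
      have q3 : 0 < mu z := marg_pos h hρ _ hz h0
      have q4 : 0 < mi z := marg_pos h hρ _ hz h0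
      show ρ z * Real.log ((m1 z * m2 z) * ((mu z)⁻¹ * (mi z)⁻¹)) = (ρ z * Real.log (m1 z) +
        ρ z * Real.log (m2 z)) - (ρ z * Real.log (mu z) + ρ z * Real.log (mi z))
      rw [Real.log_mul (mul_pos q1 q2).ne' (mul_pos (inv_pos.2 q3) (inv_pos.2 q4)).ne',
        Real.log_mul q1.ne' q2.ne', Real.log_mul (inv_pos.2 q3).ne' (inv_pos.2 q4).ne',
        Real.log_inv, Real.log_inv]
      ring
  rw [h3] at h2
  linarith

/-- invariance of averages under permutations of the vertices that keep the sides -/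
theorem EM_perm (σ : Equiv.Perm V) (hσ : ∀ v, side (σ v) = side v) (F : (V → S) → ℝ) :
    EM side μ c (fun z => F (z ∘ σ)) = EM side μ c F := by
  unfold EM
  let e : (V → S) ≃ (V → S) :=
    { toFun := fun z => z ∘ σ.symm
      invFun := fun z => z ∘ σ
      left_inv := fun z => by funext v; simp
      right_inv := fun z => by funext v; simp }
  rw [← Equiv.sum_comp e]
  refine Finset.sum_congr rfl fun z _ => ?_
  have e1 : (e z) ∘ σ = z := by
    funext v
    show z (σ.symm (σ v)) = z v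
    rw [Equiv.symm_apply_apply]
  have e2 : ∏ v, mm side μ c v (e z v) = ∏ v, mm side μ c v (z v) := by
    rw [← Equiv.prod_comp σ]
    refine Finset.prod_congr rfl fun v _ => ?_
    show mm side μ c (σ v) (z (σ.symm (σ v))) = _
    rw [Equiv.symm_apply_apply]
    unfold mm
    rw [hσ v]
  show (∏ v, mm side μ c v (e z v)) * F ((e z) ∘ σ) = (∏ v, mm side μ c v (z v)) * F z
  rw [e1, e2]

end Ent

end Vale.Agent.P050.Books
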