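import Vale.Agent.P050.R4.H22.SoundC
import Vale.Agent.P050.R4.H115.Tow
import Vale.Agent.P050.R3.H987.Sid

/-!
# P050, books, covers, towers: the two-sided Sidorenko inequality
-/

namespace Vale.Agent.P050.Books

open Finset Vale.Agent.P050.Lev Vale.Agent.P050.Ears

/-- a graph built with books, rough books and covers -/
theorem gsid_of_builtC {V : Type} [Fintype V] [DecidableEq V] {H : SimpleGraph V}
    {side : V → Bool} (hs : ∀ u v, H.Adj u v → side u ≠ side v) (hiso : ∀ v, ∃ u, H.Adj v u)
    {F : Set (Kind × Finset V × Finset V × ℕ)} (hb : BuiltC H univ F) : GSid H side :=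
  gsid_of_rev H side hs hiso fun _ _ _ _ _ _ _ h => sum_wt_geC h hs hb

/-- a tower -/
theorem gsid_of_tower {V : Type} [Fintype V] [DecidableEq V] {H : SimpleGraph V}
    {lev : V → ℕ} {b : V} (ht : Tower H lev b) : GSid H (fun v => decide (lev v % 2 = 0)) := by
  obtain ⟨F, hF⟩ := builtC_of_tower H lev b ht
  refine gsid_of_builtC ?_ ?_ hF
  · intro u v huv hcon
    have h1 : (lev u % 2 = 0) ↔ (lev v % 2 = 0) := by
      have h2 : decide (lev u % 2 = 0) = decide (lev v % 2 = 0) := hcon
      rwa [decide_eq_decide] at h2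
    rcases ht.adj u v huv with h3 | h3 <;> omega
  · intro v
    rcases Nat.lt_or_ge (lev v) 2 with h1 | h1
    · have h2 := ht.one v
      exact ⟨b, (ht.hub.2 v (by omega)).symm⟩
    · obtain ⟨u, hu⟩ := ht.dn v h1
      exact ⟨u, (mem_down.1 hu).1⟩

end Vale.Agent.P050.Books
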