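import Vale.Agent.P050.R4.H22.Hub2
import Vale.Agent.P050.R3.H987.Sid

/-!
# P050, graphs with a hub: the two-sided Sidorenko inequality
-/

namespace Vale.Agent.P050.Books

open Finset Vale.Agent.P050.Lev Vale.Agent.P050.Ears

/-- graphs with a hub -/
theorem gsid_of_hub {V : Type} [Fintype V] [DecidableEq V] {H : SimpleGraph V}
    {side : V → Bool} (hs : ∀ u v, H.Adj u v → side u ≠ side v) {b : V} {A₀ : Finset V}
    (hb : ∀ a ∈ A₀, H.Adj b a) (hz : ∀ z, side z = side b → ∃ a ∈ A₀, H.Adj z a)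
    (hw : ∀ w, side w ≠ side b → w ∉ A₀ → ∃ r a, H.Adj w r ∧ a ∈ A₀ ∧
      ∀ u, H.Adj w u → H.Adj u a ∧ ∀ x ∈ A₀, H.Adj u x → H.Adj r x) : GSid H side := by
  have hA : A₀.Nonempty := by
    obtain ⟨a, ha, -⟩ := hz b rfl
    exact ⟨a, ha⟩
  refine gsid_of_rev H side hs ?_ ?_
  · intro v
    by_cases h1 : side v = side b
    · obtain ⟨a, -, ha⟩ := hz v h1
      exact ⟨a, ha⟩
    · by_cases h2 : v ∈ A₀
      · exact ⟨b, (hb v h2).symm⟩
      · obtain ⟨r, -, hr, -⟩ := hw v h1 h2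
        exact ⟨r, hr⟩
  · intro S _ _ _ A μ c h
    obtain ⟨ρ, L, hl⟩ := hub_law (side := side) h hs hA hb hz hw
    exact hl.sum_wt_ge h

end Vale.Agent.P050.Books
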