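import Vale.Agent.P050.R3.H987.Sid

/-!
# P050: adding the edges from a vertex to a set
-/

namespace Vale.Agent.P050.Books

open Finset Vale.Agent.P050.Lev

/-- fewer edges, at least as many homomorphisms -/
theorem homDensity_anti {V U : Type*} [Finite V] [Finite U] {H H' : SimpleGraph V} (hle : H ≤ H')
    (G : SimpleGraph U) : homDensity H' G ≤ homDensity H G := by
  unfold homDensity
  refine div_le_div_of_nonneg_right ?_ (by positivity)
  have : Finite (H →g G) := Finite.of_injective (fun f => (f : V → U)) DFunLike.coe_injective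
  have h1 : Nat.card (H' →g G) ≤ Nat.card (H →g G) :=
    Nat.card_le_card_of_injective
      (fun f : H' →g G => (⟨f, fun h => f.map_rel (hle h)⟩ : H →g G)) (by
        intro f g hfg
        ext v
        exact congrArg (fun k : H →g G => k v) hfg)
  exact_mod_cast h1

/-- `H` with all edges from `b` to the vertices in `A₀` -/
def plus {V : Type} (H : SimpleGraph V) (b : V) (A₀ : Finset V) : SimpleGraph V where
  Adj u v := H.Adj u v ∨ (u ≠ v ∧ ((u = b ∧ v ∈ A₀) ∨ (v = b ∧ u ∈ A₀)))
  symm := ⟨fun u v h => by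
    rcases h with h | ⟨h1, h2⟩
    · exact Or.inl h.symm
    · exact Or.inr ⟨h1.symm, h2.symm⟩⟩
  loopless := ⟨fun u h => by
    rcases h with h | ⟨h1, -⟩
    · exact H.loopless.irrefl _ h
    · exact h1 rfl⟩

theorem le_plus {V : Type} (H : SimpleGraph V) (b : V) (A₀ : Finset V) : H ≤ plus H b A₀ :=
  fun _ _ h => Or.inl h

theorem card_plus {V : Type} [Finite V] (H : SimpleGraph V) (b : V) (A₀ : Finset V) :
    Nat.card (plus H b A₀).edgeSet ≤
      Nat.card H.edgeSet + Nat.card {x : V // x ∈ A₀ ∧ ¬ H.Adj b x} := by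
  classical
  have hsub : (plus H b A₀).edgeSet ⊆
      H.edgeSet ∪ (fun x => s(b, x)) '' {x : V | x ∈ A₀ ∧ ¬ H.Adj b x} := by
    intro e
    induction e with
    | _ u v =>
      intro h
      rw [SimpleGraph.mem_edgeSet] at h
      by_cases huv : H.Adj u v
      · exact Or.inl (H.mem_edgeSet.2 huv)
      · refine Or.inr ?_
        rcases h with h | ⟨-, ⟨rfl, h2⟩ | ⟨rfl, h2⟩⟩
        · exact absurd h huv
        · exact ⟨v, ⟨h2, huv⟩, rfl⟩
        · exact ⟨u, ⟨h2, fun h3 => huv h3.symm⟩, Sym2.eq_swap⟩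
  calc Nat.card (plus H b A₀).edgeSet = (plus H b A₀).edgeSet.ncard := rfl
    _ ≤ (H.edgeSet ∪ (fun x => s(b, x)) '' {x : V | x ∈ A₀ ∧ ¬ H.Adj b x}).ncard :=
        Set.ncard_le_ncard hsub (Set.toFinite _)
    _ ≤ H.edgeSet.ncard + ((fun x => s(b, x)) '' {x : V | x ∈ A₀ ∧ ¬ H.Adj b x}).ncard :=
        Set.ncard_union_le _ _
    _ ≤ H.edgeSet.ncard + {x : V | x ∈ A₀ ∧ ¬ H.Adj b x}.ncard :=
        Nat.add_le_add_left (Set.ncard_image_le (Set.toFinite _)) _
    _ = _ := rfl

theorem edgeDensity_le_one {U : Type*} [Finite U] (G : SimpleGraph U) : edgeDensity G ≤ 1 := by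
  classical
  have := Fintype.ofFinite U
  unfold edgeDensity
  refine div_le_one_of_le₀ ?_ (by positivity)
  have h1 : Nat.card G.edgeSet ≤ (Nat.card U).choose 2 := by
    rw [Nat.card_eq_fintype_card, ← SimpleGraph.edgeFinset_card, Nat.card_eq_fintype_card]
    exact G.card_edgeFinset_le_card_choose_two
  have h2 : 2 * (Nat.card U).choose 2 ≤ Nat.card U ^ 2 := by
    rw [Nat.choose_two_right, pow_two]
    calc 2 * (Nat.card U * (Nat.card U - 1) / 2) ≤ Nat.card U * (Nat.card U - 1) :=
          Nat.mul_div_le _ _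
      _ ≤ Nat.card U * Nat.card U := Nat.mul_le_mul_left _ (Nat.sub_le _ _)
  have h3 : 2 * Nat.card G.edgeSet ≤ Nat.card U ^ 2 := (Nat.mul_le_mul_left 2 h1).trans h2
  exact_mod_cast h3

/-- the Sidorenko inequality for the graph with the additional edges -/
theorem near_of_gsid {V : Type} [Fintype V] [DecidableEq V] {H : SimpleGraph V} {side : V → Bool}
    {b : V} {A₀ : Finset V} (h : GSid (plus H b A₀) side) {U : Type} [Finite U] [Nonempty U]
    (G : SimpleGraph U) :
    edgeDensity G ^ (Nat.card H.edgeSet + Nat.card {x : V // x ∈ A₀ ∧ ¬ H.Adj b x}) ≤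
      homDensity H G := by
  have h1 := sidorenko_of_gsid h G
  have h0 : 0 ≤ edgeDensity G := by
    unfold edgeDensity
    positivity
  exact (pow_le_pow_of_le_one h0 (edgeDensity_le_one G) (card_plus H b A₀)).trans
    (h1.trans (homDensity_anti (le_plus H b A₀) G))

end Vale.Agent.P050.Books
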