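import Vale.Agent.P050.R2.H545.HubC4
import Vale.Agent.P050.R4.H22.Near

/-!
# P050: the counting theorem for graphs with a hub, near version
-/

namespace Vale.Agent.P050.Books

open Finset Vale.Agent.P050.Lev

theorem plus_adj {V : Type} {H : SimpleGraph V} {b : V} {A₀ : Finset V} {u v : V} :
    (plus H b A₀).Adj u v ↔ H.Adj u v ∨ (u ≠ v ∧ ((u = b ∧ v ∈ A₀) ∨ (v = b ∧ u ∈ A₀))) :=
  Iff.rfl

/-- COUNTING THEOREM for graphs with a hub `b` to which the edges to `A₀` are added -/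
theorem near_hubc {V : Type} [Fintype V] [DecidableEq V] {H : SimpleGraph V}
    {side : V → Bool} (hs : ∀ u v, H.Adj u v → side u ≠ side v) {b : V} {A₀ : Finset V}
    (hA : ∀ a ∈ A₀, side a ≠ side b) (q t c : V → ℕ)
    (hq : ∀ z, q z = Nat.card {a : V // a ∈ A₀ ∧ (z = b ∨ H.Adj z a)})
    (ht : ∀ w, t w = Nat.card {a : V // a ∈ A₀ ∧ ∃ z, H.Adj w z ∧ (z = b ∨ H.Adj z a)})
    (hz : ∀ z, side z = side b → 1 ≤ q z) (Z W : Finset V) (N : V → Finset V)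
    (hZ : ∀ z, z ∈ Z ↔ side z = side b ∧ z ≠ b)
    (hW : ∀ w, w ∈ W ↔ side w ≠ side b ∧ w ∉ A₀) (hN : ∀ w z, z ∈ N w ↔ H.Adj w z)
    (hw : ∀ w ∈ W, (∃ z, H.Adj w z) ∧ 1 ≤ c w ∧
      c w ≤ Nat.card {a : V // a ∈ A₀ ∧ ∀ z, H.Adj w z → z = b ∨ H.Adj z a})
    (hle : ∀ m, 2 ≤ m → ∑ w ∈ W, ((min (c w) (t w + 1 - m) : ℕ) : ℝ) / c w ≤
      ∑ z ∈ Z, ((q z + 1 - m : ℕ) : ℝ) +
        ∑ w ∈ W, ∑ z ∈ N w, ((min (c w) (q z + 1 - m) : ℕ) : ℝ) / c w) :
    GSid (plus H b A₀) side := by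
  classical
  have hs' : ∀ u v, (plus H b A₀).Adj u v → side u ≠ side v := by
    intro u v h
    rcases h with h | ⟨-, ⟨rfl, h⟩ | ⟨rfl, h⟩⟩
    · exact hs _ _ h
    · exact (hA _ h).symm
    · exact hA _ h
  have hbA : b ∉ A₀ := fun h => hA b h rfl
  have key : ∀ z a, a ∈ A₀ → ((plus H b A₀).Adj z a ↔ z = b ∨ H.Adj z a) := by
    intro z a ha
    have hab : a ≠ b := fun h => hbA (h ▸ ha)
    rw [plus_adj]
    constructor
    · rintro (h | ⟨-, ⟨h, -⟩ | ⟨h, -⟩⟩)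
      · exact Or.inr h
      · exact Or.inl h
      · exact absurd h hab
    · rintro (h | h)
      · exact Or.inr ⟨fun h' => hab (h' ▸ h), Or.inl ⟨h, ha⟩⟩
      · exact Or.inl h
  have key2 : ∀ w z, w ∈ W → ((plus H b A₀).Adj w z ↔ H.Adj w z) := by
    intro w z hwW
    obtain ⟨h1, h2⟩ := (hW w).1 hwW
    rw [plus_adj]
    constructor
    · rintro (h | ⟨-, ⟨h, -⟩ | ⟨-, h⟩⟩)
      · exact h
      · exact absurd (by rw [h]) h1
      · exact absurd h h2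
    · exact Or.inl
  have hcard : ∀ p p' : V → Prop, (∀ a, p a ↔ p' a) →
      Nat.card {a : V // p a} = Nat.card {a : V // p' a} := by
    intro p p' h
    rw [show p = p' from funext fun a => propext (h a)]
  have ht' : ∀ w ∈ W, t w =
      Nat.card {a : V // a ∈ A₀ ∧ ∃ z, (plus H b A₀).Adj w z ∧ (plus H b A₀).Adj z a} := by
    intro w hwW
    rw [ht]
    refine hcard _ _ fun a => and_congr_right fun ha => exists_congr fun z => ?_
    rw [key2 w z hwW, key z a ha]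
  let N' : V → Finset V := fun w => univ.filter fun z => (plus H b A₀).Adj w z
  have hN' : ∀ w ∈ W, N' w = N w := by
    intro w hwW
    ext z
    rw [hN, ← key2 w z hwW]
    simp [N']
  refine gsid_of_hubc (A₀ := A₀) (b := b) hs' (fun a ha => (key b a ha).2 (Or.inl rfl)) q
    (fun w => Nat.card {a : V // a ∈ A₀ ∧ ∃ z, (plus H b A₀).Adj w z ∧ (plus H b A₀).Adj z a}) c
    (fun z => ?_) (fun w => rfl) hz Z W N' hZ hW (fun w z => by simp [N']) (fun w hwW => ?_)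
    (fun m hm => ?_)
  · rw [hq]
    exact hcard _ _ fun a => and_congr_right fun ha => (key z a ha).symm
  · obtain ⟨⟨z, hz1⟩, h1, h2⟩ := hw w hwW
    refine ⟨⟨z, (key2 w z hwW).2 hz1⟩, h1, h2.trans (le_of_eq ?_)⟩
    refine hcard _ _ fun a => and_congr_right fun ha => forall_congr' fun z => ?_
    rw [key2 w z hwW, key z a ha]
  · have h1 := hle m hm
    have e1 : ∑ w ∈ W, ((min (c w) (Nat.card {a : V // a ∈ A₀ ∧ ∃ z, (plus H b A₀).Adj w z ∧
        (plus H b A₀).Adj z a} + 1 - m) : ℕ) : ℝ) / c w =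
        ∑ w ∈ W, ((min (c w) (t w + 1 - m) : ℕ) : ℝ) / c w :=
      Finset.sum_congr rfl fun w hwW => by rw [ht' w hwW]
    have e2 : ∑ w ∈ W, ∑ z ∈ N' w, ((min (c w) (q z + 1 - m) : ℕ) : ℝ) / c w =
        ∑ w ∈ W, ∑ z ∈ N w, ((min (c w) (q z + 1 - m) : ℕ) : ℝ) / c w :=
      Finset.sum_congr rfl fun w hwW => by rw [hN' w hwW]
    rw [e1, e2]
    exact h1

theorem plus_eq {V : Type} {H : SimpleGraph V} {b : V} {A₀ : Finset V}
    (h : ∀ a ∈ A₀, H.Adj b a) : plus H b A₀ = H := by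
  ext u v
  rw [plus_adj]
  constructor
  · rintro (h1 | ⟨-, ⟨rfl, h1⟩ | ⟨rfl, h1⟩⟩)
    · exact h1
    · exact h _ h1
    · exact (h _ h1).symm
  · exact Or.inl

end Vale.Agent.P050.Books
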