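import Vale.Agent.P050.R4.H22.Top

/-!
# P050: the law of a graph with a hub
-/

set_option linter.unusedSectionVars false

namespace Vale.Agent.P050.Books

open Finset Vale.Agent.P050.Lev Vale.Agent.P050.Ears

section Hub2

variable {V S : Type} [Fintype V] [DecidableEq V] [Fintype S]
  {side : V → Bool} {A : Matrix S S ℝ} {μ : S → ℝ} {c : S → Bool}

/-- the law of a hub with independent neighbours -/
theorem star_law (h : Rev A μ c) {H : SimpleGraph V}
    (hs : ∀ u v, H.Adj u v → side u ≠ side v) (b : V) (A₀ : Finset V)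
    (hb : ∀ a ∈ A₀, H.Adj b a) :
    ∃ ρ L : (V → S) → ℝ, Law H side A μ c (insert b A₀) ρ L ∧
      IsBook side A μ c (insert b A₀) ρ {b} A₀ := by
  induction A₀ using Finset.induction_on with
  | empty =>
    refine ⟨_, _, law_point h H side b, isBook_point h b⟩
  | insert a A₀ ha ih =>
    obtain ⟨ρ, L, hl, hbk⟩ := ih fun x hx => hb x (mem_insert_of_mem hx)
    have hba : H.Adj b a := hb a (mem_insert_self _ _)
    have hv : a ∉ insert b A₀ := by
      rw [mem_insert, not_or]
      exact ⟨fun e => H.loopless.irrefl _ (e ▸ hba), ha⟩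
    have hRU : ({b} : Finset V) ⊆ insert b A₀ := by
      rw [Finset.singleton_subset_iff]
      exact mem_insert_self _ _
    have hR : ∀ x ∈ insert b A₀, H.Adj a x ↔ x ∈ ({b} : Finset V) := by
      intro x hx
      rw [mem_singleton]
      rcases mem_insert.1 hx with rfl | hx
      · exact ⟨fun _ => rfl, fun _ => hba.symm⟩
      · constructor
        · intro hax
          have h1 := hs _ _ hax
          have h2 := hs _ _ hba
          have h3 := hs _ _ (hb x (mem_insert_of_mem hx))
          exfalso
          cases h4 : side a <;> cases h5 : side x <;> cases h6 : side b <;> simp_all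
        · rintro rfl
          exact hba.symm
    have hp : ∀ z : V → S, (∏ v, mm side μ c v (z v)) ≠ 0 → ρ z ≠ 0 → 0 < hQ A μ {b} z :=
      fun z _ _ => by rw [hQ_singleton h]; exact zero_lt_one
    have hsd : ∀ i ∈ ({b} : Finset V), side i ≠ side a := by
      intro i hi
      rw [mem_singleton.1 hi]
      exact hs _ _ hba
    have e : insert b (insert a A₀) = insert a (insert b A₀) := Finset.insert_comm _ _ _
    rw [e]
    refine ⟨_, _, hl.attach h hs hv (singleton_nonempty b) hRU hR hp ?_,
      hbk.page h hl.dep hv hsd⟩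
    refine le_of_eq ?_
    simp only [hQ_singleton h, Real.log_one, mul_zero]
    unfold EM
    simp

theorem dens_empty (Q : Finset V) (z : V → S) : dens A μ Q ∅ z = hQ A μ Q z := by
  unfold dens
  simp

/-- the hub and its neighbours form a fan -/
theorem fan_base (h : Rev A μ c) {b : V} {A₀ U : Finset V} {ρ : (V → S) → ℝ}
    (hρ : ∀ z, 0 ≤ ρ z) (hone : EM side μ c ρ = 1) (hA : A₀.Nonempty)
    (hbk : IsBook side A μ c U ρ {b} A₀) {Q : V → Finset V} (hQb : Q b = A₀) :
    IsFan side A μ c U ρ A₀ {b} Q := by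
  have hkp := (hbk.weak h hρ hone).kp h hρ
  have hstar : ∀ P ⊆ A₀, P.Nonempty → MM side A μ c ρ P = DD side μ c ρ P := by
    intro P hP hPn
    have h1 := ((hbk.subset h hP).flip h hPn).subset h (P' := ∅) (Finset.empty_subset _)
    have h2 := h1.law
    rw [Finset.union_empty] at h2
    have h3 := depOn_dens (A := A) (μ := μ) P ∅
    rw [Finset.union_empty] at h3
    rw [DD_eq (side := side) (c := c) h h3 h2]
    unfold MM
    refine EM_congr fun z _ => ?_
    rw [dens_empty]
  have hsub : insert b A₀ ⊆ U := by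
    have := hbk.sub
    rwa [← Finset.insert_eq] at this
  refine ⟨?_, ?_, ?_, ?_, ⟨b, mem_singleton_self b, hQb⟩, ?_, hstar, ?_⟩
  · rw [Finset.union_comm, ← Finset.insert_eq]
    exact hsub
  · intro u hu
    rw [mem_singleton.1 hu, hQb]
  · intro u hu
    rw [mem_singleton.1 hu, hQb]
    exact hA
  · intro u hu i hi
    rw [mem_singleton.1 hu]
    exact (hbk.sd b (mem_singleton_self b) i hi).symm
  · intro z hz h0 u hu i hi
    rw [mem_singleton.1 hu] at hi ⊢
    rw [hQb] at hi
    rw [kk_symm h]
    exact hkp z hz h0 b (mem_singleton_self b) i hi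
  · intro T hT R hR hQT
    rcases Finset.eq_empty_or_nonempty R with rfl | ⟨x, hx⟩
    · simp
    · have hRb : R = {b} := by
        refine Finset.Subset.antisymm hR ?_
        rw [Finset.singleton_subset_iff]
        have := mem_singleton.1 (hR hx)
        rwa [this] at hx
      subst hRb
      have hTA : T = A₀ := by
        refine Finset.Subset.antisymm hT ?_
        have := hQT b (mem_singleton_self b)
        rwa [hQb] at this
      subst hTA
      rw [Finset.sum_singleton, hQb, hstar T (Finset.Subset.refl _) hA]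
      have h1 := hbk.flip h hA
      rw [DD_eq (side := side) (c := c) h (depOn_dens T {b}) h1.law]
      have h2 : EM side μ c (fun z => ρ z * Real.log (dens A μ T {b} z)) =
          EE side A μ c ρ T {b} := by
        rw [← EM_log_prod (fun z hz h0 i hi j hj => by
          rw [mem_singleton.1 hj, kk_symm h]
          exact hkp z hz h0 b (mem_singleton_self b) i hi)]
        refine EM_congr fun z hz => ?_
        by_cases h0 : ρ z = 0
        · rw [h0]
          ring
        · have hpos := h1.hQ_pos h hρ hz h0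
          unfold dens
          rw [Finset.card_singleton, pow_one, mul_inv_cancel₀ hpos.ne', mul_one]
      rw [h2]
      unfold EE
      simp only [Finset.sum_singleton]
      ring

open Classical in
/-- the trace of a vertex on `A₀` -/
noncomputable def tr (H : SimpleGraph V) (A₀ : Finset V) (u : V) : Finset V :=
  A₀.filter fun i => H.Adj u i

theorem mem_tr {H : SimpleGraph V} {A₀ : Finset V} {u i : V} :
    i ∈ tr H A₀ u ↔ i ∈ A₀ ∧ H.Adj u i := by
  classical
  simp [tr]

/-- the law of the hub, its neighbours and its twins -/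
theorem fan_law (h : Rev A μ c) {H : SimpleGraph V}
    (hs : ∀ u v, H.Adj u v → side u ≠ side v) {b : V} {A₀ : Finset V} (hA : A₀.Nonempty)
    (hb : ∀ a ∈ A₀, H.Adj b a) (Z : Finset V)
    (hZ : ∀ z ∈ Z, z ≠ b ∧ side z = side b ∧ (tr H A₀ z).Nonempty) :
    ∃ ρ L : (V → S) → ℝ, Law H side A μ c (insert b A₀ ∪ Z) ρ L ∧
      IsFan side A μ c (insert b A₀ ∪ Z) ρ A₀ (insert b Z) (tr H A₀) := by
  have hQb : tr H A₀ b = A₀ := by
    ext i
    rw [mem_tr]
    exact ⟨fun hi => hi.1, fun hi => ⟨hi, hb i hi⟩⟩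
  induction Z using Finset.induction_on with
  | empty =>
    obtain ⟨ρ, L, hl, hbk⟩ := star_law (side := side) h hs b A₀ hb
    rw [Finset.union_empty]
    exact ⟨ρ, L, hl, fan_base h hl.nonneg hl.one hA hbk hQb⟩
  | insert v Z hvZ ih =>
    obtain ⟨ρ, L, hl, hf⟩ := ih fun z hz => hZ z (mem_insert_of_mem hz)
    obtain ⟨hvb, hvs, hvn⟩ := hZ v (mem_insert_self _ _)
    have hvA : v ∉ A₀ := by
      intro hm
      have := hs _ _ (hb v hm)
      rw [hvs] at this
      exact this rfl
    have hv : v ∉ insert b A₀ ∪ Z := by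
      rw [mem_union, not_or, mem_insert, not_or]
      exact ⟨⟨hvb, hvA⟩, hvZ⟩
    have hRA : tr H A₀ v ⊆ A₀ := fun i hi => (mem_tr.1 hi).1
    have hRU : tr H A₀ v ⊆ insert b A₀ ∪ Z :=
      hRA.trans ((Finset.subset_insert _ _).trans Finset.subset_union_left)
    have hR : ∀ x ∈ insert b A₀ ∪ Z, H.Adj v x ↔ x ∈ tr H A₀ v := by
      intro x hx
      rw [mem_tr]
      constructor
      · intro hvx
        refine ⟨?_, hvx⟩
        have h1 := hs _ _ hvx
        rcases mem_union.1 hx with hx | hx
        · rcases mem_insert.1 hx with rfl | hx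
          · exact absurd hvs h1
          · exact hx
        · exact absurd (hvs.trans (hZ x (mem_insert_of_mem hx)).2.1.symm) h1
      · exact fun hx => hx.2
    have hsd : ∀ i ∈ A₀, side i ≠ side v := by
      intro i hi
      rw [hvs]
      exact (hs _ _ (hb i hi)).symm
    have hp := hf.pos h hRA
    obtain ⟨i, hi⟩ := id hvn
    rw [Finset.union_insert, Finset.insert_comm]
    refine ⟨_, _, hl.attach h hs hv hvn hRU hR hp ?_,
      hf.add h hl hv hvn hi hRA rfl hsd hp⟩
    have h1 := hf.star _ hRA hvn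
    have h2 := DD_nonneg (side := side) h hl.nonneg hl.one (tr H A₀ v)
    rw [← h1] at h2
    exact h2

/-- the law of the whole graph -/
theorem hub_law (h : Rev A μ c) {H : SimpleGraph V}
    (hs : ∀ u v, H.Adj u v → side u ≠ side v) {b : V} {A₀ : Finset V} (hA : A₀.Nonempty)
    (hb : ∀ a ∈ A₀, H.Adj b a) (hz : ∀ z, side z = side b → ∃ a ∈ A₀, H.Adj z a)
    (hw : ∀ w, side w ≠ side b → w ∉ A₀ → ∃ r a, H.Adj w r ∧ a ∈ A₀ ∧
      ∀ u, H.Adj w u → H.Adj u a ∧ ∀ x ∈ A₀, H.Adj u x → H.Adj r x) :
    ∃ ρ L : (V → S) → ℝ, Law H side A μ c univ ρ L := by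
  classical
  let Z : Finset V := univ.filter fun z => z ≠ b ∧ side z = side b
  have key : ∀ W : Finset V, (∀ w ∈ W, side w ≠ side b ∧ w ∉ A₀) →
      ∃ ρ L : (V → S) → ℝ, Law H side A μ c (insert b A₀ ∪ Z ∪ W) ρ L ∧
      IsFan side A μ c (insert b A₀ ∪ Z ∪ W) ρ A₀ (insert b Z) (tr H A₀) := by
    intro W
    induction W using Finset.induction_on with
    | empty =>
      intro _
      rw [Finset.union_empty]
      refine fan_law h hs hA hb Z fun z hzZ => ?_
      obtain ⟨-, h1, h2⟩ := mem_filter.1 hzZ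
      obtain ⟨a, ha, hza⟩ := hz z h2
      exact ⟨h1, h2, a, mem_tr.2 ⟨ha, hza⟩⟩
    | insert w W hwW ih =>
      intro hW
      obtain ⟨ρ, L, hl, hf⟩ := ih fun x hx => hW x (mem_insert_of_mem hx)
      obtain ⟨hws, hwA⟩ := hW w (mem_insert_self _ _)
      obtain ⟨r, a, hwr, ha, hdom⟩ := hw w hws hwA
      have hwU : w ∉ insert b A₀ ∪ Z ∪ W := by
        simp only [mem_union, mem_insert, not_or, Z, mem_filter, mem_univ, true_and, not_and]
        exact ⟨⟨⟨fun e => hws (by rw [e]), hwA⟩, fun _ => hws⟩, hwW⟩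
      let R : Finset V := univ.filter fun u => H.Adj w u
      have hRZ : R ⊆ insert b Z := by
        intro u hu
        have h1 := (mem_filter.1 hu).2
        have h2 := hs _ _ h1
        have h3 : side u = side b := by
          cases h4 : side u <;> cases h5 : side w <;> cases h6 : side b <;> simp_all
        rw [mem_insert]
        by_cases h7 : u = b
        · exact Or.inl h7
        · exact Or.inr (mem_filter.2 ⟨mem_univ _, h7, h3⟩)
      have hRU : R ⊆ insert b A₀ ∪ Z ∪ W := by
        intro u hu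
        rcases mem_insert.1 (hRZ hu) with h1 | h1
        · exact mem_union_left _ (mem_union_left _ (mem_insert.2 (Or.inl h1)))
        · exact mem_union_left _ (mem_union_right _ h1)
      have hrR : r ∈ R := mem_filter.2 ⟨mem_univ _, hwr⟩
      have haR : ∀ u ∈ R, a ∈ tr H A₀ u := fun u hu =>
        mem_tr.2 ⟨ha, (hdom u (mem_filter.1 hu).2).1⟩
      have htR : ∀ u ∈ R, tr H A₀ u ⊆ tr H A₀ r := by
        intro u hu x hx
        obtain ⟨h1, h2⟩ := mem_tr.1 hx
        exact mem_tr.2 ⟨h1, (hdom u (mem_filter.1 hu).2).2 x h1 h2⟩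
      have hp : ∀ z : V → S, (∏ v, mm side μ c v (z v)) ≠ 0 → ρ z ≠ 0 → 0 < hQ A μ R z :=
        fun z hz h0 => Books.hQ_pos h (x := z a) fun u hu => by
          have := hf.kp z hz h0 u (hRZ hu) a (haR u hu)
          rw [kk_symm h] at this
          exact this.ne'
      have hsdR : ∀ i ∈ R, side i ≠ side w := fun i hi => (hs _ _ (mem_filter.1 hi).2).symm
      rw [Finset.union_insert]
      refine ⟨_, _, hl.attach h hs hwU ⟨r, hrR⟩ hRU (fun x _ => ?_) hp
        (hf.top h hl.nonneg hl.one hRZ hrR haR htR),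
        hf.keep h hl.dep hwU hRU hrR (hsdR r hrR) hp⟩
      simp [R]
  let W : Finset V := univ.filter fun w => side w ≠ side b ∧ w ∉ A₀
  obtain ⟨ρ, L, hl, -⟩ := key W fun w hw => (mem_filter.1 hw).2
  have hU : insert b A₀ ∪ Z ∪ W = univ := by
    ext x
    simp only [mem_union, mem_insert, Z, W, mem_filter, mem_univ, true_and, iff_true]
    by_cases h1 : side x = side b
    · by_cases h2 : x = b
      · exact Or.inl (Or.inl (Or.inl h2))
      · exact Or.inl (Or.inr ⟨h2, h1⟩)
    · by_cases h2 : x ∈ A₀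
      · exact Or.inl (Or.inl (Or.inr h2))
      · exact Or.inr ⟨h1, h2⟩
  rw [hU] at hl
  exact ⟨ρ, L, hl⟩

end Hub2

end Vale.Agent.P050.Books
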