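import Vale.Agent.P050.R4.H22.EM

/-!
# P050, books and caps: the laws of the graphs built vertex by vertex
-/

set_option linter.unusedSectionVars false

namespace Vale.Agent.P050.Books

open Finset Vale.Agent.P050.Lev Vale.Agent.P050.Ears

section Law

variable {V S : Type} [Fintype V] [DecidableEq V] [Fintype S]

/-- the density of the book with spine `Q` and pages `P` -/
noncomputable def dens (A : Matrix S S ℝ) (μ : S → ℝ) (Q P : Finset V) (z : V → S) : ℝ :=
  (∏ i ∈ Q, ∏ j ∈ P, kk A μ (z i) (z j)) * (hQ A μ Q z * (hQ A μ Q z)⁻¹ ^ P.card)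

/-- In the law with density `ρ` the states of `Q` and `P` have the law of a book. -/
structure IsBook (side : V → Bool) (A : Matrix S S ℝ) (μ : S → ℝ) (c : S → Bool) (U : Finset V)
    (ρ : (V → S) → ℝ) (Q P : Finset V) : Prop where
  ne : Q.Nonempty
  sd : ∀ i ∈ Q, ∀ j ∈ P, side i ≠ side j
  sub : Q ∪ P ⊆ U
  law : ∀ f : (V → S) → ℝ, DepOn (Q ∪ P) f →
    EM side μ c (fun z => ρ z * f z) = EM side μ c (fun z => dens A μ Q P z * f z)

variable {side : V → Bool} {A : Matrix S S ℝ} {μ : S → ℝ} {c : S → Bool}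

theorem depOn_prod2 (Q P : Finset V) :
    DepOn (Q ∪ P) (fun z : V → S => ∏ i ∈ Q, ∏ j ∈ P, kk A μ (z i) (z j)) := by
  intro z z' hz
  refine Finset.prod_congr rfl fun i hi => Finset.prod_congr rfl fun j hj => ?_
  rw [hz i (mem_union_left _ hi), hz j (mem_union_right _ hj)]

theorem depOn_dens (Q P : Finset V) : DepOn (Q ∪ P) (dens A μ Q P : (V → S) → ℝ) := by
  intro z z' hz
  unfold dens
  have h1 : ∏ i ∈ Q, ∏ j ∈ P, kk A μ (z i) (z j) = ∏ i ∈ Q, ∏ j ∈ P, kk A μ (z' i) (z' j) :=
    depOn_prod2 Q P z z' hz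
  rw [h1, depOn_hQ Q z z' fun u hu => hz u (mem_union_left _ hu)]

theorem dens_nonneg (h : Rev A μ c) (Q P : Finset V) (z : V → S) : 0 ≤ dens A μ Q P z := by
  unfold dens
  refine mul_nonneg (Finset.prod_nonneg fun _ _ => Finset.prod_nonneg fun _ _ =>
    kk_nonneg h _ _) (mul_nonneg (hQ_nonneg h _ _) (pow_nonneg (inv_nonneg.2 (hQ_nonneg h _ _)) _))

theorem dens_insert {Q P : Finset V} {j : V} (hj : j ∉ P) (z : V → S) :
    dens A μ Q (insert j P) z =
      dens A μ Q P z * ((∏ i ∈ Q, kk A μ (z i) (z j)) * (hQ A μ Q z)⁻¹) := by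
  unfold dens
  have h1 : ∏ i ∈ Q, ∏ j ∈ insert j P, kk A μ (z i) (z j) =
      (∏ i ∈ Q, kk A μ (z i) (z j)) * ∏ i ∈ Q, ∏ j ∈ P, kk A μ (z i) (z j) := by
    rw [← Finset.prod_mul_distrib]
    exact Finset.prod_congr rfl fun i _ => Finset.prod_insert hj
  rw [h1, Finset.card_insert_of_notMem hj, pow_succ]
  ring

theorem EM_push (h : Rev A μ c) {v : V} {U : Finset V} (hv : v ∉ U) {f : (V → S) → ℝ}
    (hf : DepOn U f) (r : (V → S) → ℝ) :
    EM side μ c (fun z => f z * r z) =
      EM side μ c (fun z => f z * ∑ x, mm side μ c v x * r (Function.update z v x)) :=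
  EM_int h hv hf fun _ _ _ => rfl

theorem IsBook.notMem {U : Finset V} {ρ : (V → S) → ℝ} {Q P : Finset V} (hb : IsBook side A μ c U
    ρ Q P) {j : V} (hj : j ∈ P) : j ∉ Q := fun hq => hb.sd j hq j hj rfl

/-- one page may be dropped -/
theorem IsBook.drop (h : Rev A μ c) {U : Finset V} {ρ : (V → S) → ℝ} {Q P : Finset V} {j : V}
    (hj : j ∉ P) (hb : IsBook side A μ c U ρ Q (insert j P)) : IsBook side A μ c U ρ Q P where
  ne := hb.ne
  sd := fun i hi k hk => hb.sd i hi k (mem_insert_of_mem hk)
  sub := (Finset.union_subset_union_right (Finset.subset_insert _ _)).trans hb.sub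
  law := by
    intro f hf
    have hsub : Q ∪ P ⊆ Q ∪ insert j P :=
      Finset.union_subset_union_right (Finset.subset_insert _ _)
    have hjn : j ∉ Q ∪ P := by
      rw [mem_union, not_or]
      exact ⟨hb.notMem (mem_insert_self _ _), hj⟩
    rw [hb.law f (hf.mono hsub)]
    have e1 : EM side μ c (fun z => dens A μ Q (insert j P) z * f z) =
        EM side μ c (fun z => (dens A μ Q P z * (hQ A μ Q z)⁻¹ * f z) *
          ∏ i ∈ Q, kk A μ (z i) (z j)) :=
      EM_congr fun z _ => by rw [dens_insert hj]; ring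
    have hdep : DepOn (Q ∪ P) (fun z => dens A μ Q P z * (hQ A μ Q z)⁻¹ * f z) := by
      refine DepOn.mul (DepOn.mul (depOn_dens Q P) ?_) hf
      intro z z' hz
      show (hQ A μ Q z)⁻¹ = (hQ A μ Q z')⁻¹
      rw [depOn_hQ Q z z' fun u hu => hz u (mem_union_left _ hu)]
    have e2 := EM_int (side := side) h hjn hdep (r := fun z => ∏ i ∈ Q, kk A μ (z i) (z j))
      (g := hQ A μ Q) (by
        intro z hz _
        obtain ⟨i, hi⟩ := hb.ne
        rw [← hQ_eq h hi (v := j) (side := side)]
        · refine Finset.sum_congr rfl fun x _ => ?_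
          congr 1
          refine Finset.prod_congr rfl fun k hk => ?_
          rw [Function.update_self, Function.update_of_ne]
          rintro rfl
          exact hjn (mem_union_left _ hk)
        · rw [side_of_M hz i]
          exact hb.sd i hi j (mem_insert_self _ _))
    refine e1.trans (e2.trans (EM_congr fun z _ => ?_))
    by_cases h0 : hQ A μ Q z = 0
    · unfold dens
      rw [h0]
      ring
    · field_simp

theorem IsBook.subset (h : Rev A μ c) {U : Finset V} {ρ : (V → S) → ℝ} {Q P P' : Finset V}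
    (hb : IsBook side A μ c U ρ Q P) (hP : P' ⊆ P) : IsBook side A μ c U ρ Q P' := by
  have key : ∀ D : Finset V, Disjoint P' D → IsBook side A μ c U ρ Q (P' ∪ D) →
      IsBook side A μ c U ρ Q P' := by
    intro D
    induction D using Finset.induction_on with
    | empty => intro _ hD; rwa [union_empty] at hD
    | insert d D hd ih =>
      intro hdis hD
      rw [Finset.disjoint_insert_right] at hdis
      rw [Finset.union_insert] at hD
      refine ih hdis.2 (IsBook.drop h ?_ hD)
      rw [mem_union, not_or]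
      exact ⟨hdis.1, hd⟩
  refine key (P \ P') Finset.disjoint_sdiff ?_
  rwa [Finset.union_sdiff_of_subset hP]

theorem dens_flip (h : Rev A μ c) (a : V) (P : Finset V) (z : V → S) :
    dens A μ P {a} z = dens A μ {a} P z := by
  unfold dens
  rw [hQ_singleton h]
  simp only [Finset.prod_singleton, Finset.card_singleton, pow_one, inv_one, one_pow, mul_one]
  by_cases h0 : hQ A μ P z = 0
  · have h1 : ∃ i ∈ P, kk A μ (z i) (z a) = 0 := by
      by_contra hcon
      push Not at hcon
      exact (hQ_pos h hcon).ne' h0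
    obtain ⟨i, hi, hi0⟩ := h1
    rw [h0, zero_mul, mul_zero]
    exact (Finset.prod_eq_zero hi (by rw [kk_symm h, hi0])).symm
  · rw [mul_inv_cancel₀ h0, mul_one]
    exact Finset.prod_congr rfl fun i _ => kk_symm h _ _

theorem IsBook.flip (h : Rev A μ c) {U : Finset V} {ρ : (V → S) → ℝ} {a : V} {P : Finset V}
    (hb : IsBook side A μ c U ρ {a} P) (hP : P.Nonempty) : IsBook side A μ c U ρ P {a} where
  ne := hP
  sd := fun i hi j hj => (hb.sd j hj i hi).symm
  sub := by rw [union_comm]; exact hb.sub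
  law := by
    intro f hf
    rw [union_comm] at hf
    rw [hb.law f hf]
    exact EM_congr fun z _ => by rw [dens_flip h]

theorem IsBook.flip' (h : Rev A μ c) {U : Finset V} {ρ : (V → S) → ℝ} {a : V} {P : Finset V}
    (hb : IsBook side A μ c U ρ P {a}) : IsBook side A μ c U ρ {a} P where
  ne := singleton_nonempty a
  sd := fun i hi j hj => (hb.sd j hj i hi).symm
  sub := by rw [union_comm]; exact hb.sub
  law := by
    intro f hf
    rw [union_comm] at hf
    rw [hb.law f hf]
    exact EM_congr fun z _ => by rw [dens_flip h]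

/-- all derived books are books -/
theorem isBook_of_cl (h : Rev A μ c) {U : Finset V} {ρ : (V → S) → ℝ}
    {F : Set (Finset V × Finset V)} (hF : ∀ p ∈ F, IsBook side A μ c U ρ p.1 p.2)
    {Q P : Finset V} (hc : Cl F Q P) : IsBook side A μ c U ρ Q P := by
  induction hc with
  | base h1 => exact hF _ h1
  | sub _ h2 ih => exact ih.subset h h2
  | flip _ h2 ih => exact ih.flip h h2
  | flip' _ ih => exact ih.flip' h

open Classical in
/-- the product over the edges inside `U` -/
noncomputable def edgeW (H : SimpleGraph V) (side : V → Bool) (A : Matrix S S ℝ) (μ : S → ℝ)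
    (U : Finset V) (z : V → S) : ℝ :=
  ∏ e ∈ (sideEdges H side).filter (fun e => e.1 ∈ U ∧ e.2 ∈ U), kk A μ (z e.1) (z e.2)

/-- a law for the graph inside `U`, with density `ρ`, and the remaining factor `L` -/
structure Law (H : SimpleGraph V) (side : V → Bool) (A : Matrix S S ℝ) (μ : S → ℝ)
    (c : S → Bool) (U : Finset V) (ρ L : (V → S) → ℝ) : Prop where
  dep : DepOn U ρ
  depL : DepOn U L
  nonneg : ∀ z, 0 ≤ ρ z
  mul : ∀ z, (∏ v, mm side μ c v (z v)) ≠ 0 → ρ z * L z = edgeW H side A μ U z
  pos : ∀ z, (∏ v, mm side μ c v (z v)) ≠ 0 → ρ z ≠ 0 → 0 < L z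
  one : EM side μ c ρ = 1
  log : 0 ≤ EM side μ c (fun z => ρ z * Real.log (L z))

theorem edgeW_insert (h : Rev A μ c) {H : SimpleGraph V}
    (hs : ∀ u v, H.Adj u v → side u ≠ side v) {U R : Finset V} {v : V} (hv : v ∉ U)
    (hRU : R ⊆ U) (hR : ∀ x ∈ U, H.Adj v x ↔ x ∈ R) (z : V → S) :
    edgeW H side A μ (insert v U) z =
      edgeW H side A μ U z * ∏ i ∈ R, kk A μ (z i) (z v) := by
  classical
  unfold edgeW
  have hRa : ∀ i ∈ R, H.Adj v i := fun i hi => (hR i (hRU hi)).2 hi
  have hvR : ∀ i ∈ R, i ≠ v := fun i hi hiv => hv (hiv ▸ hRU hi)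
  cases hsv : side v
  · -- `v` is the first end
    have e1 : (sideEdges H side).filter (fun e => e.1 ∈ insert v U ∧ e.2 ∈ insert v U) =
        (sideEdges H side).filter (fun e => e.1 ∈ U ∧ e.2 ∈ U) ∪ R.image fun i => (v, i) := by
      ext ⟨a, b⟩
      simp only [sideEdges, mem_filter, mem_univ, true_and, mem_insert, mem_union, mem_image,
        Prod.mk.injEq]
      constructor
      · rintro ⟨⟨hab, ha, hb⟩, h1, h2⟩
        rcases h1 with rfl | h1
        · right
          rcases h2 with rfl | h2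
          · exact absurd hab (H.loopless.irrefl _)
          · exact ⟨b, (hR b h2).1 hab, rfl, rfl⟩
        · rcases h2 with rfl | h2
          · rw [hsv] at hb
            exact absurd hb (by simp)
          · exact Or.inl ⟨⟨hab, ha, hb⟩, h1, h2⟩
      · rintro (⟨h1, h2, h3⟩ | ⟨i, hi, rfl, rfl⟩)
        · exact ⟨h1, Or.inr h2, Or.inr h3⟩
        · refine ⟨⟨hRa _ hi, hsv, ?_⟩, Or.inl rfl, Or.inr (hRU hi)⟩
          have := hs _ _ (hRa _ hi)
          rw [hsv] at this
          cases h5 : side i
          · exact absurd h5.symm this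
          · rfl
    have hdis : Disjoint ((sideEdges H side).filter (fun e => e.1 ∈ U ∧ e.2 ∈ U))
        (R.image fun i => (v, i)) := by
      rw [Finset.disjoint_left]
      rintro ⟨a, b⟩ h1 h2
      rw [mem_image] at h2
      obtain ⟨i, _, hi⟩ := h2
      rw [Prod.mk.injEq] at hi
      exact hv (hi.1 ▸ (mem_filter.1 h1).2.1)
    rw [e1, Finset.prod_union hdis, Finset.prod_image]
    · congr 1
      exact Finset.prod_congr rfl fun i _ => kk_symm h _ _
    · intro i _ j _ hij
      simpa using hij
  · have e1 : (sideEdges H side).filter (fun e => e.1 ∈ insert v U ∧ e.2 ∈ insert v U) =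
        (sideEdges H side).filter (fun e => e.1 ∈ U ∧ e.2 ∈ U) ∪ R.image fun i => (i, v) := by
      ext ⟨a, b⟩
      simp only [sideEdges, mem_filter, mem_univ, true_and, mem_insert, mem_union, mem_image,
        Prod.mk.injEq]
      constructor
      · rintro ⟨⟨hab, ha, hb⟩, h1, h2⟩
        rcases h2 with rfl | h2
        · right
          rcases h1 with rfl | h1
          · exact absurd hab (H.loopless.irrefl _)
          · exact ⟨a, (hR a h1).1 hab.symm, rfl, rfl⟩
        · rcases h1 with rfl | h1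
          · rw [hsv] at ha
            exact absurd ha (by simp)
          · exact Or.inl ⟨⟨hab, ha, hb⟩, h1, h2⟩
      · rintro (⟨h1, h2, h3⟩ | ⟨i, hi, rfl, rfl⟩)
        · exact ⟨h1, Or.inr h2, Or.inr h3⟩
        · refine ⟨⟨(hRa _ hi).symm, ?_, hsv⟩, Or.inr (hRU hi), Or.inl rfl⟩
          have := hs _ _ (hRa _ hi)
          rw [hsv] at this
          cases h5 : side i
          · rfl
          · exact absurd h5.symm this
    have hdis : Disjoint ((sideEdges H side).filter (fun e => e.1 ∈ U ∧ e.2 ∈ U))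
        (R.image fun i => (i, v)) := by
      rw [Finset.disjoint_left]
      rintro ⟨a, b⟩ h1 h2
      rw [mem_image] at h2
      obtain ⟨i, _, hi⟩ := h2
      rw [Prod.mk.injEq] at hi
      exact hv (hi.2 ▸ (mem_filter.1 h1).2.2)
    rw [e1, Finset.prod_union hdis, Finset.prod_image]
    intro i _ j _ hij
    simpa using hij

end Law

end Vale.Agent.P050.Books
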