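import Vale.Agent.P050.R3.H257.Base

/-!
# P050: plans over chordal graphs
-/

namespace Vale.Agent.P050.Books

open Finset

/-- A plan for the side `σ` of a bipartite graph `H`. `A` is a set of vertices of the side `σ`,
ordered by `r`, and `K` a graph in which the set `R a` of the earlier neighbours in `A` of each
`a ∈ A` is a clique. Each `z` of the other side has a nonempty clique `Q z` of neighbours in `A`
(`hQ`). If `a ∈ A` has a neighbour `z` with `a ∉ Q z`, there is an earlier vertex `i ∉ R a`,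
adjacent in `K` to all vertices of `R a`, with `i ∈ Q z ⊆ R a ∪ {i}` for all these `z` (`copy`).
For a vertex `w` of the side `σ` outside `A`, the vertices in the sets `Q z`, for the neighbours
`z` of `w`, form a clique `T w`, and `1 ≤ c w`, where at least `c w` vertices lie in all these
sets (`top`). -/
structure Plan {V : Type} (H : SimpleGraph V) (side : V → Bool) (σ : Bool) where
  A : Finset V
  K : SimpleGraph V
  r : V → ℕ
  R : V → Finset V
  Q : V → Finset V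
  T : V → Finset V
  c : V → ℕ
  sA : ∀ a ∈ A, side a = σ
  inj : ∀ u ∈ A, ∀ v ∈ A, r u = r v → u = v
  hR : ∀ a ∈ A, ∀ u, u ∈ R a ↔ u ∈ A ∧ K.Adj a u ∧ r u < r a
  cR : ∀ a ∈ A, ∀ u ∈ R a, ∀ v ∈ R a, u ≠ v → K.Adj u v
  hQ : ∀ z, side z ≠ σ → (Q z).Nonempty ∧ (∀ a ∈ Q z, a ∈ A ∧ H.Adj z a) ∧
    ∀ u ∈ Q z, ∀ v ∈ Q z, u ≠ v → K.Adj u v
  copy : ∀ a ∈ A, (∃ z, H.Adj a z ∧ a ∉ Q z) → ∃ i ∈ A, r i < r a ∧ i ∉ R a ∧
    (∀ u ∈ R a, K.Adj i u) ∧ ∀ z, H.Adj a z → a ∉ Q z → i ∈ Q z ∧ ∀ u ∈ Q z, u = i ∨ u ∈ R a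
  hT : ∀ w, side w = σ → w ∉ A → (∀ u, u ∈ T w ↔ ∃ z, H.Adj w z ∧ u ∈ Q z) ∧
    ∀ u ∈ T w, ∀ v ∈ T w, u ≠ v → K.Adj u v
  top : ∀ w, side w = σ → w ∉ A → 1 ≤ c w ∧ c w ≤ Nat.card {a : V // ∀ z, H.Adj w z → a ∈ Q z}

open scoped Classical in
/-- The gain of a plan: the number of pairs `(z, l)` with `m ≤ l ≤ |Q z|`, plus the number of
pairs `(a, z)` of adjacent vertices with `a ∈ A`, `a ∉ Q z` and `m ≤ |Q z|`, minus the number of
`a ∈ A` with `m - 1 ≤ |R a|`, and for each `w` outside `A` the sum of `min (c w) (|Q z| + 1 - m)`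
over the neighbours `z` of `w`, minus `min (c w) (|T w| + 1 - m)`, divided by `c w`. -/
noncomputable def Plan.gain {V : Type} [Fintype V] {H : SimpleGraph V} {side : V → Bool}
    {σ : Bool} (P : Plan H side σ) (m : ℕ) : ℝ :=
  (∑ z with side z ≠ σ, (((P.Q z).card + 1 - m : ℕ) : ℝ)) +
    ∑ a ∈ P.A, ((univ.filter fun z => H.Adj a z ∧ a ∉ P.Q z ∧ m ≤ (P.Q z).card).card : ℝ) -
    ((P.A.filter fun a => m ≤ (P.R a).card + 1).card : ℝ) +
    ∑ w with side w = σ ∧ w ∉ P.A,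
      ((∑ z with H.Adj w z, ((min (P.c w) ((P.Q z).card + 1 - m) : ℕ) : ℝ)) -
        ((min (P.c w) ((P.T w).card + 1 - m) : ℕ) : ℝ)) / P.c w

end Vale.Agent.P050.Books
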