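import Vale.Agent.P050.R4.H22.Law

/-!
# P050, books and caps: the Sidorenko inequality for graphs built vertex by vertex
-/

set_option linter.unusedSectionVars false

namespace Vale.Agent.P050.Books

open Finset Vale.Agent.P050.Lev Vale.Agent.P050.Ears

section Sound

variable {V S : Type} [Fintype V] [DecidableEq V] [Fintype S]
  {side : V → Bool} {A : Matrix S S ℝ} {μ : S → ℝ} {c : S → Bool}

theorem EM_nonneg (h : Rev A μ c) {f : (V → S) → ℝ} (hf : ∀ z, 0 ≤ f z) :
    0 ≤ EM side μ c f :=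
  Finset.sum_nonneg fun z _ => mul_nonneg (M_nonneg h z) (hf z)

/-- a nonnegative function with average zero vanishes at all states of positive weight -/
theorem eq_zero_of_EM (h : Rev A μ c) {f : (V → S) → ℝ} (hf : ∀ z, 0 ≤ f z)
    (h0 : EM side μ c f = 0) {z : V → S} (hz : (∏ v, mm side μ c v (z v)) ≠ 0) : f z = 0 := by
  unfold EM at h0
  have h1 := (Finset.sum_eq_zero_iff_of_nonneg fun z _ => mul_nonneg (M_nonneg h z) (hf z)).1 h0 z
    (mem_univ z)
  exact (mul_eq_zero.1 h1).resolve_left hz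

/-- Jensen's inequality in the form that is used here -/
theorem log_nonneg_of (h : Rev A μ c) {ρ φ : (V → S) → ℝ} (hρ : ∀ z, 0 ≤ ρ z)
    (hone : EM side μ c ρ = 1)
    (hφ : ∀ z, (∏ v, mm side μ c v (z v)) ≠ 0 → ρ z ≠ 0 → 0 < φ z)
    (hle : EM side μ c (fun z => ρ z * φ z) ≤ 1) :
    EM side μ c (fun z => ρ z * Real.log (φ z)) ≤ 0 := by
  have h1 : EM side μ c (fun z => ρ z * Real.log (φ z)) ≤
      EM side μ c (fun z => ρ z * φ z - ρ z) := by
    refine EM_mono h fun z hz => ?_
    by_cases h0 : ρ z = 0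
    · rw [h0, zero_mul, zero_mul, sub_zero]
    · have h2 := Real.log_le_sub_one_of_pos (hφ z hz h0)
      have h3 := mul_le_mul_of_nonneg_left h2 (hρ z)
      linarith
  rw [EM_sub, hone] at h1
  linarith

/-- the states of a book with positive density have common neighbours -/
theorem IsBook.kk_ne (h : Rev A μ c) {U : Finset V} {ρ : (V → S) → ℝ} {Q P : Finset V}
    (hρ : ∀ z, 0 ≤ ρ z) (hb : IsBook side A μ c U ρ Q P) {z : V → S}
    (hz : (∏ v, mm side μ c v (z v)) ≠ 0) (h0 : ρ z ≠ 0) : dens A μ Q P z ≠ 0 := by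
  classical
  intro hd
  let f : (V → S) → ℝ := fun z => if dens A μ Q P z = 0 then 1 else 0
  have hf : DepOn (Q ∪ P) f := by
    intro z z' hzz
    show (if dens A μ Q P z = 0 then (1 : ℝ) else 0) = if dens A μ Q P z' = 0 then 1 else 0
    rw [depOn_dens Q P z z' hzz]
  have h1 := hb.law f hf
  have h2 : EM side μ c (fun z => dens A μ Q P z * f z) = 0 := by
    unfold EM
    refine Finset.sum_eq_zero fun z _ => ?_
    show (∏ v, mm side μ c v (z v)) *
      (dens A μ Q P z * (if dens A μ Q P z = 0 then (1 : ℝ) else 0)) = 0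
    by_cases h3 : dens A μ Q P z = 0
    · rw [h3, zero_mul, mul_zero]
    · rw [if_neg h3, mul_zero, mul_zero]
  rw [h2] at h1
  have h4 := eq_zero_of_EM (side := side) h (f := fun z => ρ z * f z) (fun z =>
    mul_nonneg (hρ z) (by
      show (0 : ℝ) ≤ if dens A μ Q P z = 0 then 1 else 0
      split_ifs <;> norm_num)) h1 hz
  have h5 : ρ z * f z = ρ z := by
    show ρ z * (if dens A μ Q P z = 0 then (1 : ℝ) else 0) = ρ z
    rw [if_pos hd, mul_one]
  exact h0 (h5.symm.trans h4)

theorem IsBook.hQ_pos (h : Rev A μ c) {U : Finset V} {ρ : (V → S) → ℝ} {Q P : Finset V}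
    (hρ : ∀ z, 0 ≤ ρ z) (hb : IsBook side A μ c U ρ Q P) {z : V → S}
    (hz : (∏ v, mm side μ c v (z v)) ≠ 0) (h0 : ρ z ≠ 0) : 0 < hQ A μ Q z := by
  have h1 := hb.kk_ne h hρ hz h0
  refine lt_of_le_of_ne (hQ_nonneg h Q z) (Ne.symm fun h2 => h1 ?_)
  unfold dens
  rw [h2, zero_mul, mul_zero]

theorem IsBook.page_pos (h : Rev A μ c) {U : Finset V} {ρ : (V → S) → ℝ} {Q P : Finset V}
    (hρ : ∀ z, 0 ≤ ρ z) (hb : IsBook side A μ c U ρ Q P) {z : V → S}
    (hz : (∏ v, mm side μ c v (z v)) ≠ 0) (h0 : ρ z ≠ 0) : 0 < hQ A μ P z := by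
  have h1 := hb.kk_ne h hρ hz h0
  obtain ⟨i, hi⟩ := hb.ne
  refine Books.hQ_pos h (x := z i) fun j hj h2 => h1 ?_
  unfold dens
  have : ∏ i ∈ Q, ∏ j ∈ P, kk A μ (z i) (z j) = 0 :=
    Finset.prod_eq_zero hi (Finset.prod_eq_zero hj (by rw [kk_symm h, h2]))
  rw [this, zero_mul]

/-- the spine of a book has nonnegative mean logarithm of the codegree -/
theorem IsBook.spine_log (h : Rev A μ c) {U : Finset V} {ρ : (V → S) → ℝ} {Q P : Finset V}
    (hρ : ∀ z, 0 ≤ ρ z) (hone : EM side μ c ρ = 1) (hb : IsBook side A μ c U ρ Q P) :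
    0 ≤ EM side μ c (fun z => ρ z * Real.log (hQ A μ Q z)) := by
  have hb0 := hb.subset h (Finset.empty_subset P)
  have h1 : EM side μ c (fun z => ρ z * (hQ A μ Q z)⁻¹) ≤ 1 := by
    rw [hb0.law (fun z => (hQ A μ Q z)⁻¹) (by
      intro z z' hz
      show (hQ A μ Q z)⁻¹ = (hQ A μ Q z')⁻¹
      rw [depOn_hQ Q z z' fun u hu => hz u (mem_union_left _ hu)])]
    rw [← EM_one (side := side) (V := V) h]
    refine EM_mono h fun z _ => ?_
    unfold dens
    simp only [Finset.prod_empty, Finset.prod_const_one, Finset.card_empty, pow_zero, mul_one,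
      one_mul]
    exact mul_inv_le_one
  have h2 := log_nonneg_of (side := side) h hρ hone (φ := fun z => (hQ A μ Q z)⁻¹)
    (fun z hz h0 => inv_pos.2 (hb.hQ_pos h hρ hz h0)) h1
  have h3 : EM side μ c (fun z => ρ z * Real.log ((hQ A μ Q z)⁻¹)) =
      - EM side μ c (fun z => ρ z * Real.log (hQ A μ Q z)) := by
    rw [← neg_one_mul, ← EM_smul]
    refine EM_congr fun z _ => ?_
    rw [Real.log_inv]
    ring
  rw [h3] at h2
  linarith

/-- integration of the spine of a complete bipartite weight -/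
theorem EM_spine (h : Rev A μ c) (Q P : Finset V) (hP : P.Nonempty)
    (hsd : ∀ i ∈ Q, ∀ j ∈ P, side i ≠ side j) (g : (V → S) → ℝ) (hg : DepOn P g) :
    EM side μ c (fun z => (∏ i ∈ Q, ∏ j ∈ P, kk A μ (z i) (z j)) * g z) =
      EM side μ c (fun z => hQ A μ P z ^ Q.card * g z) := by
  induction Q using Finset.induction_on generalizing g with
  | empty => simp
  | insert a Q ha ih =>
    have haP : a ∉ P := fun hp => hsd a (mem_insert_self _ _) a hp rfl
    have hsd' : ∀ i ∈ Q, ∀ j ∈ P, side i ≠ side j := fun i hi => hsd i (mem_insert_of_mem hi)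
    have e1 : EM side μ c (fun z => (∏ i ∈ insert a Q, ∏ j ∈ P, kk A μ (z i) (z j)) * g z) =
        EM side μ c (fun z => ((∏ i ∈ Q, ∏ j ∈ P, kk A μ (z i) (z j)) * g z) *
          ∏ j ∈ P, kk A μ (z a) (z j)) :=
      EM_congr fun z _ => by rw [Finset.prod_insert ha]; ring
    have hdep : DepOn (Q ∪ P) (fun z : V → S => (∏ i ∈ Q, ∏ j ∈ P, kk A μ (z i) (z j)) * g z) :=
      DepOn.mul (depOn_prod2 Q P) (hg.mono (Finset.subset_union_right))
    have hnot : a ∉ Q ∪ P := by
      rw [mem_union, not_or]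
      exact ⟨ha, haP⟩
    have e2 := EM_int (side := side) h hnot hdep (r := fun z => ∏ j ∈ P, kk A μ (z a) (z j))
      (g := hQ A μ P) (by
        intro z hz _
        obtain ⟨j, hj⟩ := hP
        rw [← hQ_eq h hj (v := a) (side := side)]
        · refine Finset.sum_congr rfl fun x _ => ?_
          congr 1
          refine Finset.prod_congr rfl fun k hk => ?_
          rw [Function.update_self, Function.update_of_ne, kk_symm h]
          rintro rfl
          exact haP hk
        · rw [side_of_M hz j]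
          exact (hsd a (mem_insert_self _ _) j hj).symm)
    rw [e1, e2]
    have e3 : EM side μ c (fun z => ((∏ i ∈ Q, ∏ j ∈ P, kk A μ (z i) (z j)) * g z) *
        hQ A μ P z) = EM side μ c (fun z => (∏ i ∈ Q, ∏ j ∈ P, kk A μ (z i) (z j)) *
          (g z * hQ A μ P z)) := EM_congr fun z _ => by ring
    rw [e3, ih hsd' (fun z => g z * hQ A μ P z) (DepOn.mul hg (depOn_hQ P))]
    refine EM_congr fun z _ => ?_
    rw [Finset.card_insert_of_notMem ha, pow_succ]
    ring

/-- CLONE AVERAGING: the pages of a book have nonnegative mean logarithm of the codegree -/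
theorem IsBook.page_log (h : Rev A μ c) {U : Finset V} {ρ : (V → S) → ℝ} {Q P : Finset V}
    (hρ : ∀ z, 0 ≤ ρ z) (hone : EM side μ c ρ = 1) (hb : IsBook side A μ c U ρ Q P)
    (hP : P.Nonempty) :
    0 ≤ EM side μ c (fun z => ρ z * Real.log (hQ A μ P z)) := by
  obtain ⟨k, hk⟩ : ∃ k, P.card = k + 1 := ⟨P.card - 1, by
    have := Finset.card_pos.2 hP
    omega⟩
  have hs := hb.spine_log h hρ hone
  let φ : (V → S) → ℝ := fun z => hQ A μ Q z ^ k * (hQ A μ P z ^ Q.card)⁻¹
  have hφdep : DepOn (Q ∪ P) φ := by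
    intro z z' hz
    show hQ A μ Q z ^ k * (hQ A μ P z ^ Q.card)⁻¹ = hQ A μ Q z' ^ k * (hQ A μ P z' ^ Q.card)⁻¹
    rw [depOn_hQ Q z z' fun u hu => hz u (mem_union_left _ hu),
      depOn_hQ P z z' fun u hu => hz u (mem_union_right _ hu)]
  have hpos : ∀ z, (∏ v, mm side μ c v (z v)) ≠ 0 → ρ z ≠ 0 → 0 < φ z := fun z hz h0 =>
    mul_pos (pow_pos (hb.hQ_pos h hρ hz h0) _) (inv_pos.2 (pow_pos (hb.page_pos h hρ hz h0) _))
  have h1 : EM side μ c (fun z => ρ z * φ z) ≤ 1 := by
    rw [hb.law φ hφdep]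
    have e1 : EM side μ c (fun z => dens A μ Q P z * φ z) ≤
        EM side μ c (fun z => (∏ i ∈ Q, ∏ j ∈ P, kk A μ (z i) (z j)) *
          (hQ A μ P z ^ Q.card)⁻¹) := by
      refine EM_mono h fun z _ => ?_
      have hn : 0 ≤ (∏ i ∈ Q, ∏ j ∈ P, kk A μ (z i) (z j)) * (hQ A μ P z ^ Q.card)⁻¹ :=
        mul_nonneg (Finset.prod_nonneg fun _ _ => Finset.prod_nonneg fun _ _ => kk_nonneg h _ _)
          (inv_nonneg.2 (pow_nonneg (hQ_nonneg h _ _) _))
      have he : dens A μ Q P z * φ z = ((∏ i ∈ Q, ∏ j ∈ P, kk A μ (z i) (z j)) *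
          (hQ A μ P z ^ Q.card)⁻¹) * (hQ A μ Q z * (hQ A μ Q z)⁻¹) ^ (k + 1) := by
        show ((∏ i ∈ Q, ∏ j ∈ P, kk A μ (z i) (z j)) *
          (hQ A μ Q z * (hQ A μ Q z)⁻¹ ^ P.card)) * (hQ A μ Q z ^ k * (hQ A μ P z ^ Q.card)⁻¹) = _
        rw [hk]
        ring
      rw [he]
      refine mul_le_of_le_one_right hn (pow_le_one₀ ?_ ?_)
      · exact mul_nonneg (hQ_nonneg h _ _) (inv_nonneg.2 (hQ_nonneg h _ _))
      · exact mul_inv_le_one
    refine e1.trans ?_
    have e2 := EM_spine h Q P hP hb.sd (fun z => (hQ A μ P z ^ Q.card)⁻¹) (by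
      intro z z' hz
      show (hQ A μ P z ^ Q.card)⁻¹ = (hQ A μ P z' ^ Q.card)⁻¹
      rw [depOn_hQ P z z' hz])
    rw [e2, ← EM_one (side := side) (V := V) h]
    exact EM_mono h fun z _ => mul_inv_le_one
  have h2 := log_nonneg_of (side := side) h hρ hone hpos h1
  have h3 : EM side μ c (fun z => ρ z * Real.log (φ z)) =
      k * EM side μ c (fun z => ρ z * Real.log (hQ A μ Q z)) -
        Q.card * EM side μ c (fun z => ρ z * Real.log (hQ A μ P z)) := by
    rw [← EM_smul, ← EM_smul, ← EM_sub]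
    refine EM_congr fun z hz => ?_
    by_cases h0 : ρ z = 0
    · rw [h0]
      ring
    · have p1 := hb.hQ_pos h hρ hz h0
      have p2 := hb.page_pos h hρ hz h0
      show ρ z * Real.log (hQ A μ Q z ^ k * (hQ A μ P z ^ Q.card)⁻¹) = _
      rw [Real.log_mul (pow_pos p1 _).ne' (inv_pos.2 (pow_pos p2 _)).ne', Real.log_inv,
        Real.log_pow, Real.log_pow]
      ring
  rw [h3] at h2
  have hq : (0 : ℝ) < Q.card := by
    exact_mod_cast Finset.card_pos.2 hb.ne
  by_contra hcon
  push Not at hcon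
  have h4 : (Q.card : ℝ) * EM side μ c (fun z => ρ z * Real.log (hQ A μ P z)) < 0 :=
    mul_neg_of_pos_of_neg hq hcon
  have h5 : (0 : ℝ) ≤ k * EM side μ c (fun z => ρ z * Real.log (hQ A μ Q z)) :=
    mul_nonneg (Nat.cast_nonneg k) hs
  linarith

/-- the factor of a new vertex `v` joined to `R` -/
noncomputable def rr (A : Matrix S S ℝ) (μ : S → ℝ) (R : Finset V) (v : V) (z : V → S) : ℝ :=
  (∏ i ∈ R, kk A μ (z i) (z v)) * (hQ A μ R z)⁻¹

theorem rr_nonneg (h : Rev A μ c) (R : Finset V) (v : V) (z : V → S) : 0 ≤ rr A μ R v z :=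
  mul_nonneg (Finset.prod_nonneg fun _ _ => kk_nonneg h _ _) (inv_nonneg.2 (hQ_nonneg h _ _))

theorem depOn_rr {U R : Finset V} {v : V} (hR : R ⊆ U) :
    DepOn (insert v U) (rr A μ R v : (V → S) → ℝ) := by
  intro z z' hz
  unfold rr
  rw [depOn_hQ R z z' fun u hu => hz u (mem_insert_of_mem (hR hu)), hz v (mem_insert_self _ _)]
  congr 1
  exact Finset.prod_congr rfl fun i hi => by rw [hz i (mem_insert_of_mem (hR hi))]

/-- the factor of a new vertex has mean one -/
theorem rr_sum (h : Rev A μ c) {U R : Finset V} {v i : V} (hv : v ∉ U) (hR : R ⊆ U) (hi : i ∈ R)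
    (hsd : side i ≠ side v) {z : V → S} (hz : (∏ v, mm side μ c v (z v)) ≠ 0)
    (hp : 0 < hQ A μ R z) :
    ∑ x, mm side μ c v x * rr A μ R v (Function.update z v x) = 1 := by
  have hvR : v ∉ R := fun hvr => hv (hR hvr)
  have e1 : ∀ x, mm side μ c v x * rr A μ R v (Function.update z v x) =
      (mm side μ c v x * ∏ i ∈ R, kk A μ (z i) x) * (hQ A μ R z)⁻¹ := by
    intro x
    unfold rr
    rw [(depOn_hQ R).update hvR, Function.update_self]
    have : ∏ i ∈ R, kk A μ (Function.update z v x i) x = ∏ i ∈ R, kk A μ (z i) x := by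
      refine Finset.prod_congr rfl fun j hj => ?_
      rw [Function.update_of_ne]
      rintro rfl
      exact hvR hj
    rw [this]
    ring
  simp only [e1]
  rw [← Finset.sum_mul, hQ_eq h hi (by rw [side_of_M hz i]; exact hsd), mul_inv_cancel₀ hp.ne']

/-- averages of functions of the old coordinates do not change -/
theorem persist (h : Rev A μ c) {U R : Finset V} {v i : V} {ρ : (V → S) → ℝ}
    (hdep : DepOn U ρ) (hv : v ∉ U) (hR : R ⊆ U) (hi : i ∈ R) (hsd : side i ≠ side v)
    (hp : ∀ z : V → S, (∏ v, mm side μ c v (z v)) ≠ 0 → ρ z ≠ 0 → 0 < hQ A μ R z)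
    {f : (V → S) → ℝ} (hf : DepOn U f) :
    EM side μ c (fun z => ρ z * rr A μ R v z * f z) = EM side μ c (fun z => ρ z * f z) := by
  have e1 : EM side μ c (fun z => ρ z * rr A μ R v z * f z) =
      EM side μ c (fun z => (ρ z * f z) * rr A μ R v z) := EM_congr fun z _ => by ring
  rw [e1, EM_int h hv (hdep.mul hf) (r := rr A μ R v) (g := fun _ => 1)]
  · exact EM_congr fun z _ => by ring
  · intro z hz h0
    exact rr_sum h hv hR hi hsd hz (hp z hz (left_ne_zero_of_mul h0))

/-- old books are kept -/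
theorem IsBook.keep (h : Rev A μ c) {U R : Finset V} {v i : V} {ρ : (V → S) → ℝ}
    (hdep : DepOn U ρ) (hv : v ∉ U) (hR : R ⊆ U) (hi : i ∈ R) (hsd : side i ≠ side v)
    (hp : ∀ z : V → S, (∏ v, mm side μ c v (z v)) ≠ 0 → ρ z ≠ 0 → 0 < hQ A μ R z)
    {Q P : Finset V} (hb : IsBook side A μ c U ρ Q P) :
    IsBook side A μ c (insert v U) (fun z => ρ z * rr A μ R v z) Q P where
  ne := hb.ne
  sd := hb.sd
  sub := hb.sub.trans (Finset.subset_insert _ _)
  law := fun f hf => by
    rw [persist h hdep hv hR hi hsd hp (hf.mono hb.sub)]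
    exact hb.law f hf

/-- the new vertex is a new page of each book with spine `R` -/
theorem IsBook.page (h : Rev A μ c) {U R : Finset V} {v : V} {ρ : (V → S) → ℝ}
    (hdep : DepOn U ρ) (hv : v ∉ U) (hsd : ∀ i ∈ R, side i ≠ side v) {P : Finset V}
    (hb : IsBook side A μ c U ρ R P) :
    IsBook side A μ c (insert v U) (fun z => ρ z * rr A μ R v z) R (insert v P) where
  ne := hb.ne
  sd := by
    intro i hi j hj
    rw [mem_insert] at hj
    rcases hj with rfl | hj
    · exact hsd i hi
    · exact hb.sd i hi j hj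
  sub := by
    rw [Finset.union_insert]
    exact Finset.insert_subset_insert _ hb.sub
  law := by
    intro f hf
    rw [Finset.union_insert] at hf
    have hvRP : v ∉ R ∪ P := fun hm => hv (hb.sub hm)
    have hRs : R ⊆ R ∪ P := Finset.subset_union_left
    let r : (V → S) → ℝ := fun z => rr A μ R v z * f z
    have hr : DepOn (insert v (R ∪ P)) r := (depOn_rr hRs).mul hf
    let g : (V → S) → ℝ := fun z => ∑ x, mm side μ c v x * r (Function.update z v x)
    have hg : DepOn (R ∪ P) g := by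
      intro z z' hz
      refine Finset.sum_congr rfl fun x _ => ?_
      congr 1
      refine hr _ _ fun u hu => ?_
      by_cases huv : u = v
      · rw [huv, Function.update_self, Function.update_self]
      · rw [Function.update_of_ne huv, Function.update_of_ne huv]
        exact hz u ((mem_insert.1 hu).resolve_left huv)
    have e1 : EM side μ c (fun z => ρ z * rr A μ R v z * f z) =
        EM side μ c (fun z => ρ z * r z) := EM_congr fun z _ => mul_assoc _ _ _
    have e2 : EM side μ c (fun z => ρ z * r z) = EM side μ c (fun z => ρ z * g z) :=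
      EM_push h hv hdep r
    have e3 : EM side μ c (fun z => dens A μ R P z * r z) =
        EM side μ c (fun z => dens A μ R P z * g z) := EM_push h hvRP (depOn_dens R P) r
    rw [e1, e2, hb.law g hg, ← e3]
    refine EM_congr fun z _ => ?_
    have hvP : v ∉ P := fun hm => hvRP (mem_union_right _ hm)
    rw [dens_insert hvP]
    show dens A μ R P z * (rr A μ R v z * f z) = _
    unfold rr
    ring

/-- a new vertex -/
theorem Law.attach (h : Rev A μ c) {H : SimpleGraph V}
    (hs : ∀ u v, H.Adj u v → side u ≠ side v) {U R : Finset V} {v : V} {ρ L : (V → S) → ℝ}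
    (hl : Law H side A μ c U ρ L) (hv : v ∉ U) (hRn : R.Nonempty) (hRU : R ⊆ U)
    (hR : ∀ x ∈ U, H.Adj v x ↔ x ∈ R)
    (hp : ∀ z : V → S, (∏ v, mm side μ c v (z v)) ≠ 0 → ρ z ≠ 0 → 0 < hQ A μ R z)
    (hlog : 0 ≤ EM side μ c (fun z => ρ z * Real.log (hQ A μ R z))) :
    Law H side A μ c (insert v U) (fun z => ρ z * rr A μ R v z)
      (fun z => L z * hQ A μ R z) := by
  obtain ⟨i, hi⟩ := hRn
  have hsd : side i ≠ side v := (hs v i ((hR i (hRU hi)).2 hi)).symm
  refine ⟨?_, ?_, ?_, ?_, ?_, ?_, ?_⟩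
  · exact (hl.dep.mono (Finset.subset_insert _ _)).mul (depOn_rr hRU)
  · exact (hl.depL.mono (Finset.subset_insert _ _)).mul
      ((depOn_hQ R).mono (hRU.trans (Finset.subset_insert _ _)))
  · exact fun z => mul_nonneg (hl.nonneg z) (rr_nonneg h R v z)
  · intro z hz
    rw [edgeW_insert h hs hv hRU hR, ← hl.mul z hz]
    by_cases h0 : ρ z = 0
    · rw [h0]
      ring
    · have hq := (hp z hz h0).ne'
      unfold rr
      field_simp
  · intro z hz h0
    exact mul_pos (hl.pos z hz (left_ne_zero_of_mul h0)) (hp z hz (left_ne_zero_of_mul h0))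
  · have := persist h hl.dep hv hRU hi hsd hp (f := fun _ => (1 : ℝ)) (fun _ _ _ => rfl)
    simp only [mul_one] at this
    rw [this]
    exact hl.one
  · have hlogs : DepOn U (fun z : V → S => Real.log (L z) + Real.log (hQ A μ R z)) := by
      intro z z' hz
      show Real.log (L z) + Real.log (hQ A μ R z) = Real.log (L z') + Real.log (hQ A μ R z')
      rw [hl.depL z z' hz, depOn_hQ R z z' fun u hu => hz u (hRU hu)]
    have e1 : EM side μ c (fun z => ρ z * rr A μ R v z * Real.log (L z * hQ A μ R z)) =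
        EM side μ c (fun z => ρ z * rr A μ R v z *
          (Real.log (L z) + Real.log (hQ A μ R z))) := by
      refine EM_congr fun z hz => ?_
      by_cases h0 : ρ z = 0
      · rw [h0]
        ring
      · rw [Real.log_mul (hl.pos z hz h0).ne' (hp z hz h0).ne']
    rw [e1, persist h hl.dep hv hRU hi hsd hp hlogs]
    have e2 : EM side μ c (fun z => ρ z * (Real.log (L z) + Real.log (hQ A μ R z))) =
        EM side μ c (fun z => ρ z * Real.log (L z)) +
          EM side μ c (fun z => ρ z * Real.log (hQ A μ R z)) := by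
      rw [← EM_add]
      exact EM_congr fun z _ => mul_add _ _ _
    rw [e2]
    exact add_nonneg hl.log hlog

/-- the law of a single vertex -/
theorem law_point (h : Rev A μ c) (H : SimpleGraph V) (side : V → Bool) (v : V) :
    Law H side A μ c {v} (fun _ => 1) (fun _ => 1) where
  dep := fun _ _ _ => rfl
  depL := fun _ _ _ => rfl
  nonneg := fun _ => zero_le_one
  mul := by
    classical
    intro z _
    unfold edgeW
    rw [Finset.prod_eq_one, one_mul]
    rintro ⟨a, b⟩ he
    simp only [sideEdges, mem_filter, mem_univ, true_and, mem_singleton] at he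
    obtain ⟨⟨hab, _, _⟩, rfl, rfl⟩ := he
    exact absurd hab (H.loopless.irrefl _)
  pos := fun _ _ _ => zero_lt_one
  one := EM_one h
  log := by
    simp only [Real.log_one, mul_zero]
    exact EM_nonneg h fun _ => le_rfl

theorem isBook_point (h : Rev A μ c) (v : V) :
    IsBook side A μ c {v} (fun _ => (1 : ℝ)) {v} ∅ where
  ne := singleton_nonempty v
  sd := by simp
  sub := by simp
  law := by
    intro f _
    refine EM_congr fun z _ => ?_
    unfold dens
    rw [hQ_singleton h]
    simp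

/-- SOUNDNESS: for a graph built vertex by vertex there is a law in which all recorded books are
books. -/
theorem sound (h : Rev A μ c) {H : SimpleGraph V} (hs : ∀ u v, H.Adj u v → side u ≠ side v)
    {U : Finset V} {F : Set (Finset V × Finset V)} (hb : Built H U F) :
    ∃ ρ L : (V → S) → ℝ, Law H side A μ c U ρ L ∧
      ∀ p ∈ F, IsBook side A μ c U ρ p.1 p.2 := by
  induction hb with
  | point v =>
    refine ⟨_, _, law_point h H side v, ?_⟩
    intro p hp
    rw [Set.mem_singleton_iff] at hp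
    subst hp
    exact isBook_point h v
  | @clone U F v R hb hv hRn hRU hR hcl ih =>
    obtain ⟨ρ, L, hl, hF⟩ := ih
    have hbk := isBook_of_cl h hF hcl
    have hp : ∀ z : V → S, (∏ v, mm side μ c v (z v)) ≠ 0 → ρ z ≠ 0 → 0 < hQ A μ R z :=
      fun z hz h0 => hbk.hQ_pos h hl.nonneg hz h0
    have hsd : ∀ i ∈ R, side i ≠ side v := fun i hi => (hs v i ((hR i (hRU hi)).2 hi)).symm
    refine ⟨_, _, hl.attach h hs hv hRn hRU hR hp (hbk.spine_log h hl.nonneg hl.one), ?_⟩
    obtain ⟨i, hi⟩ := hRn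
    rintro ⟨Q, P⟩ (hQP | ⟨h1, P', h2, h3⟩)
    · exact (hF _ hQP).keep h hl.dep hv hRU hi (hsd i hi) hp
    · simp only at h1 h3
      subst h1 h3
      exact (isBook_of_cl h hF h2).page h hl.dep hv hsd
  | @cap U F v Q R hb hv hRn hRU hR hcl ih =>
    obtain ⟨ρ, L, hl, hF⟩ := ih
    have hbk := isBook_of_cl h hF hcl
    have hp : ∀ z : V → S, (∏ v, mm side μ c v (z v)) ≠ 0 → ρ z ≠ 0 → 0 < hQ A μ R z :=
      fun z hz h0 => hbk.page_pos h hl.nonneg hz h0
    refine ⟨_, _, hl.attach h hs hv hRn hRU hR hp (hbk.page_log h hl.nonneg hl.one hRn), ?_⟩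
    obtain ⟨i, hi⟩ := hRn
    intro p hpF
    exact (hF p hpF).keep h hl.dep hv hRU hi ((hs v i ((hR i (hRU hi)).2 hi)).symm) hp
  | @pendant U F u v hb hv hu hR ih =>
    obtain ⟨ρ, L, hl, hF⟩ := ih
    have hp : ∀ z : V → S, (∏ v, mm side μ c v (z v)) ≠ 0 → ρ z ≠ 0 → 0 < hQ A μ {u} z :=
      fun z _ _ => by rw [hQ_singleton h]; exact zero_lt_one
    have hR' : ∀ x ∈ U, H.Adj v x ↔ x ∈ ({u} : Finset V) := by
      intro x hx
      rw [mem_singleton]
      exact hR x hx
    have hRU : ({u} : Finset V) ⊆ U := by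
      rw [Finset.singleton_subset_iff]
      exact hu
    refine ⟨_, _, hl.attach h hs hv (singleton_nonempty u) hRU hR' hp ?_, ?_⟩
    · refine le_of_eq ?_
      simp only [hQ_singleton h, Real.log_one, mul_zero]
      unfold EM
      simp
    · intro p hpF
      exact (hF p hpF).keep h hl.dep hv hRU (mem_singleton_self u)
        ((hs v u ((hR u hu).2 rfl)).symm) hp

/-- The Sidorenko inequality for reversible chains, for graphs built vertex by vertex. -/
theorem sum_wt_ge (h : Rev A μ c) {H : SimpleGraph V} (hs : ∀ u v, H.Adj u v → side u ≠ side v)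
    {F : Set (Finset V × Finset V)} (hb : Built H univ F) :
    1 ≤ ∑ z : V → S, wt H side A μ c z := by
  classical
  obtain ⟨ρ, L, hl, -⟩ := sound (side := side) h hs hb
  have e1 : ∑ z : V → S, wt H side A μ c z = EM side μ c (fun z => ρ z * L z) := by
    unfold EM
    refine Finset.sum_congr rfl fun z _ => ?_
    show wt H side A μ c z = (∏ v, mm side μ c v (z v)) * (ρ z * L z)
    by_cases hz : ∀ v, c (z v) = side v
    · rw [wt_pos hz]
      have hM : (∏ v, mm side μ c v (z v)) = ∏ v, μ (z v) := by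
        refine Finset.prod_congr rfl fun v _ => ?_
        unfold mm
        exact if_pos (hz v)
      have hM0 : (∏ v, mm side μ c v (z v)) ≠ 0 := by
        rw [hM]
        exact (Finset.prod_pos fun v _ => h.pos _).ne'
      rw [hl.mul z hM0, hM]
      congr 1
      unfold edgeW
      have : (sideEdges H side).filter (fun e => e.1 ∈ (univ : Finset V) ∧
          e.2 ∈ (univ : Finset V)) = sideEdges H side := by
        refine Finset.filter_true_of_mem fun e _ => ⟨mem_univ _, mem_univ _⟩
      rw [this]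
      rfl
    · rw [wt_neg hz]
      have : (∏ v, mm side μ c v (z v)) = 0 := by
        push Not at hz
        obtain ⟨v, hv⟩ := hz
        refine Finset.prod_eq_zero (mem_univ v) ?_
        unfold mm
        exact if_neg hv
      rw [this, zero_mul]
  rw [e1]
  have h1 : EM side μ c (fun z => ρ z * Real.log (L z)) ≤
      EM side μ c (fun z => ρ z * L z - ρ z) := by
    refine EM_mono h fun z hz => ?_
    by_cases h0 : ρ z = 0
    · rw [h0, zero_mul, zero_mul, sub_zero]
    · have h2 := Real.log_le_sub_one_of_pos (hl.pos z hz h0)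
      have h3 := mul_le_mul_of_nonneg_left h2 (hl.nonneg z)
      linarith
  rw [EM_sub, hl.one] at h1
  have := hl.log
  linarith

end Sound

end Vale.Agent.P050.Books
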