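import Vale.Agent.P050.R4.H22.CovKeep

/-!
# P050: the Sidorenko inequality for graphs built with books, rough books and covers
-/

set_option linter.unusedSectionVars false

namespace Vale.Agent.P050.Books

open Finset Vale.Agent.P050.Lev Vale.Agent.P050.Ears

section SoundC

variable {V S : Type} [Fintype V] [DecidableEq V] [Fintype S]
  {side : V → Bool} {A : Matrix S S ℝ} {μ : S → ℝ} {c : S → Bool}

/-- the meaning of the records -/
def Rec (side : V → Bool) (A : Matrix S S ℝ) (μ : S → ℝ) (c : S → Bool) (U : Finset V)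
    (ρ : (V → S) → ℝ) (κ : Kind) (Q P : Finset V) (l : ℕ) : Prop :=
  match κ with
  | Kind.book => IsW side A μ c U ρ Q P l ∧ Symm side μ c ρ Q (Q ∪ P) ∧
      (l = 1 → IsBook side A μ c U ρ Q P)
  | Kind.rough => IsW side A μ c U ρ Q P l
  | Kind.cover => IsCov side A μ c U ρ Q P l

/-- a book with number one -/
theorem rec_of_isBook (h : Rev A μ c) {U : Finset V} {ρ : (V → S) → ℝ} (hρ : ∀ z, 0 ≤ ρ z)
    (hone : EM side μ c ρ = 1) {Q P : Finset V} (hb : IsBook side A μ c U ρ Q P) :
    Rec side A μ c U ρ Kind.book Q P 1 :=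
  ⟨hb.weak h hρ hone, hb.symm, fun _ => hb⟩

/-- all derived records are true -/
theorem rec_of_der (h : Rev A μ c) {U : Finset V} {ρ : (V → S) → ℝ}
    (hρ : ∀ z, 0 ≤ ρ z) (hone : EM side μ c ρ = 1)
    {F : Set (Kind × Finset V × Finset V × ℕ)}
    (hF : ∀ p ∈ F, Rec side A μ c U ρ p.1 p.2.1 p.2.2.1 p.2.2.2) {κ : Kind} {Q P : Finset V}
    {l : ℕ} (hd : Der F κ Q P l) : Rec side A μ c U ρ κ Q P l := by
  induction hd with
  | base h1 => exact hF _ h1
  | sub _ h2 ih =>
    exact ⟨ih.1.subset h h2, ih.2.1.mono (Finset.Subset.refl _)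
      (Finset.union_subset_union_right h2), fun hl => (ih.2.2 hl).subset h h2⟩
  | subr _ h2 ih => exact IsW.subset h ih h2
  | forget _ ih => exact ih.1
  | flip _ h2 ih => exact rec_of_isBook h hρ hone ((ih.2.2 rfl).flip h h2)
  | flip' _ ih => exact rec_of_isBook h hρ hone ((ih.2.2 rfl).flip' h)
  | exact _ ih => exact rec_of_isBook h hρ hone (IsW.exact h hρ hone ih)
  | turn _ h1 h2 h3 ih =>
    refine ⟨IsW.turn h hρ hone ih h1 h2, ?_, fun hl => ?_⟩
    · rw [union_empty]
      exact (IsW.symm_pages ih).mono (Finset.Subset.refl _) Finset.subset_union_right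
    · omega
  | rturn _ h1 h2 ih => exact IsW.turn h hρ hone ih h1 h2
  | cover _ h1 h2 ih => exact ih.1.cover h hρ ih.2.1 h1 h2
  | shrink _ h1 h2 ih => exact IsCov.shrink h hρ hone h1 h2 ih
  | rough _ ih => exact IsCov.rough h hρ hone ih

/-- SOUNDNESS of the class `BuiltC` -/
theorem soundC (h : Rev A μ c) {H : SimpleGraph V} (hs : ∀ u v, H.Adj u v → side u ≠ side v)
    {U : Finset V} {F : Set (Kind × Finset V × Finset V × ℕ)} (hb : BuiltC H U F) :
    ∃ ρ L : (V → S) → ℝ, Law H side A μ c U ρ L ∧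
      ∀ p ∈ F, Rec side A μ c U ρ p.1 p.2.1 p.2.2.1 p.2.2.2 := by
  induction hb with
  | point v =>
    refine ⟨_, _, law_point h H side v, ?_⟩
    intro p hp
    rw [Set.mem_singleton_iff] at hp
    subst hp
    exact rec_of_isBook h (fun _ => zero_le_one) (EM_one h) (isBook_point (side := side) h v)
  | @page U F v R l hb hv hRn hRU hR hcl ih =>
    obtain ⟨ρ, L, hl, hF⟩ := ih
    have hbk : IsW side A μ c U ρ R ∅ l := rec_of_der h hl.nonneg hl.one hF hcl
    have hp := hbk.pos
    have hsd : ∀ i ∈ R, side i ≠ side v := fun i hi => (hs v i ((hR i (hRU hi)).2 hi)).symm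
    refine ⟨_, _, hl.attach h hs hv hRn hRU hR hp hbk.log, ?_⟩
    obtain ⟨i, hi⟩ := id hRn
    rintro ⟨κ, Q, P, m⟩ (hQP | ⟨κ', P', m', h2, h3⟩)
    · have h5 := hF _ hQP
      cases κ with
      | book =>
        exact ⟨h5.1.keep h hl.dep hv hRU hi (hsd i hi) hp,
          h5.2.1.keep h hl.dep hv hRU hi (hsd i hi) hp Finset.subset_union_left h5.1.sub,
          fun hm => (h5.2.2 hm).keep h hl.dep hv hRU hi (hsd i hi) hp⟩
      | rough => exact IsW.keep h hl.dep hv hRU hi (hsd i hi) hp h5
      | cover => exact IsCov.keep h hl.dep hv hRU hi (hsd i hi) hp h5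
    · rw [Prod.mk.injEq, Prod.mk.injEq, Prod.mk.injEq] at h3
      obtain ⟨rfl, rfl, rfl, rfl⟩ := h3
      have h5 := rec_of_der h hl.nonneg hl.one hF h2
      cases κ with
      | book =>
        exact ⟨h5.1.page h hl.dep hv hRU hi hsd hp, h5.2.1.page h hl.dep hv h5.1.sub,
          fun hm => (h5.2.2 hm).page h hl.dep hv hsd⟩
      | rough => exact IsW.page h hl.dep hv hRU hi hsd hp h5
      | cover => exact IsCov.page h hs hl hv hRn hRU hR hi hsd hp hbk.log h5
  | @pendant U F u v hb hv hu hR ih =>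
    obtain ⟨ρ, L, hl, hF⟩ := ih
    have hp : ∀ z : V → S, (∏ v, mm side μ c v (z v)) ≠ 0 → ρ z ≠ 0 → 0 < hQ A μ {u} z :=
      fun z _ _ => by rw [hQ_singleton h]; exact zero_lt_one
    have hR' : ∀ x ∈ U, H.Adj v x ↔ x ∈ ({u} : Finset V) := by
      intro x hx
      rw [mem_singleton]
      exact hR x hx
    have hRU : ({u} : Finset V) ⊆ U := by
      rw [Finset.singleton_subset_iff]
      exact hu
    have hsd : side u ≠ side v := (hs v u ((hR u hu).2 rfl)).symm
    refine ⟨_, _, hl.attach h hs hv (singleton_nonempty u) hRU hR' hp ?_, ?_⟩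
    · refine le_of_eq ?_
      simp only [hQ_singleton h, Real.log_one, mul_zero]
      unfold EM
      simp
    · rintro ⟨κ, Q, P, m⟩ hpF
      have h5 := hF _ hpF
      cases κ with
      | book =>
        exact ⟨h5.1.keep h hl.dep hv hRU (mem_singleton_self u) hsd hp,
          h5.2.1.keep h hl.dep hv hRU (mem_singleton_self u) hsd hp Finset.subset_union_left
            h5.1.sub, fun hm => (h5.2.2 hm).keep h hl.dep hv hRU (mem_singleton_self u) hsd hp⟩
      | rough => exact IsW.keep h hl.dep hv hRU (mem_singleton_self u) hsd hp h5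
      | cover => exact IsCov.keep h hl.dep hv hRU (mem_singleton_self u) hsd hp h5

/-- The Sidorenko inequality for reversible chains, for the class `BuiltC`. -/
theorem sum_wt_geC (h : Rev A μ c) {H : SimpleGraph V} (hs : ∀ u v, H.Adj u v → side u ≠ side v)
    {F : Set (Kind × Finset V × Finset V × ℕ)} (hb : BuiltC H univ F) :
    1 ≤ ∑ z : V → S, wt H side A μ c z := by
  obtain ⟨ρ, L, hl, -⟩ := soundC (side := side) h hs hb
  exact hl.sum_wt_ge h

end SoundC

end Vale.Agent.P050.Books
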