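import Vale.Agent.P050.R4.H22.SoundC

/-!
# P050: vertices over a set of twins of a hub with a common vertex and a largest trace
-/

set_option linter.unusedSectionVars false

namespace Vale.Agent.P050.Books

open Finset Vale.Agent.P050.Lev Vale.Agent.P050.Ears

section Top

variable {V S : Type} [Fintype V] [DecidableEq V] [Fintype S]
  {side : V → Bool} {A : Matrix S S ℝ} {μ : S → ℝ} {c : S → Bool}

theorem ee_symm (h : Rev A μ c) (ρ : (V → S) → ℝ) (i j : V) :
    ee side A μ c ρ i j = ee side A μ c ρ j i := by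
  unfold ee
  exact EM_congr fun z _ => by rw [kk_symm h]

/-- the relative entropy of one more vertex is at least that of a random common neighbour -/
theorem DD_kl (h : Rev A μ c) {ρ : (V → S) → ℝ} (hρ : ∀ z, 0 ≤ ρ z)
    (hone : EM side μ c ρ = 1) {W R : Finset V} {v : V} (hv : v ∉ W) (hR : R ⊆ W)
    (hRn : R.Nonempty) (hsd : ∀ i ∈ R, side i ≠ side v)
    (kp : ∀ z, (∏ v, mm side μ c v (z v)) ≠ 0 → ρ z ≠ 0 → ∀ i ∈ R, 0 < kk A μ (z i) (z v)) :
    DD side μ c ρ W + (∑ i ∈ R, ee side A μ c ρ i v - MM side A μ c ρ R) ≤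
      DD side μ c ρ (insert v W) := by
  obtain ⟨i₀, hi₀⟩ := hRn
  have hpos : ∀ z, (∏ v, mm side μ c v (z v)) ≠ 0 → ρ z ≠ 0 → 0 < hQ A μ R z :=
    fun z hz h0 => Books.hQ_pos h (x := z v) fun j hj => (kp z hz h0 j hj).ne'
  let m := marg side μ c ρ (insert v W)
  let χ := marg side μ c ρ W
  let φ : (V → S) → ℝ := fun z => χ z * (rr A μ R v z * (m z)⁻¹)
  have hm0 : ∀ z, 0 ≤ m z := marg_nonneg h hρ _
  have hχ0 : ∀ z, 0 ≤ χ z := marg_nonneg h hρ _
  have hφdep : DepOn (insert v W) φ := by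
    intro z z' hz
    have e1 : χ z = χ z' := depOn_marg ρ W z z' fun u hu => hz u (mem_insert_of_mem hu)
    have e2 : m z = m z' := depOn_marg ρ (insert v W) z z' hz
    have e3 : rr A μ R v z = rr A μ R v z' := depOn_rr hR z z' hz
    show χ z * (rr A μ R v z * (m z)⁻¹) = χ z' * (rr A μ R v z' * (m z')⁻¹)
    rw [e1, e2, e3]
  have hrpos : ∀ z, (∏ v, mm side μ c v (z v)) ≠ 0 → ρ z ≠ 0 → 0 < rr A μ R v z :=
    fun z hz h0 => mul_pos (Finset.prod_pos fun i hi => kp z hz h0 i hi)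
      (inv_pos.2 (hpos z hz h0))
  have hφpos : ∀ z, (∏ v, mm side μ c v (z v)) ≠ 0 → ρ z ≠ 0 → 0 < φ z := fun z hz h0 =>
    mul_pos (marg_pos h hρ W hz h0) (mul_pos (hrpos z hz h0) (inv_pos.2 (marg_pos h hρ _ hz h0)))
  have h1 : EM side μ c (fun z => ρ z * φ z) ≤ 1 := by
    rw [marg_law h ρ hφdep]
    have e1 : EM side μ c (fun z => marg side μ c ρ (insert v W) z * φ z) ≤
        EM side μ c (fun z => χ z * rr A μ R v z) := by
      refine EM_mono h fun z _ => ?_
      have he : marg side μ c ρ (insert v W) z * φ z = (χ z * rr A μ R v z) *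
          (m z * (m z)⁻¹) := by
        show m z * (χ z * (rr A μ R v z * (m z)⁻¹)) = _
        ring
      rw [he]
      exact mul_le_of_le_one_right (mul_nonneg (hχ0 z) (rr_nonneg h R v z)) mul_inv_le_one
    refine e1.trans ?_
    rw [EM_push h hv (depOn_marg ρ W) (rr A μ R v), ← EM_marg (side := side) h hone W]
    refine EM_mono h fun z hz => mul_le_of_le_one_right (hχ0 z) ?_
    by_cases h0 : hQ A μ R z = 0
    · have : ∀ x, mm side μ c v x * rr A μ R v (Function.update z v x) = 0 := by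
        intro x
        unfold rr
        rw [(depOn_hQ R).update (fun hvr => hv (hR hvr)), h0]
        simp
      rw [Finset.sum_eq_zero fun x _ => this x]
      exact zero_le_one
    · exact (rr_sum h hv hR hi₀ (hsd i₀ hi₀) hz
        (lt_of_le_of_ne (hQ_nonneg h R z) (Ne.symm h0))).le
  have h2 := log_nonneg_of (side := side) h hρ hone hφpos h1
  have h3 : EM side μ c (fun z => ρ z * Real.log (φ z)) =
      DD side μ c ρ W + ((∑ i ∈ R, ee side A μ c ρ i v - MM side A μ c ρ R) -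
        DD side μ c ρ (insert v W)) := by
    unfold DD MM ee
    rw [← EM_sum R fun i z => ρ z * Real.log (kk A μ (z i) (z v)), ← EM_sub, ← EM_sub, ← EM_add]
    refine EM_congr fun z hz => ?_
    by_cases h0 : ρ z = 0
    · rw [h0]
      simp
    · have p1 : 0 < χ z := marg_pos h hρ W hz h0
      have p2 := hpos z hz h0
      have p3 : 0 < m z := marg_pos h hρ _ hz h0
      have p4 : 0 < ∏ i ∈ R, kk A μ (z i) (z v) := Finset.prod_pos fun i hi => kp z hz h0 i hi
      have q5 : Real.log (rr A μ R v z) =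
          ∑ i ∈ R, Real.log (kk A μ (z i) (z v)) - Real.log (hQ A μ R z) := by
        unfold rr
        rw [Real.log_mul p4.ne' (inv_pos.2 p2).ne', Real.log_inv,
          Real.log_prod (fun i hi => (kp z hz h0 i hi).ne')]
        ring
      show ρ z * Real.log (χ z * (rr A μ R v z * (m z)⁻¹)) = _
      rw [Real.log_mul p1.ne' (mul_pos (hrpos z hz h0) (inv_pos.2 p3)).ne',
        Real.log_mul (hrpos z hz h0).ne' (inv_pos.2 p3).ne', Real.log_inv, q5, ← Finset.mul_sum]
      ring
  rw [h3] at h2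
  linarith

theorem MM_keep (h : Rev A μ c) {U R : Finset V} {v i : V} {ρ : (V → S) → ℝ}
    (hdep : DepOn U ρ) (hv : v ∉ U) (hR : R ⊆ U) (hi : i ∈ R) (hsd : side i ≠ side v)
    (hp : ∀ z : V → S, (∏ v, mm side μ c v (z v)) ≠ 0 → ρ z ≠ 0 → 0 < hQ A μ R z)
    {Q : Finset V} (hQ' : Q ⊆ U) :
    MM side A μ c (fun z => ρ z * rr A μ R v z) Q = MM side A μ c ρ Q :=
  persist h hdep hv hR hi hsd hp (f := fun z => Real.log (hQ A μ Q z)) (by
    intro z z' hz
    show Real.log (hQ A μ Q z) = Real.log (hQ A μ Q z')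
    rw [depOn_hQ Q z z' fun u hu => hz u (hQ' hu)])

/-- The states of `A₀` are independent neighbours of a hub, and the vertices `u` of `Z` are
independent random common neighbours of the sets `Q u` in `A₀`. -/
structure IsFan (side : V → Bool) (A : Matrix S S ℝ) (μ : S → ℝ) (c : S → Bool) (U : Finset V)
    (ρ : (V → S) → ℝ) (A₀ Z : Finset V) (Q : V → Finset V) : Prop where
  sub : A₀ ∪ Z ⊆ U
  qs : ∀ u ∈ Z, Q u ⊆ A₀
  qn : ∀ u ∈ Z, (Q u).Nonempty
  sd : ∀ u ∈ Z, ∀ i ∈ A₀, side i ≠ side u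
  hub : ∃ b ∈ Z, Q b = A₀
  kp : ∀ z, (∏ v, mm side μ c v (z v)) ≠ 0 → ρ z ≠ 0 → ∀ u ∈ Z, ∀ i ∈ Q u,
    0 < kk A μ (z i) (z u)
  star : ∀ P ⊆ A₀, P.Nonempty → MM side A μ c ρ P = DD side μ c ρ P
  fan : ∀ T ⊆ A₀, ∀ R ⊆ Z, (∀ u ∈ R, Q u ⊆ T) → DD side μ c ρ (T ∪ R) =
    DD side μ c ρ T + ∑ u ∈ R, (∑ i ∈ Q u, ee side A μ c ρ i u - MM side A μ c ρ (Q u))

theorem IsFan.pos (h : Rev A μ c) {U : Finset V} {ρ : (V → S) → ℝ} {A₀ Z : Finset V}
    {Q : V → Finset V} (hf : IsFan side A μ c U ρ A₀ Z Q) {P : Finset V} (hP : P ⊆ A₀) :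
    ∀ z, (∏ v, mm side μ c v (z v)) ≠ 0 → ρ z ≠ 0 → 0 < hQ A μ P z := by
  obtain ⟨b, hb, hbQ⟩ := hf.hub
  intro z hz h0
  exact Books.hQ_pos h (x := z b) fun j hj => (hf.kp z hz h0 b hb j (by rw [hbQ]; exact hP hj)).ne'

/-- a fan is kept when a new vertex is attached -/
theorem IsFan.keep (h : Rev A μ c) {U R : Finset V} {v i : V} {ρ : (V → S) → ℝ}
    (hdep : DepOn U ρ) (hv : v ∉ U) (hR : R ⊆ U) (hi : i ∈ R) (hsd : side i ≠ side v)
    (hp : ∀ z : V → S, (∏ v, mm side μ c v (z v)) ≠ 0 → ρ z ≠ 0 → 0 < hQ A μ R z)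
    {A₀ Z : Finset V} {Q : V → Finset V} (hf : IsFan side A μ c U ρ A₀ Z Q) :
    IsFan side A μ c (insert v U) (fun z => ρ z * rr A μ R v z) A₀ Z Q where
  sub := hf.sub.trans (Finset.subset_insert _ _)
  qs := hf.qs
  qn := hf.qn
  sd := hf.sd
  hub := hf.hub
  kp := fun z hz h0 => hf.kp z hz (left_ne_zero_of_mul h0)
  star := by
    intro P hP hPn
    have hPU : P ⊆ U := hP.trans (Finset.subset_union_left.trans hf.sub)
    rw [MM_keep h hdep hv hR hi hsd hp hPU, DD_keep h hdep hv hR hi hsd hp hPU]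
    exact hf.star P hP hPn
  fan := by
    intro T hT R' hR' hQT
    have hTU : T ⊆ U := hT.trans (Finset.subset_union_left.trans hf.sub)
    have hRU : R' ⊆ U := hR'.trans (Finset.subset_union_right.trans hf.sub)
    rw [DD_keep h hdep hv hR hi hsd hp (Finset.union_subset hTU hRU),
      DD_keep h hdep hv hR hi hsd hp hTU, hf.fan T hT R' hR' hQT]
    congr 1
    refine Finset.sum_congr rfl fun u hu => ?_
    have hQU : Q u ⊆ U := (hQT u hu).trans hTU
    rw [MM_keep h hdep hv hR hi hsd hp hQU]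
    congr 1
    exact Finset.sum_congr rfl fun j hj =>
      (ee_keep h hdep hv hR hi hsd hp (hQU hj) (hRU hu)).symm

/-- a new twin of the hub -/
theorem IsFan.add (h : Rev A μ c) {H : SimpleGraph V} {U R : Finset V} {v i : V}
    {ρ L : (V → S) → ℝ}
    (hl : Law H side A μ c U ρ L) (hv : v ∉ U) (hRn : R.Nonempty)
    (hi : i ∈ R) {A₀ Z : Finset V} {Q : V → Finset V} (hRA : R ⊆ A₀) (hQv : Q v = R)
    (hsd : ∀ i ∈ A₀, side i ≠ side v)
    (hp : ∀ z : V → S, (∏ v, mm side μ c v (z v)) ≠ 0 → ρ z ≠ 0 → 0 < hQ A μ R z)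
    (hf : IsFan side A μ c U ρ A₀ Z Q) :
    IsFan side A μ c (insert v U) (fun z => ρ z * rr A μ R v z) A₀ (insert v Z) Q := by
  have hA₀U : A₀ ⊆ U := Finset.subset_union_left.trans hf.sub
  have hRU : R ⊆ U := hRA.trans hA₀U
  have hk := hf.keep h hl.dep hv hRU hi (hsd i (hRA hi)) hp
  have hvZ : v ∉ Z := fun hm => hv (hf.sub (mem_union_right _ hm))
  refine ⟨?_, ?_, ?_, ?_, ?_, ?_, hk.star, ?_⟩
  · rw [Finset.union_insert]
    exact Finset.insert_subset_insert _ hf.sub
  · intro u hu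
    rcases mem_insert.1 hu with rfl | hu
    · rw [hQv]
      exact hRA
    · exact hf.qs u hu
  · intro u hu
    rcases mem_insert.1 hu with rfl | hu
    · rw [hQv]
      exact hRn
    · exact hf.qn u hu
  · intro u hu
    rcases mem_insert.1 hu with rfl | hu
    · exact hsd
    · exact hf.sd u hu
  · obtain ⟨b, hb, hbQ⟩ := hf.hub
    exact ⟨b, mem_insert_of_mem hb, hbQ⟩
  · intro z hz h0 u hu j hj
    rcases mem_insert.1 hu with rfl | hu
    · rw [hQv] at hj
      refine lt_of_le_of_ne (kk_nonneg h _ _) fun hk => right_ne_zero_of_mul h0 ?_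
      unfold rr
      rw [Finset.prod_eq_zero hj hk.symm, zero_mul]
    · exact hf.kp z hz (left_ne_zero_of_mul h0) u hu j hj
  · intro T hT R' hR' hQT
    by_cases hvR : v ∈ R'
    · obtain ⟨R'', hvR'', rfl⟩ : ∃ R'' : Finset V, v ∉ R'' ∧ insert v R'' = R' :=
        ⟨R'.erase v, Finset.notMem_erase _ _, Finset.insert_erase hvR⟩
      have hR''Z : R'' ⊆ Z := by
        intro x hx
        rcases mem_insert.1 (hR' (mem_insert_of_mem hx)) with rfl | hx'
        · exact absurd hx hvR''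
        · exact hx'
      have hRT : R ⊆ T := by
        rw [← hQv]
        exact hQT v (mem_insert_self _ _)
      have hTR : T ∪ R'' ⊆ U := Finset.union_subset (hT.trans hA₀U)
        (hR''Z.trans (Finset.subset_union_right.trans hf.sub))
      have h1 := DD_new h hl.nonneg hl.dep hv hRU hi (hsd i (hRA hi)) hp hTR
      have e1 : R ∪ insert v (T ∪ R'') = T ∪ insert v R'' := by
        rw [Finset.union_insert, Finset.union_insert, ← Finset.union_assoc,
          Finset.union_eq_right.2 hRT]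
      have e2 : R ∪ (T ∪ R'') = T ∪ R'' := by
        rw [← Finset.union_assoc, Finset.union_eq_right.2 hRT]
      rw [e1, e2] at h1
      rw [h1, Finset.sum_insert hvR'', hQv,
        MM_keep h hl.dep hv hRU hi (hsd i (hRA hi)) hp hRU]
      have h2 := hk.fan T hT R'' hR''Z fun u hu => hQT u (mem_insert_of_mem hu)
      rw [DD_keep h hl.dep hv hRU hi (hsd i (hRA hi)) hp hTR] at h2
      rw [h2]
      ring
    · have hR'Z : R' ⊆ Z := by
        intro x hx
        rcases mem_insert.1 (hR' hx) with rfl | hx'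
        · exact absurd hx hvR
        · exact hx'
      exact hk.fan T hT R' hR'Z hQT

/-- THE TOP LEMMA -/
theorem IsFan.top (h : Rev A μ c) {U : Finset V} {ρ : (V → S) → ℝ} (hρ : ∀ z, 0 ≤ ρ z)
    (hone : EM side μ c ρ = 1) {A₀ Z : Finset V} {Q : V → Finset V}
    (hf : IsFan side A μ c U ρ A₀ Z Q) {R : Finset V} {r a : V} (hR : R ⊆ Z) (hr : r ∈ R)
    (ha : ∀ u ∈ R, a ∈ Q u) (ht : ∀ u ∈ R, Q u ⊆ Q r) : 0 ≤ MM side A μ c ρ R := by
  have haQ : a ∈ Q r := ha r hr
  have hTA : Q r ⊆ A₀ := hf.qs r (hR hr)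
  have haA : a ∈ A₀ := hTA haQ
  let P := (Q r).erase a
  have hPA : P ⊆ A₀ := (Finset.erase_subset _ _).trans hTA
  have haZ : a ∉ Z := fun hm => hf.sd a hm a haA rfl
  have haR : a ∉ R := fun hm => haZ (hR hm)
  -- (i)
  have haPR : a ∉ P ∪ R := by
    rw [mem_union, not_or]
    exact ⟨Finset.notMem_erase _ _, haR⟩
  have h1 := DD_kl (side := side) h hρ hone haPR (R := R) Finset.subset_union_right ⟨r, hr⟩
    (fun u hu => (hf.sd u (hR hu) a haA).symm) (fun z hz h0 u hu => by
      rw [kk_symm h]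
      exact hf.kp z hz h0 u (hR hu) a (ha u hu))
  have e1 : insert a (P ∪ R) = Q r ∪ R := by
    rw [← Finset.insert_union, Finset.insert_erase haQ]
  rw [e1] at h1
  -- (ii)
  have h2 : ∀ R' : Finset V, R' ⊆ R → DD side μ c ρ P + ∑ u ∈ R',
      (∑ i ∈ (Q u).erase a, ee side A μ c ρ i u - DD side μ c ρ ((Q u).erase a)) ≤
        DD side μ c ρ (P ∪ R') := by
    intro R'
    induction R' using Finset.induction_on with
    | empty =>
      intro _
      rw [Finset.sum_empty, add_zero, Finset.union_empty]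
    | insert u R' hu ih =>
      intro hsub
      have huR : u ∈ R := hsub (mem_insert_self _ _)
      have h3 := ih ((Finset.subset_insert _ _).trans hsub)
      have hQP : (Q u).erase a ⊆ P := Finset.erase_subset_erase _ (ht u huR)
      have huA : u ∉ A₀ := fun hm => hf.sd u (hR huR) u hm rfl
      have huW : u ∉ P ∪ R' := by
        rw [mem_union, not_or]
        exact ⟨fun hm => huA (hPA hm), hu⟩
      rw [Finset.sum_insert hu, Finset.union_insert]
      rcases Finset.eq_empty_or_nonempty ((Q u).erase a) with h4 | h4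
      · rw [h4, Finset.sum_empty, DD_empty (side := side) h hone]
        have h5 := DD_mono (side := side) h hρ hone (Finset.subset_insert u (P ∪ R'))
        linarith
      · have h5 := DD_kl (side := side) h hρ hone huW (R := (Q u).erase a)
          (hQP.trans Finset.subset_union_left) h4
          (fun i hi => hf.sd u (hR huR) i (hPA (hQP hi)))
          (fun z hz h0 i hi => hf.kp z hz h0 u (hR huR) i (Finset.mem_of_mem_erase hi))
        rw [hf.star _ (hQP.trans hPA) h4] at h5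
        linarith
  have h3 := h2 R (Finset.Subset.refl _)
  -- (iii)
  have h4 := hf.fan (Q r) hTA R hR ht
  have h5 : ∀ u ∈ R, ∑ i ∈ Q u, ee side A μ c ρ i u - MM side A μ c ρ (Q u) =
      (ee side A μ c ρ u a + ∑ i ∈ (Q u).erase a, ee side A μ c ρ i u) -
        DD side μ c ρ (Q u) := by
    intro u hu
    rw [hf.star (Q u) (hf.qs u (hR hu)) (hf.qn u (hR hu)),
      ← Finset.add_sum_erase _ _ (ha u hu), ee_symm h ρ a u]
  rw [Finset.sum_congr rfl h5, Finset.sum_sub_distrib, Finset.sum_add_distrib] at h4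
  rw [Finset.sum_sub_distrib] at h3
  -- monotonicity
  have h6 : DD side μ c ρ (Q r) - DD side μ c ρ P ≤
      ∑ u ∈ R, DD side μ c ρ (Q u) - ∑ u ∈ R, DD side μ c ρ ((Q u).erase a) := by
    rw [← Finset.sum_sub_distrib, ← Finset.add_sum_erase _ _ hr]
    have h7 : 0 ≤ ∑ u ∈ R.erase r, (DD side μ c ρ (Q u) - DD side μ c ρ ((Q u).erase a)) :=
      Finset.sum_nonneg fun u _ => by
        have := DD_mono (side := side) h hρ hone (Finset.erase_subset a (Q u))
        linarith
    show DD side μ c ρ (Q r) - DD side μ c ρ ((Q r).erase a) ≤ _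
    linarith
  linarith

end Top

end Vale.Agent.P050.Books
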