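import Vale.Agent.P050.R4.H22.Sound

/-!
# P050, weak books: the pages of a book form again a spine
-/

set_option linter.unusedSectionVars false

namespace Vale.Agent.P050.Books

open Finset Vale.Agent.P050.Lev Vale.Agent.P050.Ears

/-- The books (spine, pages, number) derived from the books in `F`: pages may be dropped; among
the books with number one, a book whose spine is one vertex and a book with one page are
exchanged; the set `P` of pages of a book with spine `Q` and number `l ≤ |P|` is the spine of a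
book without pages, with number `|Q|`. -/
inductive ClW {V : Type} [DecidableEq V] (F : Set (Finset V × Finset V × ℕ)) :
    Finset V → Finset V → ℕ → Prop
  | base {Q S : Finset V} {l : ℕ} : (Q, S, l) ∈ F → ClW F Q S l
  | sub {Q S S' : Finset V} {l : ℕ} : ClW F Q S l → S' ⊆ S → ClW F Q S' l
  | flip {a : V} {S : Finset V} : ClW F {a} S 1 → S.Nonempty → ClW F S {a} 1
  | flip' {a : V} {S : Finset V} : ClW F S {a} 1 → ClW F {a} S 1
  | turn {Q P : Finset V} {l : ℕ} : ClW F Q P l → P.Nonempty → l ≤ P.card → 2 ≤ Q.card →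
      ClW F P ∅ Q.card

/-- `BuiltW H U F`: the subgraph of `H` induced on the set `U` of vertices can be built vertex by
vertex, and `F` is the set of recorded books (spine, pages, number). One starts with one vertex
`v` and the book with spine `v`, no page, and number one. A new vertex whose neighbours among the
old vertices form the spine `R` of a derived book may be added; it becomes a new page of every
derived book with spine `R`. A new vertex with one neighbour may be added. -/
inductive BuiltW {V : Type} [DecidableEq V] (H : SimpleGraph V) :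
    Finset V → Set (Finset V × Finset V × ℕ) → Prop
  | point (v : V) : BuiltW H {v} {({v}, ∅, 1)}
  | page {U : Finset V} {F : Set (Finset V × Finset V × ℕ)} {v : V} {R : Finset V} {l : ℕ} :
      BuiltW H U F → v ∉ U → R.Nonempty → R ⊆ U → (∀ x ∈ U, H.Adj v x ↔ x ∈ R) →
      ClW F R ∅ l → BuiltW H (insert v U) (F ∪ {p | ∃ S m, ClW F R S m ∧ p = (R, insert v S, m)})
  | pendant {U : Finset V} {F : Set (Finset V × Finset V × ℕ)} {u v : V} :
      BuiltW H U F → v ∉ U → u ∈ U → (∀ x ∈ U, H.Adj v x ↔ x = u) → BuiltW H (insert v U) F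

section Weak

variable {V S : Type} [Fintype V] [DecidableEq V] [Fintype S]
  {side : V → Bool} {A : Matrix S S ℝ} {μ : S → ℝ} {c : S → Bool}

/-- the coordinates in `Q` from `a`, the others from `z` -/
def mix (Q : Finset V) (a z : V → S) : V → S := fun v => if v ∈ Q then a v else z v

theorem EM_mix (Q : Finset V) (F : (V → S) → ℝ) (h : Rev A μ c) :
    EM side μ c F = EM side μ c (fun z => EM side μ c (fun a => F (mix Q a z))) := by
  classical
  unfold EM
  let e : (V → S) × (V → S) → (V → S) × (V → S) := fun p => (mix Q p.2 p.1, mix Q p.1 p.2)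
  have he : Function.Involutive e := by
    rintro ⟨z, a⟩
    simp only [e, Prod.mk.injEq]
    constructor
    · funext v
      unfold mix
      by_cases hv : v ∈ Q <;> simp [hv]
    · funext v
      unfold mix
      by_cases hv : v ∈ Q <;> simp [hv]
  let E : Equiv.Perm ((V → S) × (V → S)) := he.toPerm
  have h1 : ∑ z : V → S, (∏ w, mm side μ c w (z w)) *
      ∑ a : V → S, (∏ w, mm side μ c w (a w)) * F (mix Q a z) =
      ∑ p : (V → S) × (V → S), (∏ w, mm side μ c w (p.1 w)) *
        ((∏ w, mm side μ c w (p.2 w)) * F (mix Q p.2 p.1)) := by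
    rw [Fintype.sum_prod_type]
    exact Finset.sum_congr rfl fun z _ => Finset.mul_sum _ _ _
  rw [h1, ← Equiv.sum_comp E]
  have h2 : ∀ p : (V → S) × (V → S), (∏ w, mm side μ c w ((E p).1 w)) *
      ((∏ w, mm side μ c w ((E p).2 w)) * F (mix Q (E p).2 (E p).1)) =
      (∏ w, mm side μ c w (p.1 w)) * F p.1 * ∏ w, mm side μ c w (p.2 w) := by
    rintro ⟨z, a⟩
    have e1 : E (z, a) = (mix Q a z, mix Q z a) := rfl
    have e2 : mix Q (mix Q z a) (mix Q a z) = z := by
      funext v
      unfold mix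
      by_cases hv : v ∈ Q <;> simp [hv]
    have e3 : (∏ w, mm side μ c w (mix Q a z w)) * ∏ w, mm side μ c w (mix Q z a w) =
        (∏ w, mm side μ c w (z w)) * ∏ w, mm side μ c w (a w) := by
      rw [← Finset.prod_mul_distrib, ← Finset.prod_mul_distrib]
      refine Finset.prod_congr rfl fun w _ => ?_
      unfold mix
      by_cases hv : w ∈ Q
      · rw [if_pos hv, if_pos hv, mul_comm]
      · rw [if_neg hv, if_neg hv]
    rw [e1]
    simp only [e2]
    rw [← mul_assoc, e3]
    ring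
  simp only [h2]
  rw [Fintype.sum_prod_type]
  refine Finset.sum_congr rfl fun z _ => ?_
  show (∏ v, mm side μ c v (z v)) * F z =
    ∑ a : V → S, (∏ w, mm side μ c w (z w)) * F z * ∏ w, mm side μ c w (a w)
  rw [← Finset.mul_sum]
  have := EM_one (side := side) (V := V) h
  unfold EM at this
  simp only [mul_one] at this
  rw [this, mul_one]

/-- the density of a book whose spine has the density `ψ` -/
noncomputable def wdens (A : Matrix S S ℝ) (μ : S → ℝ) (ψ : (V → S) → ℝ) (Q P : Finset V)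
    (z : V → S) : ℝ :=
  (∏ i ∈ Q, ∏ j ∈ P, kk A μ (z i) (z j)) * (ψ z * (hQ A μ Q z)⁻¹ ^ P.card)

/-- In the law with density `ρ` the states of `Q` have some density `ψ` whose mean logarithm is
at most `l` times that of the codegree, and given them the states of `P` are independent common
neighbours. -/
structure IsW (side : V → Bool) (A : Matrix S S ℝ) (μ : S → ℝ) (c : S → Bool) (U : Finset V)
    (ρ : (V → S) → ℝ) (Q P : Finset V) (l : ℕ) : Prop where
  ne : Q.Nonempty
  sd : ∀ i ∈ Q, ∀ j ∈ P, side i ≠ side j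
  sub : Q ∪ P ⊆ U
  pos : ∀ z, (∏ v, mm side μ c v (z v)) ≠ 0 → ρ z ≠ 0 → 0 < hQ A μ Q z
  log : 0 ≤ EM side μ c (fun z => ρ z * Real.log (hQ A μ Q z))
  ex : ∃ ψ : (V → S) → ℝ, DepOn Q ψ ∧ (∀ z, 0 ≤ ψ z) ∧ (∀ z, hQ A μ Q z = 0 → ψ z = 0) ∧
    (∀ f : (V → S) → ℝ, DepOn (Q ∪ P) f → EM side μ c (fun z => ρ z * f z) =
      EM side μ c (fun z => wdens A μ ψ Q P z * f z)) ∧
    EM side μ c (fun z => ρ z * Real.log (ψ z)) ≤
      l * EM side μ c (fun z => ρ z * Real.log (hQ A μ Q z))

theorem depOn_wdens {ψ : (V → S) → ℝ} (Q P : Finset V) (hψ : DepOn Q ψ) :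
    DepOn (Q ∪ P) (wdens A μ ψ Q P) := by
  intro z z' hz
  unfold wdens
  have h1 : ∏ i ∈ Q, ∏ j ∈ P, kk A μ (z i) (z j) = ∏ i ∈ Q, ∏ j ∈ P, kk A μ (z' i) (z' j) :=
    depOn_prod2 Q P z z' hz
  rw [h1, depOn_hQ Q z z' fun u hu => hz u (mem_union_left _ hu),
    hψ z z' fun u hu => hz u (mem_union_left _ hu)]

theorem wdens_nonneg (h : Rev A μ c) {ψ : (V → S) → ℝ} (hψ : ∀ z, 0 ≤ ψ z) (Q P : Finset V)
    (z : V → S) : 0 ≤ wdens A μ ψ Q P z := by
  unfold wdens
  refine mul_nonneg (Finset.prod_nonneg fun _ _ => Finset.prod_nonneg fun _ _ =>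
    kk_nonneg h _ _) (mul_nonneg (hψ z) (pow_nonneg (inv_nonneg.2 (hQ_nonneg h _ _)) _))

theorem wdens_insert {ψ : (V → S) → ℝ} {Q P : Finset V} {j : V} (hj : j ∉ P) (z : V → S) :
    wdens A μ ψ Q (insert j P) z =
      wdens A μ ψ Q P z * ((∏ i ∈ Q, kk A μ (z i) (z j)) * (hQ A μ Q z)⁻¹) := by
  unfold wdens
  have h1 : ∏ i ∈ Q, ∏ j ∈ insert j P, kk A μ (z i) (z j) =
      (∏ i ∈ Q, kk A μ (z i) (z j)) * ∏ i ∈ Q, ∏ j ∈ P, kk A μ (z i) (z j) := by
    rw [← Finset.prod_mul_distrib]
    exact Finset.prod_congr rfl fun i _ => Finset.prod_insert hj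
  rw [h1, Finset.card_insert_of_notMem hj, pow_succ]
  ring

/-- a book is a weak book with number one -/
theorem IsBook.weak (h : Rev A μ c) {U : Finset V} {ρ : (V → S) → ℝ} {Q P : Finset V}
    (hρ : ∀ z, 0 ≤ ρ z) (hone : EM side μ c ρ = 1) (hb : IsBook side A μ c U ρ Q P) :
    IsW side A μ c U ρ Q P 1 where
  ne := hb.ne
  sd := hb.sd
  sub := hb.sub
  pos := fun z hz h0 => hb.hQ_pos h hρ hz h0
  log := hb.spine_log h hρ hone
  ex := by
    refine ⟨hQ A μ Q, depOn_hQ Q, hQ_nonneg h Q, fun _ h0 => h0, ?_, ?_⟩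
    · exact hb.law
    · rw [Nat.cast_one, one_mul]

theorem IsW.notMem {U : Finset V} {ρ : (V → S) → ℝ} {Q P : Finset V} {l : ℕ}
    (hb : IsW side A μ c U ρ Q P l) {j : V} (hj : j ∈ P) : j ∉ Q := fun hq => hb.sd j hq j hj rfl

theorem IsW.drop (h : Rev A μ c) {U : Finset V} {ρ : (V → S) → ℝ} {Q P : Finset V} {j : V}
    {l : ℕ} (hj : j ∉ P) (hb : IsW side A μ c U ρ Q (insert j P) l) :
    IsW side A μ c U ρ Q P l where
  ne := hb.ne
  sd := fun i hi k hk => hb.sd i hi k (mem_insert_of_mem hk)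
  sub := (Finset.union_subset_union_right (Finset.subset_insert _ _)).trans hb.sub
  pos := hb.pos
  log := hb.log
  ex := by
    obtain ⟨ψ, hψ, hψ0, hψz, hlaw, hlog⟩ := hb.ex
    refine ⟨ψ, hψ, hψ0, hψz, ?_, hlog⟩
    intro f hf
    have hsub : Q ∪ P ⊆ Q ∪ insert j P :=
      Finset.union_subset_union_right (Finset.subset_insert _ _)
    have hjn : j ∉ Q ∪ P := by
      rw [mem_union, not_or]
      exact ⟨hb.notMem (mem_insert_self _ _), hj⟩
    rw [hlaw f (hf.mono hsub)]
    have e1 : EM side μ c (fun z => wdens A μ ψ Q (insert j P) z * f z) =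
        EM side μ c (fun z => (wdens A μ ψ Q P z * (hQ A μ Q z)⁻¹ * f z) *
          ∏ i ∈ Q, kk A μ (z i) (z j)) :=
      EM_congr fun z _ => by rw [wdens_insert hj]; ring
    have hdep : DepOn (Q ∪ P) (fun z => wdens A μ ψ Q P z * (hQ A μ Q z)⁻¹ * f z) := by
      refine DepOn.mul (DepOn.mul (depOn_wdens Q P hψ) ?_) hf
      intro z z' hz
      show (hQ A μ Q z)⁻¹ = (hQ A μ Q z')⁻¹
      rw [depOn_hQ Q z z' fun u hu => hz u (mem_union_left _ hu)]
    have e2 := EM_int (side := side) h hjn hdep (r := fun z => ∏ i ∈ Q, kk A μ (z i) (z j))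
      (g := hQ A μ Q) (by
        intro z hz _
        obtain ⟨i, hi⟩ := hb.ne
        rw [← hQ_eq h hi (v := j) (side := side)]
        · refine Finset.sum_congr rfl fun x _ => ?_
          congr 1
          refine Finset.prod_congr rfl fun k hk => ?_
          rw [Function.update_self, Function.update_of_ne]
          rintro rfl
          exact hjn (mem_union_left _ hk)
        · rw [side_of_M hz i]
          exact hb.sd i hi j (mem_insert_self _ _))
    refine e1.trans (e2.trans (EM_congr fun z _ => ?_))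
    by_cases h0 : hQ A μ Q z = 0
    · have := hψz z h0
      unfold wdens
      rw [this]
      ring
    · field_simp

theorem IsW.subset (h : Rev A μ c) {U : Finset V} {ρ : (V → S) → ℝ} {Q P P' : Finset V} {l : ℕ}
    (hb : IsW side A μ c U ρ Q P l) (hP : P' ⊆ P) : IsW side A μ c U ρ Q P' l := by
  have key : ∀ D : Finset V, Disjoint P' D → IsW side A μ c U ρ Q (P' ∪ D) l →
      IsW side A μ c U ρ Q P' l := by
    intro D
    induction D using Finset.induction_on with
    | empty => intro _ hD; rwa [union_empty] at hD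
    | insert d D hd ih =>
      intro hdis hD
      rw [Finset.disjoint_insert_right] at hdis
      rw [Finset.union_insert] at hD
      refine ih hdis.2 (IsW.drop h ?_ hD)
      rw [mem_union, not_or]
      exact ⟨hdis.1, hd⟩
  refine key (P \ P') Finset.disjoint_sdiff ?_
  rwa [Finset.union_sdiff_of_subset hP]

/-- a density formula gives positivity -/
theorem ne_of_law (h : Rev A μ c) {ρ D : (V → S) → ℝ} {U : Finset V} (hρ : ∀ z, 0 ≤ ρ z)
    (hD : DepOn U D) (hlaw : ∀ f : (V → S) → ℝ, DepOn U f →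
      EM side μ c (fun z => ρ z * f z) = EM side μ c (fun z => D z * f z)) {z : V → S}
    (hz : (∏ v, mm side μ c v (z v)) ≠ 0) (h0 : ρ z ≠ 0) : D z ≠ 0 := by
  classical
  intro hd
  let f : (V → S) → ℝ := fun z => if D z = 0 then 1 else 0
  have hf : DepOn U f := by
    intro z z' hzz
    show (if D z = 0 then (1 : ℝ) else 0) = if D z' = 0 then 1 else 0
    rw [hD z z' hzz]
  have h1 := hlaw f hf
  have h2 : EM side μ c (fun z => D z * f z) = 0 := by
    unfold EM
    refine Finset.sum_eq_zero fun z _ => ?_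
    show (∏ v, mm side μ c v (z v)) * (D z * (if D z = 0 then (1 : ℝ) else 0)) = 0
    by_cases h3 : D z = 0
    · rw [h3, zero_mul, mul_zero]
    · rw [if_neg h3, mul_zero, mul_zero]
  rw [h2] at h1
  have h4 := eq_zero_of_EM (side := side) h (f := fun z => ρ z * f z) (fun z =>
    mul_nonneg (hρ z) (by
      show (0 : ℝ) ≤ if D z = 0 then 1 else 0
      split_ifs <;> norm_num)) h1 hz
  have h5 : ρ z * f z = ρ z := by
    show ρ z * (if D z = 0 then (1 : ℝ) else 0) = ρ z
    rw [if_pos hd, mul_one]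
  exact h0 (h5.symm.trans h4)

/-- CLONE AVERAGING, general form: the pages of a weak book form a spine -/
theorem IsW.turn (h : Rev A μ c) {U : Finset V} {ρ : (V → S) → ℝ} {Q P : Finset V} {l : ℕ}
    (hρ : ∀ z, 0 ≤ ρ z) (hone : EM side μ c ρ = 1) (hb : IsW side A μ c U ρ Q P l)
    (hP : P.Nonempty) (hl : l ≤ P.card) : IsW side A μ c U ρ P ∅ Q.card := by
  obtain ⟨ψ, hψ, hψ0, hψz, hlaw, hlog⟩ := hb.ex
  obtain ⟨i₀, hi₀⟩ := hb.ne
  have hw : ∀ z, (∏ v, mm side μ c v (z v)) ≠ 0 → ρ z ≠ 0 → wdens A μ ψ Q P z ≠ 0 :=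
    fun z hz h0 => ne_of_law h hρ (depOn_wdens Q P hψ) hlaw hz h0
  have hposP : ∀ z, (∏ v, mm side μ c v (z v)) ≠ 0 → ρ z ≠ 0 → 0 < hQ A μ P z := by
    intro z hz h0
    refine Books.hQ_pos h (x := z i₀) fun j hj h2 => hw z hz h0 ?_
    unfold wdens
    have : ∏ i ∈ Q, ∏ j ∈ P, kk A μ (z i) (z j) = 0 :=
      Finset.prod_eq_zero hi₀ (Finset.prod_eq_zero hj (by rw [kk_symm h, h2]))
    rw [this, zero_mul]
  have hψpos : ∀ z, (∏ v, mm side μ c v (z v)) ≠ 0 → ρ z ≠ 0 → 0 < ψ z := by
    intro z hz h0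
    refine lt_of_le_of_ne (hψ0 z) (Ne.symm fun h2 => hw z hz h0 ?_)
    unfold wdens
    rw [h2, zero_mul, mul_zero]
  -- the density of the pages
  let χ : (V → S) → ℝ := fun z => EM side μ c (fun a => wdens A μ ψ Q P (mix Q a z))
  have hmixP : ∀ (a z : V → S) (j : V), j ∈ P → mix Q a z j = z j := by
    intro a z j hj
    unfold mix
    exact if_neg (hb.notMem hj)
  have hmixQ : ∀ (a z : V → S) (j : V), j ∈ Q → mix Q a z j = a j := by
    intro a z j hj
    unfold mix
    exact if_pos hj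
  have hχ : DepOn P χ := by
    intro z z' hz
    refine EM_congr fun a _ => depOn_wdens Q P hψ _ _ fun u hu => ?_
    rcases mem_union.1 hu with hu | hu
    · rw [hmixQ _ _ u hu, hmixQ _ _ u hu]
    · rw [hmixP _ _ u hu, hmixP _ _ u hu]
      exact hz u hu
  have hχ0 : ∀ z, 0 ≤ χ z := fun z => EM_nonneg h fun a => wdens_nonneg h hψ0 _ _ _
  have hχz : ∀ z, hQ A μ P z = 0 → χ z = 0 := by
    intro z h0
    show EM side μ c (fun a => wdens A μ ψ Q P (mix Q a z)) = 0
    unfold EM
    refine Finset.sum_eq_zero fun a _ => ?_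
    have h1 : ∃ j ∈ P, kk A μ (z j) (a i₀) = 0 := by
      by_contra hcon
      push Not at hcon
      exact (Books.hQ_pos h hcon).ne' h0
    obtain ⟨j, hj, hj0⟩ := h1
    have : ∏ i ∈ Q, ∏ j ∈ P, kk A μ (mix Q a z i) (mix Q a z j) = 0 := by
      refine Finset.prod_eq_zero hi₀ (Finset.prod_eq_zero hj ?_)
      rw [hmixQ _ _ _ hi₀, hmixP _ _ _ hj, kk_symm h, hj0]
    show (∏ w, mm side μ c w (a w)) * wdens A μ ψ Q P (mix Q a z) = 0
    unfold wdens
    rw [this, zero_mul, mul_zero]
  have hχlaw : ∀ f : (V → S) → ℝ, DepOn P f → EM side μ c (fun z => ρ z * f z) =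
      EM side μ c (fun z => χ z * f z) := by
    intro f hf
    rw [hlaw f (hf.mono Finset.subset_union_right), EM_mix Q _ h]
    refine EM_congr fun z _ => ?_
    show _ = EM side μ c (fun a => wdens A μ ψ Q P (mix Q a z)) * f z
    rw [mul_comm, ← EM_smul]
    refine EM_congr fun a _ => ?_
    have : f (mix Q a z) = f z := hf _ _ fun u hu => hmixP a z u hu
    rw [this, mul_comm]
  have hχpos : ∀ z, (∏ v, mm side μ c v (z v)) ≠ 0 → ρ z ≠ 0 → 0 < χ z := fun z hz h0 =>
    lt_of_le_of_ne (hχ0 z) (Ne.symm (ne_of_law h hρ hχ hχlaw hz h0))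
  have hχone : EM side μ c χ = 1 := by
    have := hχlaw (fun _ => 1) (fun _ _ _ => rfl)
    simp only [mul_one] at this
    rw [← hone]
    exact this.symm
  -- the mean logarithm of the density of the pages is nonnegative
  have hX : 0 ≤ EM side μ c (fun z => ρ z * Real.log (χ z)) := by
    have h1 : EM side μ c (fun z => ρ z * (χ z)⁻¹) ≤ 1 := by
      rw [hχlaw (fun z => (χ z)⁻¹) (by
        intro z z' hz
        show (χ z)⁻¹ = (χ z')⁻¹
        rw [hχ z z' hz]), ← EM_one (side := side) (V := V) h]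
      exact EM_mono h fun z _ => mul_inv_le_one
    have h2 := log_nonneg_of (side := side) h hρ hone (φ := fun z => (χ z)⁻¹)
      (fun z hz h0 => inv_pos.2 (hχpos z hz h0)) h1
    have h3 : EM side μ c (fun z => ρ z * Real.log ((χ z)⁻¹)) =
        - EM side μ c (fun z => ρ z * Real.log (χ z)) := by
      rw [← neg_one_mul, ← EM_smul]
      refine EM_congr fun z _ => ?_
      rw [Real.log_inv]
      ring
    rw [h3] at h2
    linarith
  -- the main inequality
  let φ : (V → S) → ℝ := fun z =>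
    χ z * (hQ A μ Q z ^ P.card * ((ψ z)⁻¹ * (hQ A μ P z ^ Q.card)⁻¹))
  have hφdep : DepOn (Q ∪ P) φ := by
    intro z z' hz
    have e1 := depOn_hQ (A := A) (μ := μ) Q z z' fun u hu => hz u (mem_union_left _ hu)
    have e2 := depOn_hQ (A := A) (μ := μ) P z z' fun u hu => hz u (mem_union_right _ hu)
    have e3 := hψ z z' fun u hu => hz u (mem_union_left _ hu)
    have e4 := hχ z z' fun u hu => hz u (mem_union_right _ hu)
    show χ z * (hQ A μ Q z ^ P.card * ((ψ z)⁻¹ * (hQ A μ P z ^ Q.card)⁻¹)) =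
      χ z' * (hQ A μ Q z' ^ P.card * ((ψ z')⁻¹ * (hQ A μ P z' ^ Q.card)⁻¹))
    rw [e1, e2, e3, e4]
  have hφpos : ∀ z, (∏ v, mm side μ c v (z v)) ≠ 0 → ρ z ≠ 0 → 0 < φ z := fun z hz h0 =>
    mul_pos (hχpos z hz h0) (mul_pos (pow_pos (hb.pos z hz h0) _)
      (mul_pos (inv_pos.2 (hψpos z hz h0)) (inv_pos.2 (pow_pos (hposP z hz h0) _))))
  have h1 : EM side μ c (fun z => ρ z * φ z) ≤ 1 := by
    rw [hlaw φ hφdep]
    have e1 : EM side μ c (fun z => wdens A μ ψ Q P z * φ z) ≤
        EM side μ c (fun z => (∏ i ∈ Q, ∏ j ∈ P, kk A μ (z i) (z j)) *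
          (χ z * (hQ A μ P z ^ Q.card)⁻¹)) := by
      refine EM_mono h fun z _ => ?_
      have hn : 0 ≤ (∏ i ∈ Q, ∏ j ∈ P, kk A μ (z i) (z j)) *
          (χ z * (hQ A μ P z ^ Q.card)⁻¹) :=
        mul_nonneg (Finset.prod_nonneg fun _ _ => Finset.prod_nonneg fun _ _ => kk_nonneg h _ _)
          (mul_nonneg (hχ0 z) (inv_nonneg.2 (pow_nonneg (hQ_nonneg h _ _) _)))
      have he : wdens A μ ψ Q P z * φ z = ((∏ i ∈ Q, ∏ j ∈ P, kk A μ (z i) (z j)) *
          (χ z * (hQ A μ P z ^ Q.card)⁻¹)) * ((ψ z * (ψ z)⁻¹) *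
            (hQ A μ Q z * (hQ A μ Q z)⁻¹) ^ P.card) := by
        show ((∏ i ∈ Q, ∏ j ∈ P, kk A μ (z i) (z j)) * (ψ z * (hQ A μ Q z)⁻¹ ^ P.card)) *
          (χ z * (hQ A μ Q z ^ P.card * ((ψ z)⁻¹ * (hQ A μ P z ^ Q.card)⁻¹))) = _
        ring
      rw [he]
      refine mul_le_of_le_one_right hn (mul_le_one₀ mul_inv_le_one ?_ (pow_le_one₀ ?_ ?_))
      · exact pow_nonneg (mul_nonneg (hQ_nonneg h _ _) (inv_nonneg.2 (hQ_nonneg h _ _))) _
      · exact mul_nonneg (hQ_nonneg h _ _) (inv_nonneg.2 (hQ_nonneg h _ _))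
      · exact mul_inv_le_one
    refine e1.trans ?_
    have e2 := EM_spine h Q P hP hb.sd (fun z => χ z * (hQ A μ P z ^ Q.card)⁻¹) (by
      intro z z' hz
      show χ z * (hQ A μ P z ^ Q.card)⁻¹ = χ z' * (hQ A μ P z' ^ Q.card)⁻¹
      rw [depOn_hQ P z z' hz, hχ z z' hz])
    rw [e2, ← hχone]
    refine EM_mono h fun z _ => ?_
    have e3 : hQ A μ P z ^ Q.card * (χ z * (hQ A μ P z ^ Q.card)⁻¹) =
        χ z * (hQ A μ P z ^ Q.card * (hQ A μ P z ^ Q.card)⁻¹) := by ring
    rw [e3]
    exact mul_le_of_le_one_right (hχ0 z) mul_inv_le_one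
  have h2 := log_nonneg_of (side := side) h hρ hone hφpos h1
  have h3 : EM side μ c (fun z => ρ z * Real.log (φ z)) =
      EM side μ c (fun z => ρ z * Real.log (χ z)) +
        (P.card * EM side μ c (fun z => ρ z * Real.log (hQ A μ Q z)) -
          (EM side μ c (fun z => ρ z * Real.log (ψ z)) +
            Q.card * EM side μ c (fun z => ρ z * Real.log (hQ A μ P z)))) := by
    rw [← EM_smul, ← EM_smul, ← EM_add, ← EM_sub, ← EM_add]
    refine EM_congr fun z hz => ?_
    by_cases h0 : ρ z = 0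
    · rw [h0]
      ring
    · have p1 := hb.pos z hz h0
      have p2 := hposP z hz h0
      have p3 := hψpos z hz h0
      have p4 := hχpos z hz h0
      show ρ z * Real.log (χ z * (hQ A μ Q z ^ P.card *
        ((ψ z)⁻¹ * (hQ A μ P z ^ Q.card)⁻¹))) = _
      rw [Real.log_mul p4.ne' (mul_pos (pow_pos p1 _) (mul_pos (inv_pos.2 p3)
        (inv_pos.2 (pow_pos p2 _)))).ne', Real.log_mul (pow_pos p1 _).ne'
        (mul_pos (inv_pos.2 p3) (inv_pos.2 (pow_pos p2 _))).ne',
        Real.log_mul (inv_pos.2 p3).ne' (inv_pos.2 (pow_pos p2 _)).ne', Real.log_inv,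
        Real.log_inv, Real.log_pow, Real.log_pow]
      ring
  rw [h3] at h2
  have hPl : (l : ℝ) * EM side μ c (fun z => ρ z * Real.log (hQ A μ Q z)) ≤
      P.card * EM side μ c (fun z => ρ z * Real.log (hQ A μ Q z)) :=
    mul_le_mul_of_nonneg_right (by exact_mod_cast hl) hb.log
  have hq : (0 : ℝ) < Q.card := by
    exact_mod_cast Finset.card_pos.2 ⟨i₀, hi₀⟩
  have hmain : EM side μ c (fun z => ρ z * Real.log (χ z)) ≤
      Q.card * EM side μ c (fun z => ρ z * Real.log (hQ A μ P z)) := by linarith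
  refine ⟨hP, by simp, ?_, hposP, ?_, χ, hχ, hχ0, hχz, ?_, hmain⟩
  · rw [union_empty]
    exact Finset.subset_union_right.trans hb.sub
  · by_contra hcon
    push Not at hcon
    have := mul_neg_of_pos_of_neg hq hcon
    linarith
  · intro f hf
    rw [union_empty] at hf
    rw [hχlaw f hf]
    refine EM_congr fun z _ => ?_
    unfold wdens
    simp

theorem IsW.keep (h : Rev A μ c) {U R : Finset V} {v i : V} {ρ : (V → S) → ℝ} {l : ℕ}
    (hdep : DepOn U ρ) (hv : v ∉ U) (hR : R ⊆ U) (hi : i ∈ R) (hsd : side i ≠ side v)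
    (hp : ∀ z : V → S, (∏ v, mm side μ c v (z v)) ≠ 0 → ρ z ≠ 0 → 0 < hQ A μ R z)
    {Q P : Finset V} (hb : IsW side A μ c U ρ Q P l) :
    IsW side A μ c (insert v U) (fun z => ρ z * rr A μ R v z) Q P l where
  ne := hb.ne
  sd := hb.sd
  sub := hb.sub.trans (Finset.subset_insert _ _)
  pos := fun z hz h0 => hb.pos z hz (left_ne_zero_of_mul h0)
  log := by
    rw [persist h hdep hv hR hi hsd hp (f := fun z => Real.log (hQ A μ Q z)) (by
      intro z z' hz
      show Real.log (hQ A μ Q z) = Real.log (hQ A μ Q z')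
      rw [depOn_hQ Q z z' fun u hu => hz u (hb.sub (mem_union_left _ hu))])]
    exact hb.log
  ex := by
    obtain ⟨ψ, hψ, hψ0, hψz, hlaw, hlog⟩ := hb.ex
    refine ⟨ψ, hψ, hψ0, hψz, ?_, ?_⟩
    · intro f hf
      rw [persist h hdep hv hR hi hsd hp (hf.mono hb.sub)]
      exact hlaw f hf
    · rw [persist h hdep hv hR hi hsd hp (f := fun z => Real.log (hQ A μ Q z)) (by
        intro z z' hz
        show Real.log (hQ A μ Q z) = Real.log (hQ A μ Q z')
        rw [depOn_hQ Q z z' fun u hu => hz u (hb.sub (mem_union_left _ hu))]),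
        persist h hdep hv hR hi hsd hp (f := fun z => Real.log (ψ z)) (by
        intro z z' hz
        show Real.log (ψ z) = Real.log (ψ z')
        rw [hψ z z' fun u hu => hz u (hb.sub (mem_union_left _ hu))])]
      exact hlog

theorem IsW.page (h : Rev A μ c) {U R : Finset V} {v i : V} {ρ : (V → S) → ℝ} {l : ℕ}
    (hdep : DepOn U ρ) (hv : v ∉ U) (hR : R ⊆ U) (hi : i ∈ R) (hsd : ∀ i ∈ R, side i ≠ side v)
    (hp : ∀ z : V → S, (∏ v, mm side μ c v (z v)) ≠ 0 → ρ z ≠ 0 → 0 < hQ A μ R z)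
    {P : Finset V} (hb : IsW side A μ c U ρ R P l) :
    IsW side A μ c (insert v U) (fun z => ρ z * rr A μ R v z) R (insert v P) l := by
  have hk := hb.keep h hdep hv hR hi (hsd i hi) hp
  obtain ⟨ψ, hψ, hψ0, hψz, hlaw, hlog⟩ := hb.ex
  have hvRP : v ∉ R ∪ P := fun hm => hv (hb.sub hm)
  refine ⟨hb.ne, ?_, ?_, hk.pos, hk.log, ψ, hψ, hψ0, hψz, ?_, ?_⟩
  · intro i hi j hj
    rw [mem_insert] at hj
    rcases hj with rfl | hj
    · exact hsd i hi
    · exact hb.sd i hi j hj
  · rw [Finset.union_insert]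
    exact Finset.insert_subset_insert _ hb.sub
  · intro f hf
    rw [Finset.union_insert] at hf
    have hRs : R ⊆ R ∪ P := Finset.subset_union_left
    let r : (V → S) → ℝ := fun z => rr A μ R v z * f z
    have hr : DepOn (insert v (R ∪ P)) r := (depOn_rr hRs).mul hf
    let g : (V → S) → ℝ := fun z => ∑ x, mm side μ c v x * r (Function.update z v x)
    have hg : DepOn (R ∪ P) g := by
      intro z z' hz
      refine Finset.sum_congr rfl fun x _ => ?_
      congr 1
      refine hr _ _ fun u hu => ?_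
      by_cases huv : u = v
      · rw [huv, Function.update_self, Function.update_self]
      · rw [Function.update_of_ne huv, Function.update_of_ne huv]
        exact hz u ((mem_insert.1 hu).resolve_left huv)
    have e1 : EM side μ c (fun z => ρ z * rr A μ R v z * f z) =
        EM side μ c (fun z => ρ z * r z) := EM_congr fun z _ => mul_assoc _ _ _
    have e2 : EM side μ c (fun z => ρ z * r z) = EM side μ c (fun z => ρ z * g z) :=
      EM_push h hv hdep r
    have e3 : EM side μ c (fun z => wdens A μ ψ R P z * r z) =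
        EM side μ c (fun z => wdens A μ ψ R P z * g z) :=
      EM_push h hvRP (depOn_wdens R P hψ) r
    rw [e1, e2, hlaw g hg, ← e3]
    refine EM_congr fun z _ => ?_
    have hvP : v ∉ P := fun hm => hvRP (mem_union_right _ hm)
    rw [wdens_insert hvP]
    show wdens A μ ψ R P z * (rr A μ R v z * f z) = _
    unfold rr
    ring
  · rw [persist h hdep hv hR hi (hsd i hi) hp (f := fun z => Real.log (hQ A μ R z)) (by
        intro z z' hz
        show Real.log (hQ A μ R z) = Real.log (hQ A μ R z')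
        rw [depOn_hQ R z z' fun u hu => hz u (hR hu)]),
        persist h hdep hv hR hi (hsd i hi) hp (f := fun z => Real.log (ψ z)) (by
        intro z z' hz
        show Real.log (ψ z) = Real.log (ψ z')
        rw [hψ z z' fun u hu => hz u (hR hu)])]
    exact hlog

/-- the meaning of a recorded book: with number one, the law of the book is the exact one -/
def IsF (side : V → Bool) (A : Matrix S S ℝ) (μ : S → ℝ) (c : S → Bool) (U : Finset V)
    (ρ : (V → S) → ℝ) (Q P : Finset V) (l : ℕ) : Prop :=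
  IsW side A μ c U ρ Q P l ∧ (l = 1 → IsBook side A μ c U ρ Q P)

theorem isF_of_clW (h : Rev A μ c) {U : Finset V} {ρ : (V → S) → ℝ}
    (hρ : ∀ z, 0 ≤ ρ z) (hone : EM side μ c ρ = 1) {F : Set (Finset V × Finset V × ℕ)}
    (hF : ∀ p ∈ F, IsF side A μ c U ρ p.1 p.2.1 p.2.2) {Q P : Finset V} {l : ℕ}
    (hc : ClW F Q P l) : IsF side A μ c U ρ Q P l := by
  induction hc with
  | base h1 => exact hF _ h1
  | sub _ h2 ih => exact ⟨ih.1.subset h h2, fun hl => (ih.2 hl).subset h h2⟩
  | flip _ h2 ih =>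
    have := (ih.2 rfl).flip h h2
    exact ⟨this.weak h hρ hone, fun _ => this⟩
  | flip' _ ih =>
    have := (ih.2 rfl).flip' h
    exact ⟨this.weak h hρ hone, fun _ => this⟩
  | turn _ h1 h2 h3 ih =>
    refine ⟨ih.1.turn h hρ hone h1 h2, fun hl => ?_⟩
    omega

/-- SOUNDNESS of the class `BuiltW` -/
theorem soundW (h : Rev A μ c) {H : SimpleGraph V} (hs : ∀ u v, H.Adj u v → side u ≠ side v)
    {U : Finset V} {F : Set (Finset V × Finset V × ℕ)} (hb : BuiltW H U F) :
    ∃ ρ L : (V → S) → ℝ, Law H side A μ c U ρ L ∧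
      ∀ p ∈ F, IsF side A μ c U ρ p.1 p.2.1 p.2.2 := by
  induction hb with
  | point v =>
    refine ⟨_, _, law_point h H side v, ?_⟩
    intro p hp
    rw [Set.mem_singleton_iff] at hp
    subst hp
    have hk := isBook_point (side := side) h v
    exact ⟨hk.weak h (fun _ => zero_le_one) (EM_one h), fun _ => hk⟩
  | @page U F v R l hb hv hRn hRU hR hcl ih =>
    obtain ⟨ρ, L, hl, hF⟩ := ih
    have hbk := (isF_of_clW h hl.nonneg hl.one hF hcl).1
    have hp := hbk.pos
    have hsd : ∀ i ∈ R, side i ≠ side v := fun i hi => (hs v i ((hR i (hRU hi)).2 hi)).symm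
    refine ⟨_, _, hl.attach h hs hv hRn hRU hR hp hbk.log, ?_⟩
    obtain ⟨i, hi⟩ := hRn
    rintro ⟨Q, P, m⟩ (hQP | ⟨P', m', h2, h3⟩)
    · have := hF _ hQP
      exact ⟨this.1.keep h hl.dep hv hRU hi (hsd i hi) hp,
        fun hm => (this.2 hm).keep h hl.dep hv hRU hi (hsd i hi) hp⟩
    · rw [Prod.mk.injEq, Prod.mk.injEq] at h3
      obtain ⟨rfl, rfl, rfl⟩ := h3
      have := isF_of_clW h hl.nonneg hl.one hF h2
      exact ⟨this.1.page h hl.dep hv hRU hi hsd hp,
        fun hm => (this.2 hm).page h hl.dep hv hsd⟩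
  | @pendant U F u v hb hv hu hR ih =>
    obtain ⟨ρ, L, hl, hF⟩ := ih
    have hp : ∀ z : V → S, (∏ v, mm side μ c v (z v)) ≠ 0 → ρ z ≠ 0 → 0 < hQ A μ {u} z :=
      fun z _ _ => by rw [hQ_singleton h]; exact zero_lt_one
    have hR' : ∀ x ∈ U, H.Adj v x ↔ x ∈ ({u} : Finset V) := by
      intro x hx
      rw [mem_singleton]
      exact hR x hx
    have hRU : ({u} : Finset V) ⊆ U := by
      rw [Finset.singleton_subset_iff]
      exact hu
    refine ⟨_, _, hl.attach h hs hv (singleton_nonempty u) hRU hR' hp ?_, ?_⟩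
    · refine le_of_eq ?_
      simp only [hQ_singleton h, Real.log_one, mul_zero]
      unfold EM
      simp
    · intro p hpF
      have := hF p hpF
      exact ⟨this.1.keep h hl.dep hv hRU (mem_singleton_self u)
        ((hs v u ((hR u hu).2 rfl)).symm) hp, fun hm => (this.2 hm).keep h hl.dep hv hRU
        (mem_singleton_self u) ((hs v u ((hR u hu).2 rfl)).symm) hp⟩

/-- a law for the whole graph gives the Sidorenko inequality for reversible chains -/
theorem Law.sum_wt_ge (h : Rev A μ c) {H : SimpleGraph V} {ρ L : (V → S) → ℝ}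
    (hl : Law H side A μ c univ ρ L) : 1 ≤ ∑ z : V → S, wt H side A μ c z := by
  classical
  have e1 : ∑ z : V → S, wt H side A μ c z = EM side μ c (fun z => ρ z * L z) := by
    unfold EM
    refine Finset.sum_congr rfl fun z _ => ?_
    show wt H side A μ c z = (∏ v, mm side μ c v (z v)) * (ρ z * L z)
    by_cases hz : ∀ v, c (z v) = side v
    · rw [wt_pos hz]
      have hM : (∏ v, mm side μ c v (z v)) = ∏ v, μ (z v) := by
        refine Finset.prod_congr rfl fun v _ => ?_
        unfold mm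
        exact if_pos (hz v)
      have hM0 : (∏ v, mm side μ c v (z v)) ≠ 0 := by
        rw [hM]
        exact (Finset.prod_pos fun v _ => h.pos _).ne'
      rw [hl.mul z hM0, hM]
      congr 1
      unfold edgeW
      have : (sideEdges H side).filter (fun e => e.1 ∈ (univ : Finset V) ∧
          e.2 ∈ (univ : Finset V)) = sideEdges H side := by
        refine Finset.filter_true_of_mem fun e _ => ⟨mem_univ _, mem_univ _⟩
      rw [this]
      rfl
    · rw [wt_neg hz]
      have : (∏ v, mm side μ c v (z v)) = 0 := by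
        push Not at hz
        obtain ⟨v, hv⟩ := hz
        refine Finset.prod_eq_zero (mem_univ v) ?_
        unfold mm
        exact if_neg hv
      rw [this, zero_mul]
  rw [e1]
  have h1 : EM side μ c (fun z => ρ z * Real.log (L z)) ≤
      EM side μ c (fun z => ρ z * L z - ρ z) := by
    refine EM_mono h fun z hz => ?_
    by_cases h0 : ρ z = 0
    · rw [h0, zero_mul, zero_mul, sub_zero]
    · have h2 := Real.log_le_sub_one_of_pos (hl.pos z hz h0)
      have h3 := mul_le_mul_of_nonneg_left h2 (hl.nonneg z)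
      linarith
  rw [EM_sub, hl.one] at h1
  have := hl.log
  linarith

theorem sum_wt_geW (h : Rev A μ c) {H : SimpleGraph V} (hs : ∀ u v, H.Adj u v → side u ≠ side v)
    {F : Set (Finset V × Finset V × ℕ)} (hb : BuiltW H univ F) :
    1 ≤ ∑ z : V → S, wt H side A μ c z := by
  obtain ⟨ρ, L, hl, -⟩ := soundW (side := side) h hs hb
  exact hl.sum_wt_ge h

end Weak

end Vale.Agent.P050.Books
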